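import Vale.Agent.P227.PL

/-! Log-convexity (Hoelder) and log-concavity (Prekopa) of integrals of exponentials. -/

open MeasureTheory Set
open scoped ENNReal

namespace Vale.Agent.P227.M.LKE

/-- Hoelder: if every `y ↦ F y x` is convex, then `y ↦ log ∫ exp (F y x)` is convex. -/
theorem convexOn_log_integral_exp {Y X : Type*} [AddCommGroup Y] [Module ℝ Y]
    [MeasurableSpace X] (μ : Measure X) [NeZero μ] (F : Y → X → ℝ)
    (hF : ∀ x, ConvexOn ℝ univ (fun y => F y x))
    (hint : ∀ y, Integrable (fun x => Real.exp (F y x)) μ) :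
    ConvexOn ℝ univ (fun y => Real.log (∫ x, Real.exp (F y x) ∂μ)) := by
  refine ⟨convex_univ, ?_⟩
  intro y0 _ y1 _ s t hs ht hst
  have hA : 0 < ∫ x, Real.exp (F y0 x) ∂μ := integral_exp_pos (hint y0)
  have hB : 0 < ∫ x, Real.exp (F y1 x) ∂μ := integral_exp_pos (hint y1)
  have hC : 0 < ∫ x, Real.exp (F (s • y0 + t • y1) x) ∂μ := integral_exp_pos (hint _)
  set A := ∫ x, Real.exp (F y0 x) ∂μ with hAd
  set B := ∫ x, Real.exp (F y1 x) ∂μ with hBd
  set P := Real.exp (s * Real.log A + t * Real.log B) with hP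
  have hPpos : 0 < P := Real.exp_pos _
  have hpt : ∀ x, Real.exp (F (s • y0 + t • y1) x) ≤
      P * (s * (Real.exp (F y0 x) / A) + t * (Real.exp (F y1 x) / B)) := by
    intro x
    have h1 : F (s • y0 + t • y1) x ≤ s * F y0 x + t * F y1 x :=
      (hF x).2 (mem_univ _) (mem_univ _) hs ht hst
    have h2 : Real.exp (s * (F y0 x - Real.log A) + t * (F y1 x - Real.log B)) ≤
        s * Real.exp (F y0 x - Real.log A) + t * Real.exp (F y1 x - Real.log B) :=
      convexOn_exp.2 (mem_univ _) (mem_univ _) hs ht hst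
    have h3 : Real.exp (F y0 x - Real.log A) = Real.exp (F y0 x) / A := by
      rw [Real.exp_sub, Real.exp_log hA]
    have h4 : Real.exp (F y1 x - Real.log B) = Real.exp (F y1 x) / B := by
      rw [Real.exp_sub, Real.exp_log hB]
    rw [h3, h4] at h2
    calc Real.exp (F (s • y0 + t • y1) x) ≤ Real.exp (s * F y0 x + t * F y1 x) :=
          Real.exp_le_exp.2 h1
      _ = P * Real.exp (s * (F y0 x - Real.log A) + t * (F y1 x - Real.log B)) := by
          rw [hP, ← Real.exp_add]
          congr 1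
          ring
      _ ≤ _ := mul_le_mul_of_nonneg_left h2 hPpos.le
  have hint2 : Integrable
      (fun x => P * (s * (Real.exp (F y0 x) / A) + t * (Real.exp (F y1 x) / B))) μ :=
    ((((hint y0).div_const A).const_mul s).add (((hint y1).div_const B).const_mul t)).const_mul P
  have h5 := integral_mono (hint (s • y0 + t • y1)) hint2 hpt
  have h6 : ∫ x, P * (s * (Real.exp (F y0 x) / A) + t * (Real.exp (F y1 x) / B)) ∂μ = P := by
    rw [integral_const_mul, integral_add (((hint y0).div_const A).const_mul s)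
      (((hint y1).div_const B).const_mul t), integral_const_mul, integral_const_mul,
      integral_div, integral_div, ← hAd, ← hBd, div_self hA.ne', div_self hB.ne']
    rw [mul_one, mul_one, hst, mul_one]
  rw [h6] at h5
  have h7 := Real.log_le_log hC h5
  rw [hP, Real.log_exp] at h7
  simpa [smul_eq_mul] using h7

/-- Prekopa-Leindler on Euclidean space with weights. -/
theorem pl_euclidean {s t : ℝ} (hs : 0 < s) (ht : 0 < t) (hst : s + t = 1) {d : ℕ}
    (f g h : EuclideanSpace ℝ (Fin d) → ℝ≥0∞) (hf : Measurable f) (hg : Measurable g)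
    (hh : Measurable h) (hfg : ∀ x y, f x ^ s * g y ^ t ≤ h (s • x + t • y)) :
    (∫⁻ x, f x) ^ s * (∫⁻ x, g x) ^ t ≤ ∫⁻ x, h x := by
  have hvp := PiLp.volume_preserving_toLp (Fin d)
  have htr : ∀ u : EuclideanSpace ℝ (Fin d) → ℝ≥0∞, Measurable u →
      ∫⁻ x, u x = ∫⁻ x : Fin d → ℝ, u (WithLp.toLp 2 x) := by
    intro u hu
    rw [← hvp.lintegral_comp hu]
  have hm : ∀ u : EuclideanSpace ℝ (Fin d) → ℝ≥0∞, Measurable u →
      Measurable fun x : Fin d → ℝ => u (WithLp.toLp 2 x) := by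
    intro u hu
    exact hu.comp hvp.measurable
  rw [htr f hf, htr g hg, htr h hh]
  refine pl_pi hs ht hst d _ _ _ (hm f hf) (hm g hg) (hm h hh) ?_
  intro x y
  have := hfg (WithLp.toLp 2 x) (WithLp.toLp 2 y)
  convert this using 2
  ext i
  simp

/-- Prekopa: if `F` is jointly convex, then `y ↦ - log ∫ exp (- F y x) dx` is convex. -/
theorem convexOn_neg_log_integral_exp_neg {Y : Type*} [AddCommGroup Y] [Module ℝ Y] {d : ℕ}
    (F : Y → EuclideanSpace ℝ (Fin d) → ℝ)
    (hF : ∀ y0 y1 x0 x1, ∀ s t : ℝ, 0 < s → 0 < t → s + t = 1 →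
      F (s • y0 + t • y1) (s • x0 + t • x1) ≤ s * F y0 x0 + t * F y1 x1)
    (hmeas : ∀ y, Measurable (F y))
    (hint : ∀ y, Integrable (fun x => Real.exp (- F y x))) :
    ConvexOn ℝ univ (fun y => - Real.log (∫ x, Real.exp (- F y x))) := by
  refine ⟨convex_univ, ?_⟩
  intro y0 _ y1 _ s t hs ht hst
  rcases hs.eq_or_lt with h0 | hs'
  · subst h0
    have ht1 : t = 1 := by linarith
    subst ht1
    simp
  rcases ht.eq_or_lt with h0 | ht'
  · subst h0
    have hs1 : s = 1 := by linarith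
    subst hs1
    simp
  have hpos : ∀ y, 0 < ∫ x, Real.exp (- F y x) := fun y => integral_exp_pos (hint y)
  have hlin : ∀ y, ∫⁻ x, ENNReal.ofReal (Real.exp (- F y x)) =
      ENNReal.ofReal (∫ x, Real.exp (- F y x)) := fun y =>
    (ofReal_integral_eq_lintegral_ofReal (hint y)
      (Filter.Eventually.of_forall fun x => (Real.exp_pos _).le)).symm
  have hm : ∀ y, Measurable (fun x => ENNReal.ofReal (Real.exp (- F y x))) := fun y =>
    (Real.measurable_exp.comp (hmeas y).neg).ennreal_ofReal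
  have hpl := pl_euclidean hs' ht' hst _ _ _ (hm y0) (hm y1) (hm (s • y0 + t • y1)) (by
    intro x0 x1
    rw [ENNReal.ofReal_rpow_of_pos (Real.exp_pos _), ENNReal.ofReal_rpow_of_pos (Real.exp_pos _),
      ← ENNReal.ofReal_mul (Real.rpow_nonneg (Real.exp_pos _).le _)]
    refine ENNReal.ofReal_le_ofReal ?_
    rw [← Real.exp_mul, ← Real.exp_mul, ← Real.exp_add]
    refine Real.exp_le_exp.2 ?_
    have := hF y0 y1 x0 x1 s t hs' ht' hst
    linarith)
  rw [hlin, hlin, hlin, ENNReal.ofReal_rpow_of_pos (hpos _), ENNReal.ofReal_rpow_of_pos (hpos _),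
    ← ENNReal.ofReal_mul (Real.rpow_nonneg (hpos _).le _),
    ENNReal.ofReal_le_ofReal_iff (hpos _).le] at hpl
  have h7 := Real.log_le_log (mul_pos (Real.rpow_pos_of_pos (hpos y0) s)
    (Real.rpow_pos_of_pos (hpos y1) t)) hpl
  rw [Real.log_mul (Real.rpow_pos_of_pos (hpos y0) s).ne' (Real.rpow_pos_of_pos (hpos y1) t).ne',
    Real.log_rpow (hpos y0), Real.log_rpow (hpos y1)] at h7
  simp only [smul_eq_mul]
  linarith

end Vale.Agent.P227.M.LKE
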