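import Mathlib
import Vale.Agent.P227.M.LK.LogConvE

/-! The log-Laplace transform `Lap k g y = log ∫ exp (k <x,y> - g x) dx` and the convexity bounds. -/

open MeasureTheory Set
open scoped ENNReal RealInnerProductSpace

namespace Vale.Agent.P227.M.LKE

abbrev EE (n : ℕ) := EuclideanSpace ℝ (Fin n)

variable {n : ℕ}

noncomputable def Lap (k : ℝ) (g : EE n → ℝ) (y : EE n) : ℝ :=
  Real.log (∫ x : EE n, Real.exp (k * ⟪x, y⟫ - g x))

/-- a convex function on a finite dimensional space has an affine lower bound -/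
theorem convex_lower_bound {r : EE n → ℝ} (hr : ConvexOn ℝ univ r) :
    ∃ C : ℝ, 0 ≤ C ∧ ∀ x, - C * (1 + ‖x‖) ≤ r x := by
  have hcont : Continuous r := by
    rw [← continuousOn_univ]
    exact hr.continuousOn isOpen_univ
  obtain ⟨C, hC⟩ := (isCompact_closedBall (0 : EE n) 1).exists_bound_of_continuousOn
    hcont.continuousOn
  have hC0 : 0 ≤ C := (norm_nonneg _).trans (hC 0 (by simp))
  refine ⟨C * 2, by positivity, fun x => ?_⟩
  by_cases hx : ‖x‖ ≤ 1
  · have h1 := hC x (by simpa using hx)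
    rw [Real.norm_eq_abs] at h1
    have h2 := (abs_le.1 h1).1
    have := norm_nonneg x
    nlinarith
  · push Not at hx
    have hx0 : 0 < ‖x‖ := by linarith
    have h1 := hC ((‖x‖)⁻¹ • x) (by
      rw [mem_closedBall_zero_iff, norm_smul, norm_inv, norm_norm, inv_mul_cancel₀ hx0.ne'])
    have h0 := hC 0 (by simp)
    rw [Real.norm_eq_abs] at h1 h0
    have h3 := hr.2 (mem_univ (0 : EE n)) (mem_univ x)
      (sub_nonneg.2 (inv_le_one_of_one_le₀ hx.le)) (inv_nonneg.2 hx0.le) (by ring)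
    rw [smul_zero, zero_add, smul_eq_mul, smul_eq_mul] at h3
    have h4 := (abs_le.1 h1).1
    have h5 := (abs_le.1 h0).2
    have h6 : 0 ≤ 1 - (‖x‖)⁻¹ := sub_nonneg.2 (inv_le_one_of_one_le₀ hx.le)
    have h7 : (1 - (‖x‖)⁻¹) * r 0 ≤ (1 - (‖x‖)⁻¹) * C := mul_le_mul_of_nonneg_left h5 h6
    have h8 : - C - (1 - (‖x‖)⁻¹) * C ≤ (‖x‖)⁻¹ * r x := by linarith
    have h9 := mul_le_mul_of_nonneg_left h8 hx0.le
    rw [← mul_assoc, mul_inv_cancel₀ hx0.ne', one_mul] at h9
    have h10 : ‖x‖ * (- C - (1 - (‖x‖)⁻¹) * C) = - 2 * C * ‖x‖ + C := by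
      field_simp
      ring
    rw [h10] at h9
    linarith

theorem integrable_exp_lin_neg_sq {α : ℝ} (hα : 0 < α) (B : ℝ) :
    Integrable (fun x : EE n => Real.exp (B * ‖x‖ - α * ‖x‖ ^ 2)) := by
  have h := GaussianFourier.integrable_cexp_neg_mul_sq_norm_add (V := EE n)
    (b := ((α / 2 : ℝ) : ℂ)) (by simpa using half_pos hα) 0 0
  have h1 : Integrable (fun x : EE n => Real.exp (-(α / 2) * ‖x‖ ^ 2)) := by
    refine h.norm.congr (Filter.Eventually.of_forall fun x => ?_)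
    simp only [Complex.norm_exp]
    congr 1
    simp [← Complex.ofReal_pow]
  refine (h1.const_mul (Real.exp (B ^ 2 / (2 * α)))).mono' ?_ ?_
  · exact (Real.continuous_exp.comp (by fun_prop)).aestronglyMeasurable
  · refine Filter.Eventually.of_forall fun x => ?_
    rw [Real.norm_eq_abs, abs_of_pos (Real.exp_pos _), ← Real.exp_add]
    refine Real.exp_le_exp.2 ?_
    have h2 : B ^ 2 / (2 * α) + -(α / 2) * ‖x‖ ^ 2 - (B * ‖x‖ - α * ‖x‖ ^ 2) =
        (α * ‖x‖ - B) ^ 2 / (2 * α) := by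
      field_simp
      ring
    have h3 : 0 ≤ (α * ‖x‖ - B) ^ 2 / (2 * α) := by positivity
    linarith

/-- integrability of the Laplace integrand -/
theorem integrable_lap {α : ℝ} (hα : 0 < α) {g : EE n → ℝ}
    (hg : ConvexOn ℝ univ (fun x => g x - α / 2 * ‖x‖ ^ 2)) (k : ℝ) (y : EE n) :
    Integrable (fun x : EE n => Real.exp (k * ⟪x, y⟫ - g x)) := by
  obtain ⟨C, hC0, hC⟩ := convex_lower_bound hg
  have hcont : Continuous g := by
    have h1 : Continuous (fun x => g x - α / 2 * ‖x‖ ^ 2) := by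
      rw [← continuousOn_univ]
      exact hg.continuousOn isOpen_univ
    have h2 : Continuous (fun x => (g x - α / 2 * ‖x‖ ^ 2) + α / 2 * ‖x‖ ^ 2) :=
      h1.add (by fun_prop)
    refine h2.congr fun x => ?_
    ring
  refine ((integrable_exp_lin_neg_sq (n := n) (half_pos hα) (|k| * ‖y‖ + C)).const_mul
    (Real.exp C)).mono' ?_ ?_
  · exact (Real.continuous_exp.comp (by fun_prop)).aestronglyMeasurable
  · refine Filter.Eventually.of_forall fun x => ?_
    rw [Real.norm_eq_abs, abs_of_pos (Real.exp_pos _), ← Real.exp_add]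
    refine Real.exp_le_exp.2 ?_
    have h1 := hC x
    have h2 : k * ⟪x, y⟫ ≤ |k| * ‖y‖ * ‖x‖ := by
      calc k * ⟪x, y⟫ ≤ |k * ⟪x, y⟫| := le_abs_self _
        _ = |k| * |⟪x, y⟫| := abs_mul _ _
        _ ≤ |k| * (‖x‖ * ‖y‖) := mul_le_mul_of_nonneg_left (abs_real_inner_le_norm x y) (abs_nonneg _)
        _ = _ := by ring
    nlinarith

/-- Prekopa: lower convexity bound of `g` gives an upper bound for `Lap`. -/
theorem lap_upper {α : ℝ} (hα : 0 < α) {g : EE n → ℝ}
    (hg : ConvexOn ℝ univ (fun x => g x - α / 2 * ‖x‖ ^ 2)) (k : ℝ) :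
    ConvexOn ℝ univ (fun y : EE n => k ^ 2 / (2 * α) * ‖y‖ ^ 2 - Lap k g y) := by
  have hsq : ∀ (y x : EE n), k ^ 2 / (2 * α) * ‖y‖ ^ 2 - (k * ⟪x, y⟫ - g x) =
      (g x - α / 2 * ‖x‖ ^ 2) + α / 2 * ‖x - (k / α) • y‖ ^ 2 := by
    intro y x
    rw [norm_sub_sq_real, norm_smul, real_inner_smul_right, mul_pow, Real.norm_eq_abs, sq_abs]
    field_simp
    ring
  have hF : ∀ (y0 y1 x0 x1 : EE n), ∀ s t : ℝ, 0 < s → 0 < t → s + t = 1 →
      (fun (y x : EE n) => k ^ 2 / (2 * α) * ‖y‖ ^ 2 - (k * ⟪x, y⟫ - g x)) (s • y0 + t • y1)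
        (s • x0 + t • x1) ≤
      s * (fun (y x : EE n) => k ^ 2 / (2 * α) * ‖y‖ ^ 2 - (k * ⟪x, y⟫ - g x)) y0 x0 +
      t * (fun (y x : EE n) => k ^ 2 / (2 * α) * ‖y‖ ^ 2 - (k * ⟪x, y⟫ - g x)) y1 x1 := by
    intro y0 y1 x0 x1 s t hs ht hst
    simp only [hsq]
    have h1 := hg.2 (mem_univ x0) (mem_univ x1) hs.le ht.le hst
    simp only [smul_eq_mul] at h1
    have h2 : ConvexOn ℝ univ (fun v : EE n => ‖v‖ ^ 2) :=
      (convexOn_norm convex_univ).pow (fun v _ => norm_nonneg v) 2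
    have h3 := h2.2 (mem_univ (x0 - (k / α) • y0)) (mem_univ (x1 - (k / α) • y1)) hs.le ht.le hst
    simp only [smul_eq_mul] at h3
    have h4 : s • x0 + t • x1 - (k / α) • (s • y0 + t • y1) =
        s • (x0 - (k / α) • y0) + t • (x1 - (k / α) • y1) := by
      rw [smul_sub, smul_sub, smul_add, smul_smul, smul_smul, smul_smul, smul_smul,
        mul_comm (k / α) s, mul_comm (k / α) t]
      abel
    rw [h4]
    have h5 := mul_le_mul_of_nonneg_left h3 (half_pos hα).le
    nlinarith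
  have hint : ∀ y : EE n, Integrable (fun x : EE n =>
      Real.exp (- (k ^ 2 / (2 * α) * ‖y‖ ^ 2 - (k * ⟪x, y⟫ - g x)))) := by
    intro y
    have h1 := (integrable_lap hα hg k y).const_mul (Real.exp (-(k ^ 2 / (2 * α) * ‖y‖ ^ 2)))
    refine h1.congr (Filter.Eventually.of_forall fun x => ?_)
    simp only
    rw [← Real.exp_add]
    congr 1
    ring
  have hgm : Measurable g := by
    have h1 : Continuous (fun x => g x - α / 2 * ‖x‖ ^ 2) := by
      rw [← continuousOn_univ]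
      exact hg.continuousOn isOpen_univ
    have h2 : Continuous (fun x => (g x - α / 2 * ‖x‖ ^ 2) + α / 2 * ‖x‖ ^ 2) :=
      h1.add (by fun_prop)
    exact (h2.congr fun x => by ring).measurable
  have hmain := convexOn_neg_log_integral_exp_neg
    (fun (y x : EE n) => k ^ 2 / (2 * α) * ‖y‖ ^ 2 - (k * ⟪x, y⟫ - g x)) hF
    (fun y => by
      have : Continuous (fun x : EE n => k * ⟪x, y⟫) := by fun_prop
      exact measurable_const.sub (this.measurable.sub hgm)) hint
  refine hmain.congr fun y _ => ?_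
  have e1 : ∫ x : EE n, Real.exp (- (k ^ 2 / (2 * α) * ‖y‖ ^ 2 - (k * ⟪x, y⟫ - g x))) =
      Real.exp (-(k ^ 2 / (2 * α) * ‖y‖ ^ 2)) * ∫ x : EE n, Real.exp (k * ⟪x, y⟫ - g x) := by
    rw [← integral_const_mul]
    refine integral_congr_ae (Filter.Eventually.of_forall fun x => ?_)
    simp only
    rw [← Real.exp_add]
    congr 1
    ring
  simp only [e1]
  rw [Real.log_mul (Real.exp_pos _).ne' (integral_exp_pos (integrable_lap hα hg k y)).ne',
    Real.log_exp]
  unfold Lap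
  ring

/-- Hoelder: upper convexity bound of `g` gives a lower bound for `Lap`. -/
theorem lap_lower {β : ℝ} (hβ : 0 < β) {g : EE n → ℝ}
    (hg : ConvexOn ℝ univ (fun x => β / 2 * ‖x‖ ^ 2 - g x)) (k : ℝ)
    (hint : ∀ y, Integrable (fun x : EE n => Real.exp (k * ⟪x, y⟫ - g x))) :
    ConvexOn ℝ univ (fun y : EE n => Lap k g y - k ^ 2 / (2 * β) * ‖y‖ ^ 2) := by
  have hsq : ∀ (y z : EE n), k * ⟪z + (k / β) • y, y⟫ - g (z + (k / β) • y)
      - k ^ 2 / (2 * β) * ‖y‖ ^ 2 =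
      (β / 2 * ‖z + (k / β) • y‖ ^ 2 - g (z + (k / β) • y)) - β / 2 * ‖z‖ ^ 2 := by
    intro y z
    rw [norm_add_sq_real, norm_smul, real_inner_smul_right, inner_add_left, real_inner_smul_left,
      mul_pow, Real.norm_eq_abs, sq_abs, real_inner_self_eq_norm_sq]
    field_simp
    ring
  have hconv : ∀ z : EE n, ConvexOn ℝ univ (fun y : EE n =>
      (β / 2 * ‖z + (k / β) • y‖ ^ 2 - g (z + (k / β) • y)) - β / 2 * ‖z‖ ^ 2) := by
    intro z
    refine ⟨convex_univ, ?_⟩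
    intro y0 _ y1 _ s t hs ht hst
    have h1 := hg.2 (mem_univ (z + (k / β) • y0)) (mem_univ (z + (k / β) • y1)) hs ht hst
    have h2 : s • (z + (k / β) • y0) + t • (z + (k / β) • y1) = z + (k / β) • (s • y0 + t • y1) := by
      have : z = s • z + t • z := by rw [← add_smul, hst, one_smul]
      rw [smul_add, smul_add, smul_add, smul_smul, smul_smul, smul_smul, smul_smul,
        mul_comm s (k / β), mul_comm t (k / β)]
      conv_rhs => rw [this]
      abel
    rw [h2] at h1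
    simp only [smul_eq_mul] at h1 ⊢
    have h3 : β / 2 * ‖z‖ ^ 2 = s * (β / 2 * ‖z‖ ^ 2) + t * (β / 2 * ‖z‖ ^ 2) := by
      rw [← add_mul, hst, one_mul]
    nlinarith
  have hshift : ∀ y : EE n, (fun z : EE n => Real.exp
      ((β / 2 * ‖z + (k / β) • y‖ ^ 2 - g (z + (k / β) • y)) - β / 2 * ‖z‖ ^ 2)) =
      fun z => Real.exp (-(k ^ 2 / (2 * β) * ‖y‖ ^ 2)) *
        (fun x : EE n => Real.exp (k * ⟪x, y⟫ - g x)) (z + (k / β) • y) := by
    intro y
    funext z
    simp only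
    rw [← Real.exp_add, ← hsq]
    congr 1
    ring
  have hint2 : ∀ y : EE n, Integrable (fun z : EE n => Real.exp
      ((β / 2 * ‖z + (k / β) • y‖ ^ 2 - g (z + (k / β) • y)) - β / 2 * ‖z‖ ^ 2)) := by
    intro y
    rw [hshift y]
    exact ((hint y).comp_add_right ((k / β) • y)).const_mul _
  have hmain := convexOn_log_integral_exp (volume : Measure (EE n)) (fun (y z : EE n) =>
    (β / 2 * ‖z + (k / β) • y‖ ^ 2 - g (z + (k / β) • y)) - β / 2 * ‖z‖ ^ 2) hconv hint2
  refine hmain.congr fun y _ => ?_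
  simp only
  rw [hshift y, integral_const_mul,
    integral_add_right_eq_self (fun x : EE n => Real.exp (k * ⟪x, y⟫ - g x)) ((k / β) • y),
    Real.log_mul (Real.exp_pos _).ne' (integral_exp_pos (hint y)).ne', Real.log_exp]
  unfold Lap
  ring

end Vale.Agent.P227.M.LKE
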