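import Vale.Agent.P227.M.LK.SCInv
import Vale.Agent.P227.M.LK.LapE
import Vale.Agent.P227.M.Lap.Bdd

/-! # `RegLL` : the log-Laplace transform of a regular potential is regular. -/

open MeasureTheory Set
open scoped ContDiff

namespace Vale.Agent.P227.M.LK.H570

variable {n : ℕ}

/-- convexity from the Hessian -/
theorem convex_of_qf {f : E n → ℝ} (hf : ContDiff ℝ (⊤ : ℕ∞) f) (h : ∀ x v, 0 ≤ qf (hess f x) v) :
    ConvexOn ℝ univ f := by
  have hline : ∀ x v : E n, ConvexOn ℝ univ (fun t : ℝ => f (x + t • v)) := by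
    intro x v
    have hg : ContDiff ℝ (⊤ : ℕ∞) (fun t : ℝ => f (x + t • v)) :=
      hf.comp (contDiff_const.add (contDiff_id.smul contDiff_const))
    have h1 : Differentiable ℝ (fun t : ℝ => f (x + t • v)) := hg.differentiable (by simp)
    have h2 : Differentiable ℝ (deriv (fun t : ℝ => f (x + t • v))) :=
      (contDiff_infty_iff_deriv.1 hg).2.differentiable (by simp)
    refine convexOn_univ_of_deriv2_nonneg h1 h2 fun t => ?_
    have h3 : deriv^[2] (fun t : ℝ => f (x + t • v)) t = qf (hess f (x + t • v)) v := by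
      rw [← iteratedDeriv_eq_iterate, iteratedDeriv_line hf, ← iteratedDeriv_two_line hf,
        iteratedDeriv_line_zero hf]
    rw [h3]
    exact h _ _
  refine ⟨convex_univ, fun x _ y _ a b ha hb hab => ?_⟩
  have h1 := (hline x (y - x)).2 (mem_univ 0) (mem_univ 1) ha hb hab
  have e : a • x + b • y = x + (a • (0 : ℝ) + b • (1 : ℝ)) • (y - x) := by
    have : a = 1 - b := by linarith
    subst this
    simp only [smul_eq_mul, mul_zero, mul_one, zero_add, smul_sub, sub_smul, one_smul]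
    abel
  rw [e]
  simpa using h1

/-- the Hessian from convexity -/
theorem qf_of_convex {f : E n → ℝ} (hf : ContDiff ℝ (⊤ : ℕ∞) f) (h : ConvexOn ℝ univ f) (x v : E n) :
    0 ≤ qf (hess f x) v := by
  have hg : ContDiff ℝ (⊤ : ℕ∞) (fun t : ℝ => f (x + t • v)) :=
    hf.comp (contDiff_const.add (contDiff_id.smul contDiff_const))
  have h1 : Differentiable ℝ (fun t : ℝ => f (x + t • v)) := hg.differentiable (by simp)
  have hc : ConvexOn ℝ univ (fun t : ℝ => f (x + t • v)) := by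
    refine ⟨convex_univ, fun s _ t _ a b ha hb hab => ?_⟩
    have h2 := h.2 (mem_univ (x + s • v)) (mem_univ (x + t • v)) ha hb hab
    have e : x + (a • s + b • t) • v = a • (x + s • v) + b • (x + t • v) := by
      have : a = 1 - b := by linarith
      subst this
      module
    simp only [e]
    exact h2
  have hm : Monotone (deriv (fun t : ℝ => f (x + t • v))) := by
    rw [← monotoneOn_univ]
    exact hc.monotoneOn_deriv (fun t _ => h1 t)
  rw [← iteratedDeriv_two_line hf, iteratedDeriv_succ, iteratedDeriv_one]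
  exact hm.deriv_nonneg

theorem contDiff_sq (a : ℝ) : ContDiff ℝ (⊤ : ℕ∞) (fun x : E n => a / 2 * ‖x‖ ^ 2) :=
  contDiff_const.mul (contDiff_norm_sq ℝ)

theorem qf_sq (a : ℝ) (x v : E n) : qf (hess (fun x : E n => a / 2 * ‖x‖ ^ 2) x) v = a * ‖v‖ ^ 2 := by
  rw [← iteratedDeriv_two_line (contDiff_sq a)]
  have h1 : (fun t : ℝ => a / 2 * ‖x + t • v‖ ^ 2) =
      fun t : ℝ => a / 2 * (‖x‖ ^ 2 + 2 * (t * inner ℝ x v) + t ^ 2 * ‖v‖ ^ 2) := by
    funext t
    rw [norm_add_sq_real, norm_smul, real_inner_smul_right, mul_pow, Real.norm_eq_abs, sq_abs]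
  have h2 : ∀ t : ℝ, HasDerivAt (fun t : ℝ => a / 2 * (‖x‖ ^ 2 + 2 * (t * inner ℝ x v) + t ^ 2 * ‖v‖ ^ 2))
      (a / 2 * (2 * inner ℝ x v + 2 * t * ‖v‖ ^ 2)) t := by
    intro t
    have e1 : HasDerivAt (fun t : ℝ => 2 * (t * inner ℝ x v)) (2 * (1 * inner ℝ x v)) t :=
      ((hasDerivAt_id t).mul_const _).const_mul 2
    have e2 : HasDerivAt (fun t : ℝ => t ^ 2 * ‖v‖ ^ 2) ((2 * t) * ‖v‖ ^ 2) t := by
      have := (hasDerivAt_pow 2 t).mul_const (‖v‖ ^ 2)
      simpa using this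
    have e3 := ((e1.const_add (‖x‖ ^ 2)).add e2).const_mul (a / 2)
    refine e3.congr_deriv ?_
    ring
  have h3 : deriv (fun t : ℝ => a / 2 * (‖x‖ ^ 2 + 2 * (t * inner ℝ x v) + t ^ 2 * ‖v‖ ^ 2)) =
      fun t => a / 2 * (2 * inner ℝ x v + 2 * t * ‖v‖ ^ 2) := funext fun t => (h2 t).deriv
  rw [h1, iteratedDeriv_succ, iteratedDeriv_one, h3]
  have h4 : HasDerivAt (fun t : ℝ => a / 2 * (2 * inner ℝ x v + 2 * t * ‖v‖ ^ 2)) (a * ‖v‖ ^ 2) 0 := by
    have e1 : HasDerivAt (fun t : ℝ => 2 * t * ‖v‖ ^ 2) (2 * 1 * ‖v‖ ^ 2) 0 :=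
      ((hasDerivAt_id 0).const_mul 2).mul_const _
    refine ((e1.const_add (2 * inner ℝ x v)).const_mul (a / 2)).congr_deriv ?_
    ring
  exact h4.deriv

theorem qf_neg' {W : E n → ℝ} (hW : ContDiff ℝ (⊤ : ℕ∞) W) (x v : E n) :
    qf (hess (fun y => -W y) x) v = - qf (hess W x) v := by
  have h := qf_scale hW (-1) 1 x v
  simpa using h

theorem qf_sub' {V W : E n → ℝ} (hV : ContDiff ℝ (⊤ : ℕ∞) V) (hW : ContDiff ℝ (⊤ : ℕ∞) W) (x v : E n) :
    qf (hess (fun y => V y - W y) x) v = qf (hess V x) v - qf (hess W x) v := by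
  have h1 : (fun y => V y - W y) = fun y => V y + (fun z => -W z) y := by funext y; ring
  rw [h1, qf_add hV hW.neg, qf_neg' hW]
  ring

theorem regLL : RegLL := by
  intro n W c C hW hC
  have hc := hW.c_pos
  have hL : ContDiff ℝ (⊤ : ℕ∞) (logLap W) := Lap.contDiff_logLap hW
  have e1 : LKE.Lap 1 W = logLap W := by
    funext y; simp [LKE.Lap, logLap]
  have hcv : ConvexOn ℝ univ (fun x : E n => W x - c / 2 * ‖x‖ ^ 2) := by
    refine convex_of_qf (hW.smooth.sub (contDiff_sq c)) fun x v => ?_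
    rw [qf_sub' hW.smooth (contDiff_sq c), qf_sq]
    linarith [hW.lower x v]
  have hCv : ConvexOn ℝ univ (fun x : E n => C / 2 * ‖x‖ ^ 2 - W x) := by
    refine convex_of_qf ((contDiff_sq C).sub hW.smooth) fun x v => ?_
    rw [qf_sub' (contDiff_sq C) hW.smooth, qf_sq]
    linarith [hW.upper x v]
  have hup := LKE.lap_upper hc hcv 1
  have hlo := LKE.lap_lower hC hCv 1 (fun y => LKE.integrable_lap hc hcv 1 y)
  rw [e1] at hup hlo
  refine ⟨by positivity, hL, fun x v => ?_, fun x v => ?_, Lap.logLap_bdd hW⟩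
  · have e : (fun y : E n => logLap W y - 1 ^ 2 / (2 * C) * ‖y‖ ^ 2) =
        fun y : E n => logLap W y - (1 / C) / 2 * ‖y‖ ^ 2 := by
      funext y; field_simp
    rw [e] at hlo
    have h := qf_of_convex (hL.sub (contDiff_sq (1 / C))) hlo x v
    rw [qf_sub' hL (contDiff_sq (1 / C)), qf_sq] at h
    linarith
  · have e : (fun y : E n => 1 ^ 2 / (2 * c) * ‖y‖ ^ 2 - logLap W y) =
        fun y : E n => (1 / c) / 2 * ‖y‖ ^ 2 - logLap W y := by
      funext y; field_simp
    rw [e] at hup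
    have h := qf_of_convex ((contDiff_sq (1 / c)).sub hL) hup x v
    rw [qf_sub' (contDiff_sq (1 / c)) hL, qf_sq] at h
    linarith

end Vale.Agent.P227.M.LK.H570
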