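import Mathlib

/-! # P227/M, block LK: the level-`k` descent

`phi k c y = (1/k) log ∫ exp (k ⟪x,y⟫ - k c x) dx`, `Q k p x = log ∫ exp (k ⟪x,y⟫ - (k+1) p y) dy`,
`T0 k V c = (V + Q k c) / k`.  Along `c ↦ T0 k V c` the functional
`J k V c = ∫ c e^{-V} - log ∫ e^{-phi k c}` drops by at least `KL / k`. -/

open MeasureTheory Set Filter Topology

namespace Vale.Agent.P227.M.LK.Dsc

variable {E : Type*} [NormedAddCommGroup E] [InnerProductSpace ℝ E] [FiniteDimensional ℝ E]
  [MeasurableSpace E] [BorelSpace E]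

/-- log-Laplace transform (verbatim `logLap` when `E = EuclideanSpace ℝ (Fin n)`) -/
noncomputable def lap (W : E → ℝ) (y : E) : ℝ := Real.log (∫ x, Real.exp (inner ℝ x y - W x))

/-- `phi k c y = (1/k) log ∫ exp (k ⟪x,y⟫ - k c x) dx` -/
noncomputable def phi (k : ℝ) (c : E → ℝ) (y : E) : ℝ := 1 / k * lap (fun x => k * c x) (k • y)

/-- `Q k c x = log ∫ exp (k ⟪x,y⟫ - (k+1) phi y) dy` -/
noncomputable def Q (k : ℝ) (c : E → ℝ) (x : E) : ℝ := lap (fun y => (k + 1) * phi k c y) (k • x)

/-- `T(c) = (V + Q_c)/k` -/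
noncomputable def T0 (k : ℝ) (V c : E → ℝ) (x : E) : ℝ := (V x + Q k c x) / k

/-- `T(c) = (V + Q_c)/k`, normalised to vanish at `0` -/
noncomputable def T (k : ℝ) (V c : E → ℝ) (x : E) : ℝ := (V x + Q k c x) / k - (V 0 + Q k c 0) / k

/-- the total mass -/
noncomputable def Z (k : ℝ) (c : E → ℝ) : ℝ := ∫ y : E, Real.exp (-phi k c y)

/-- the potential of the `x`-marginal -/
noncomputable def W (k : ℝ) (c : E → ℝ) (x : E) : ℝ := k * c x - Q k c x + Real.log (Z k c)

/-- the relative entropy of `e^{-V}` with respect to the `x`-marginal -/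
noncomputable def KL (k : ℝ) (V c : E → ℝ) : ℝ := ∫ x : E, (W k c x - V x) * Real.exp (-V x)

/-- the functional -/
noncomputable def J (k : ℝ) (V c : E → ℝ) : ℝ := (∫ x : E, c x * Real.exp (-V x)) - Real.log (Z k c)

theorem phi_eq (k : ℝ) (c : E → ℝ) (y : E) :
    phi k c y = (1 / k) * Real.log (∫ x : E, Real.exp (k * inner ℝ x y - k * c x)) := by
  unfold phi lap
  simp only [inner_smul_right]

theorem Q_eq (k : ℝ) (c : E → ℝ) (x : E) :
    Q k c x = Real.log (∫ y : E, Real.exp (k * inner ℝ x y - (k + 1) * phi k c y)) := by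
  unfold Q lap
  simp only [inner_smul_right, real_inner_comm]

theorem exp_phi {k : ℝ} (hk : 0 < k) {c : E → ℝ} {y : E} (h : Integrable fun x : E => Real.exp (k * inner ℝ x y - k * c x)) :
    Real.exp (k * phi k c y) = ∫ x : E, Real.exp (k * inner ℝ x y - k * c x) := by
  have h1 : k * phi k c y = Real.log (∫ x : E, Real.exp (k * inner ℝ x y - k * c x)) := by
    rw [phi_eq]
    field_simp
  rw [h1, Real.exp_log]
  exact integral_exp_pos h

theorem exp_Q {k : ℝ} {c : E → ℝ} {x : E}
    (h : Integrable fun y : E => Real.exp (k * inner ℝ x y - (k + 1) * phi k c y)) :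
    Real.exp (Q k c x) = ∫ y : E, Real.exp (k * inner ℝ x y - (k + 1) * phi k c y) := by
  rw [Q_eq, Real.exp_log]
  exact integral_exp_pos h

theorem measurable_phi {k : ℝ} {c : E → ℝ} (hc : Measurable c) : Measurable (phi k c) := by
  have h0 : phi k c = fun y => (1 / k) * Real.log (∫ x : E, Real.exp (k * inner ℝ x y - k * c x)) := by
    ext y
    exact phi_eq k c y
  rw [h0]
  refine (Real.measurable_log.comp ?_).const_mul _
  have h1 : StronglyMeasurable (fun p : E × E => Real.exp (k * inner ℝ p.2 p.1 - k * c p.2)) := by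
    refine Measurable.stronglyMeasurable ?_
    have : Measurable fun p : E × E => (inner ℝ p.2 p.1 : ℝ) := (continuous_snd.inner continuous_fst).measurable
    exact Real.measurable_exp.comp ((this.const_mul k).sub ((hc.comp measurable_snd).const_mul k))
  exact (h1.integral_prod_right' (ν := volume)).measurable

theorem measurable_Q {k : ℝ} {c : E → ℝ} (hc : Measurable c) : Measurable (Q k c) := by
  have hp := measurable_phi (k := k) hc
  have h0 : Q k c = fun x => Real.log (∫ y : E, Real.exp (k * inner ℝ x y - (k + 1) * phi k c y)) := by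
    ext y
    exact Q_eq k c y
  rw [h0]
  refine Real.measurable_log.comp ?_
  have h1 : StronglyMeasurable (fun q : E × E => Real.exp (k * inner ℝ q.1 q.2 - (k + 1) * phi k c q.2)) := by
    refine Measurable.stronglyMeasurable ?_
    have : Measurable fun q : E × E => (inner ℝ q.1 q.2 : ℝ) := (continuous_fst.inner continuous_snd).measurable
    exact Real.measurable_exp.comp ((this.const_mul k).sub ((hp.comp measurable_snd).const_mul (k + 1)))
  exact (h1.integral_prod_right' (ν := volume)).measurable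

/-- Gaussian tails make exponentials integrable -/
theorem integrable_exp_of_quad {a k A : ℝ} (ha : 0 < a) (hk : 0 < k) {f : E → ℝ} (hf : Measurable f)
    (h : ∀ x, A + a / 2 * ‖x‖ ^ 2 ≤ f x) (l : ℝ) (y : E) :
    Integrable fun x : E => Real.exp (l * inner ℝ x y - k * f x) := by
  have h1 := (GaussianFourier.integrable_cexp_neg_mul_sq_norm_add (V := E) (b := ((k * a / 2 : ℝ) : ℂ)) (by
    rw [Complex.ofReal_re]; positivity) (l : ℂ) y).norm
  have h2 : Integrable fun x : E => Real.exp (-(k * A)) * Real.exp (l * inner ℝ x y - k * a / 2 * ‖x‖ ^ 2) := by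
    refine Integrable.const_mul ?_ _
    refine h1.congr (Eventually.of_forall fun x => ?_)
    simp only [Complex.norm_exp]
    congr 1
    simp only [Complex.add_re, Complex.mul_re, Complex.neg_re, Complex.ofReal_re, Complex.neg_im, Complex.ofReal_im]
    rw [← Complex.ofReal_pow, Complex.ofReal_re, Complex.ofReal_im, real_inner_comm]
    ring
  refine h2.mono' ?_ (Eventually.of_forall fun x => ?_)
  · have : Measurable fun x : E => (inner ℝ x y : ℝ) := (continuous_id.inner continuous_const).measurable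
    exact (Real.measurable_exp.comp ((this.const_mul l).sub (hf.const_mul k))).aestronglyMeasurable
  · rw [Real.norm_eq_abs, abs_of_pos (Real.exp_pos _), ← Real.exp_add]
    refine Real.exp_le_exp.2 ?_
    have := mul_le_mul_of_nonneg_left (h x) hk.le
    nlinarith

/-- the quantitative class on which everything is integrable -/
structure Qg (a b : ℝ) (c : E → ℝ) : Prop where
  meas : Measurable c
  lo : ∀ x, c 0 + a / 2 * ‖x‖ ^ 2 ≤ c x
  hi : ∀ x, c x ≤ c 0 + b / 2 * ‖x‖ ^ 2

set_option linter.unusedSectionVars false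

variable {V : E → ℝ} {k a b : ℝ} {c : E → ℝ}

theorem Qg.int1 (hk : 0 < k) (ha : 0 < a) (h : Qg a b c) (y : E) :
    Integrable fun x : E => Real.exp (k * inner ℝ x y - k * c x) :=
  integrable_exp_of_quad ha hk h.meas h.lo k y

/-- the Gaussian constant -/
noncomputable def gc (E : Type*) [NormedAddCommGroup E] [InnerProductSpace ℝ E] [FiniteDimensional ℝ E]
    [MeasurableSpace E] [BorelSpace E] (k b : ℝ) : ℝ := (1 / k) * Real.log (∫ x : E, Real.exp (-(k * (b / 2 * ‖x‖ ^ 2))))

theorem integrable_gauss {k b : ℝ} (hk : 0 < k) (hb : 0 < b) : Integrable fun x : E => Real.exp (-(k * (b / 2 * ‖x‖ ^ 2))) := by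
  have := integrable_exp_of_quad (f := fun x : E => b / 2 * ‖x‖ ^ 2) (a := b) (A := 0) hb hk (by fun_prop)
    (fun x => by simp) 0 0
  refine this.congr (Eventually.of_forall fun x => ?_)
  simp

/-- lower bound of the transform from the upper bound of `c` -/
theorem Qg.phi_lo (hk : 0 < k) (ha : 0 < a) (hb : 0 < b) (h : Qg a b c) (y : E) :
    (-c 0 + gc E k b) + 1 / b / 2 * ‖y‖ ^ 2 ≤ phi k c y := by
  have h1 : Real.exp (-(k * c 0) + k * (1 / b / 2 * ‖y‖ ^ 2)) * ∫ x : E, Real.exp (-(k * (b / 2 * ‖x‖ ^ 2)))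
      ≤ ∫ x : E, Real.exp (k * inner ℝ x y - k * c x) := by
    have h2 : ∫ x : E, Real.exp (-(k * (b / 2 * ‖x‖ ^ 2))) = ∫ x : E, Real.exp (-(k * (b / 2 * ‖x - b⁻¹ • y‖ ^ 2))) :=
      (integral_sub_right_eq_self (fun x : E => Real.exp (-(k * (b / 2 * ‖x‖ ^ 2)))) (b⁻¹ • y)).symm
    rw [h2, ← integral_const_mul]
    refine integral_mono (((integrable_gauss hk hb).comp_sub_right (b⁻¹ • y)).const_mul _) (h.int1 hk ha y) fun x => ?_
    simp only
    rw [← Real.exp_add]
    refine Real.exp_le_exp.2 ?_
    have h3 := mul_le_mul_of_nonneg_left (h.hi x) hk.le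
    have h4 : ‖x - b⁻¹ • y‖ ^ 2 = ‖x‖ ^ 2 - 2 * (b⁻¹ * inner ℝ x y) + b⁻¹ ^ 2 * ‖y‖ ^ 2 := by
      rw [norm_sub_sq_real, inner_smul_right, norm_smul, mul_pow, Real.norm_eq_abs, sq_abs]
    rw [h4]
    have h5 : -(k * c 0) + k * (1 / b / 2 * ‖y‖ ^ 2) + -(k * (b / 2 * (‖x‖ ^ 2 - 2 * (b⁻¹ * inner ℝ x y) + b⁻¹ ^ 2 * ‖y‖ ^ 2)))
        = k * inner ℝ x y - k * (c 0 + b / 2 * ‖x‖ ^ 2) := by
      field_simp
      ring
    rw [h5]
    linarith
  have h6 := Real.log_le_log (mul_pos (Real.exp_pos _) (integral_exp_pos (integrable_gauss hk hb))) h1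
  rw [Real.log_mul (Real.exp_pos _).ne' (integral_exp_pos (integrable_gauss hk hb)).ne', Real.log_exp] at h6
  rw [phi_eq]
  have h7 := mul_le_mul_of_nonneg_left h6 (by positivity : 0 ≤ 1 / k)
  refine le_trans (le_of_eq ?_) h7
  unfold gc
  field_simp
  ring

theorem Qg.int2 (hk : 0 < k) (ha : 0 < a) (hb : 0 < b) (h : Qg a b c) (x : E) :
    Integrable fun y : E => Real.exp (k * inner ℝ x y - (k + 1) * phi k c y) := by
  have := integrable_exp_of_quad (a := 1 / b) (by positivity) (by linarith : 0 < k + 1) (measurable_phi h.meas)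
    (h.phi_lo hk ha hb) k x
  refine this.congr (Eventually.of_forall fun y => ?_)
  simp only [real_inner_comm]

theorem Qg.int3 (hk : 0 < k) (ha : 0 < a) (hb : 0 < b) (h : Qg a b c) : Integrable fun y : E => Real.exp (-phi k c y) := by
  have := integrable_exp_of_quad (a := 1 / b) (by positivity) one_pos (measurable_phi h.meas) (h.phi_lo hk ha hb) 0 0
  refine this.congr (Eventually.of_forall fun y => ?_)
  simp

theorem Qg.Z_pos (hk : 0 < k) (ha : 0 < a) (hb : 0 < b) (h : Qg a b c) : 0 < Z k c := integral_exp_pos (h.int3 hk ha hb)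

/-- the joint density is integrable -/
theorem Qg.int_joint (hk : 0 < k) (ha : 0 < a) (hb : 0 < b) (h : Qg a b c) :
    Integrable (fun p : E × E => Real.exp (k * inner ℝ p.1 p.2 - k * c p.1 - (k + 1) * phi k c p.2))
      ((volume : Measure E).prod volume) := by
  have hm : Measurable fun p : E × E => Real.exp (k * inner ℝ p.1 p.2 - k * c p.1 - (k + 1) * phi k c p.2) := by
    have : Measurable fun p : E × E => (inner ℝ p.1 p.2 : ℝ) := (continuous_fst.inner continuous_snd).measurable
    exact Real.measurable_exp.comp (((this.const_mul k).sub ((h.meas.comp measurable_fst).const_mul k)).sub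
      (((measurable_phi h.meas).comp measurable_snd).const_mul (k + 1)))
  rw [integrable_prod_iff' hm.aestronglyMeasurable]
  refine ⟨Eventually.of_forall fun y => ?_, ?_⟩
  · have := (h.int1 hk ha y).mul_const (Real.exp (-((k + 1) * phi k c y)))
    refine this.congr (Eventually.of_forall fun x => ?_)
    simp only
    rw [← Real.exp_add]
    congr 1
  · refine (h.int3 hk ha hb).congr (Eventually.of_forall fun y => ?_)
    simp only [Real.norm_eq_abs, abs_of_pos (Real.exp_pos _)]
    have h1 : (fun x : E => Real.exp (k * inner ℝ x y - k * c x - (k + 1) * phi k c y))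
        = fun x : E => Real.exp (k * inner ℝ x y - k * c x) * Real.exp (-((k + 1) * phi k c y)) := by
      ext x
      rw [← Real.exp_add]
      congr 1
    rw [h1, integral_mul_const, ← exp_phi hk (h.int1 hk ha y), ← Real.exp_add]
    congr 1
    ring

/-- `∫_x` of the joint density -/
theorem Qg.marg_y (hk : 0 < k) (ha : 0 < a) (h : Qg a b c) (y : E) :
    ∫ x : E, Real.exp (k * inner ℝ x y - k * c x - (k + 1) * phi k c y) = Real.exp (-phi k c y) := by
  have h1 : (fun x : E => Real.exp (k * inner ℝ x y - k * c x - (k + 1) * phi k c y))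
      = fun x : E => Real.exp (k * inner ℝ x y - k * c x) * Real.exp (-((k + 1) * phi k c y)) := by
    ext x
    rw [← Real.exp_add]
    congr 1
  rw [h1, integral_mul_const, ← exp_phi hk (h.int1 hk ha y), ← Real.exp_add]
  congr 1
  ring

/-- `∫_y` of the joint density -/
theorem Qg.marg_x (hk : 0 < k) (ha : 0 < a) (hb : 0 < b) (h : Qg a b c) (x : E) :
    ∫ y : E, Real.exp (k * inner ℝ x y - k * c x - (k + 1) * phi k c y) = Real.exp (-(k * c x - Q k c x)) := by
  have h1 : (fun y : E => Real.exp (k * inner ℝ x y - k * c x - (k + 1) * phi k c y))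
      = fun y : E => Real.exp (k * inner ℝ x y - (k + 1) * phi k c y) * Real.exp (-(k * c x)) := by
    ext y
    rw [← Real.exp_add]
    congr 1
    ring
  rw [h1, integral_mul_const, ← exp_Q (h.int2 hk ha hb x), ← Real.exp_add]
  congr 1
  ring

theorem Qg.int_W (hk : 0 < k) (ha : 0 < a) (hb : 0 < b) (h : Qg a b c) :
    Integrable (fun x : E => Real.exp (-(k * c x - Q k c x))) := by
  have h1 := (h.int_joint hk ha hb).integral_prod_left
  refine h1.congr (Eventually.of_forall fun x => ?_)
  exact h.marg_x hk ha hb x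

theorem Qg.Z_eq (hk : 0 < k) (ha : 0 < a) (hb : 0 < b) (h : Qg a b c) :
    ∫ x : E, Real.exp (-(k * c x - Q k c x)) = Z k c := by
  have h1 := integral_integral_swap (f := fun (x y : E) => Real.exp (k * inner ℝ x y - k * c x - (k + 1) * phi k c y))
    (h.int_joint hk ha hb)
  simp only [h.marg_x hk ha hb] at h1
  rw [h1]
  unfold Z
  congr 1
  ext y
  exact h.marg_y hk ha y

theorem Qg.integral_W (hk : 0 < k) (ha : 0 < a) (hb : 0 < b) (h : Qg a b c) :
    ∫ x : E, Real.exp (-W k c x) = 1 := by
  have hZ := h.Z_pos hk ha hb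
  have h1 : (fun x : E => Real.exp (-W k c x)) = fun x => Real.exp (-(k * c x - Q k c x)) * (Z k c)⁻¹ := by
    ext x
    unfold W
    rw [neg_add, Real.exp_add, Real.exp_neg (Real.log _), Real.exp_log hZ]
  rw [h1, integral_mul_const, h.Z_eq hk ha hb]
  field_simp

theorem Qg.integrable_exp_neg_W (hk : 0 < k) (ha : 0 < a) (hb : 0 < b) (h : Qg a b c) :
    Integrable fun x : E => Real.exp (-W k c x) := by
  by_contra hcon
  have := h.integral_W hk ha hb
  rw [integral_undef hcon] at this
  norm_num at this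

/-- the key descent inequality for the mass -/
theorem Qg.mass_le (hk : 0 < k) (ha : 0 < a) (hb : 0 < b) (h : Qg a b c) (hT : Qg a b (T0 k V c))
    (hVi : Integrable fun x : E => Real.exp (-V x)) (hV1 : ∫ x : E, Real.exp (-V x) = 1) :
    (1 + 1 / k) * Real.log (Z k c) ≤ Real.log (Z k (T0 k V c)) := by
  have hZ := h.Z_pos hk ha hb
  have hZ' := hT.Z_pos hk ha hb
  -- the function `t`
  have hkT : ∀ x, k * T0 k V c x = V x + Q k c x := fun x => by
    unfold T0
    field_simp
  have hMV : Measurable V := by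
    have h1 : V = fun x => k * T0 k V c x - Q k c x := by
      ext x
      rw [hkT]
      ring
    rw [h1]
    exact (hT.meas.const_mul k).sub (measurable_Q h.meas)
  have hFm : Measurable fun p : E × E => Real.exp (k * inner ℝ p.1 p.2 - k * T0 k V c p.1 - (k + 1) * phi k c p.2) := by
    have : Measurable fun p : E × E => (inner ℝ p.1 p.2 : ℝ) := (continuous_fst.inner continuous_snd).measurable
    exact Real.measurable_exp.comp (((this.const_mul k).sub ((hT.meas.comp measurable_fst).const_mul k)).sub
      (((measurable_phi h.meas).comp measurable_snd).const_mul (k + 1)))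
  have hinner : ∀ x : E, ∫ y : E, Real.exp (k * inner ℝ x y - k * T0 k V c x - (k + 1) * phi k c y) = Real.exp (-V x) := by
    intro x
    have h1 : (fun y : E => Real.exp (k * inner ℝ x y - k * T0 k V c x - (k + 1) * phi k c y))
        = fun y : E => Real.exp (k * inner ℝ x y - (k + 1) * phi k c y) * Real.exp (-(k * T0 k V c x)) := by
      ext y
      rw [← Real.exp_add]
      congr 1
      ring
    rw [h1, integral_mul_const, ← exp_Q (h.int2 hk ha hb x), ← Real.exp_add, hkT]
    congr 1
    ring
  have hFi : Integrable (fun p : E × E => Real.exp (k * inner ℝ p.1 p.2 - k * T0 k V c p.1 - (k + 1) * phi k c p.2))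
      ((volume : Measure E).prod volume) := by
    rw [integrable_prod_iff hFm.aestronglyMeasurable]
    refine ⟨Eventually.of_forall fun x => ?_, ?_⟩
    · have := (h.int2 hk ha hb x).mul_const (Real.exp (-(k * T0 k V c x)))
      refine this.congr (Eventually.of_forall fun y => ?_)
      simp only
      rw [← Real.exp_add]
      congr 1
      ring
    · refine hVi.congr (Eventually.of_forall fun x => ?_)
      simp only [Real.norm_eq_abs, abs_of_pos (Real.exp_pos _)]
      exact (hinner x).symm
  have hswap := integral_integral_swap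
    (f := fun (x y : E) => Real.exp (k * inner ℝ x y - k * T0 k V c x - (k + 1) * phi k c y)) hFi
  simp only [hinner] at hswap
  rw [hV1] at hswap
  have hy : ∀ y : E, ∫ x : E, Real.exp (k * inner ℝ x y - k * T0 k V c x - (k + 1) * phi k c y)
      = Real.exp (-phi k c y) * Real.exp (k * (phi k (T0 k V c) y - phi k c y)) := by
    intro y
    have h1 : (fun x : E => Real.exp (k * inner ℝ x y - k * T0 k V c x - (k + 1) * phi k c y))
        = fun x : E => Real.exp (k * inner ℝ x y - k * T0 k V c x) * Real.exp (-((k + 1) * phi k c y)) := by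
      ext x
      rw [← Real.exp_add]
      congr 1
    rw [h1, integral_mul_const, ← exp_phi hk (hT.int1 hk ha y), ← Real.exp_add, ← Real.exp_add]
    congr 1
    ring
  have hti : Integrable fun y : E => Real.exp (-phi k c y) * Real.exp (k * (phi k (T0 k V c) y - phi k c y)) := by
    refine hFi.integral_prod_right.congr (Eventually.of_forall fun y => ?_)
    exact hy y
  have ht1 : ∫ y : E, Real.exp (-phi k c y) * Real.exp (k * (phi k (T0 k V c) y - phi k c y)) = 1 := by
    rw [hswap]
    congr 1
    ext y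
    exact (hy y).symm
  -- pointwise inequality
  have hpt : ∀ y : E, Real.exp ((1 / k) * Real.log (Z k c)) * ((1 + 1 / k) * Real.exp (-phi k c y)
      - (Z k c / k) * (Real.exp (-phi k c y) * Real.exp (k * (phi k (T0 k V c) y - phi k c y))))
      ≤ Real.exp (-phi k (T0 k V c) y) := by
    intro y
    set t := Real.exp (k * (phi k (T0 k V c) y - phi k c y)) with ht
    have htp : 0 < t := Real.exp_pos _
    have h1 : Real.exp (-phi k (T0 k V c) y) = Real.exp ((1 / k) * Real.log (Z k c)) * (Real.exp (-phi k c y)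
        * Real.exp (-(1 / k) * Real.log (t * Z k c))) := by
      rw [Real.log_mul htp.ne' hZ.ne', ht, Real.log_exp, ← Real.exp_add, ← Real.exp_add]
      congr 1
      field_simp
      ring
    rw [h1]
    refine mul_le_mul_of_nonneg_left ?_ (Real.exp_pos _).le
    have h2 : 1 - (1 / k) * (t * Z k c - 1) ≤ Real.exp (-(1 / k) * Real.log (t * Z k c)) := by
      have h3 := Real.add_one_le_exp (-(1 / k) * Real.log (t * Z k c))
      have h4 := Real.log_le_sub_one_of_pos (mul_pos htp hZ)
      have h5 := mul_le_mul_of_nonneg_left h4 (by positivity : 0 ≤ 1 / k)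
      linarith
    calc (1 + 1 / k) * Real.exp (-phi k c y) - Z k c / k * (Real.exp (-phi k c y) * t)
        = Real.exp (-phi k c y) * (1 - (1 / k) * (t * Z k c - 1)) := by ring
      _ ≤ _ := mul_le_mul_of_nonneg_left h2 (Real.exp_pos _).le
  have hint := integral_mono ((((h.int3 hk ha hb).const_mul (1 + 1 / k)).sub (hti.const_mul (Z k c / k))).const_mul
    (Real.exp ((1 / k) * Real.log (Z k c)))) (hT.int3 hk ha hb) hpt
  have hlhs : ∫ y : E, Real.exp ((1 / k) * Real.log (Z k c)) * ((1 + 1 / k) * Real.exp (-phi k c y)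
      - (Z k c / k) * (Real.exp (-phi k c y) * Real.exp (k * (phi k (T0 k V c) y - phi k c y))))
      = Real.exp ((1 / k) * Real.log (Z k c)) * Z k c := by
    rw [integral_const_mul, integral_sub ((h.int3 hk ha hb).const_mul _) (hti.const_mul _), integral_const_mul,
      integral_const_mul, ht1]
    unfold Z
    ring
  have hfin : Real.exp ((1 / k) * Real.log (Z k c)) * Z k c ≤ Z k (T0 k V c) := by
    rw [← hlhs]
    exact hint
  have := Real.log_le_log (by positivity) hfin
  rw [Real.log_mul (Real.exp_pos _).ne' hZ.ne', Real.log_exp] at this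
  linarith

/-- **descent** -/
theorem Qg.descent (hk : 0 < k) (ha : 0 < a) (hb : 0 < b) (h : Qg a b c) (hT : Qg a b (T0 k V c))
    (hVi : Integrable fun x : E => Real.exp (-V x)) (hV1 : ∫ x : E, Real.exp (-V x) = 1)
    (hVV : Integrable fun x : E => V x * Real.exp (-V x))
    (hV2 : Integrable fun x : E => ‖x‖ ^ 2 * Real.exp (-V x)) :
    J k V (T0 k V c) ≤ J k V c - KL k V c / k := by
  have hkT : ∀ x, k * T0 k V c x = V x + Q k c x := fun x => by
    unfold T0
    field_simp
  have hMV : Measurable V := by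
    have h1 : V = fun x => k * T0 k V c x - Q k c x := by
      ext x
      rw [hkT]
      ring
    rw [h1]
    exact (hT.meas.const_mul k).sub (measurable_Q h.meas)
  have key : ∀ f : E → ℝ, (∀ x, f 0 + a / 2 * ‖x‖ ^ 2 ≤ f x) → (∀ x, f x ≤ f 0 + b / 2 * ‖x‖ ^ 2) → Measurable f →
      Integrable fun x : E => f x * Real.exp (-V x) := by
    intro f h1 h2 hf
    have h3 : Integrable fun x : E => |f 0| * Real.exp (-V x) + (|b| / 2) * (‖x‖ ^ 2 * Real.exp (-V x)) :=
      (hVi.const_mul _).add (hV2.const_mul _)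
    refine h3.mono' (hf.mul (Real.measurable_exp.comp hMV.neg)).aestronglyMeasurable (Eventually.of_forall fun x => ?_)
    rw [Real.norm_eq_abs, abs_mul, abs_of_pos (Real.exp_pos _)]
    have h4 : |f x| ≤ |f 0| + |b| / 2 * ‖x‖ ^ 2 := by
      have h5 := h1 x
      have h6 := h2 x
      have h7 : 0 ≤ a / 2 * ‖x‖ ^ 2 := by positivity
      have h8 : b / 2 * ‖x‖ ^ 2 ≤ |b| / 2 * ‖x‖ ^ 2 := by
        have := le_abs_self b
        gcongr
      have h9 := neg_abs_le (f 0)
      have h10 := le_abs_self (f 0)
      rw [abs_le]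
      constructor <;> [skip; linarith]
      have h11 : 0 ≤ |b| / 2 * ‖x‖ ^ 2 := by positivity
      linarith
    calc |f x| * Real.exp (-V x) ≤ (|f 0| + |b| / 2 * ‖x‖ ^ 2) * Real.exp (-V x) :=
          mul_le_mul_of_nonneg_right h4 (Real.exp_pos _).le
      _ = _ := by ring
  have hci := key c h.lo h.hi h.meas
  have hTi := key (T0 k V c) hT.lo hT.hi hT.meas
  have hQi : Integrable fun x : E => Q k c x * Real.exp (-V x) := by
    refine ((hTi.const_mul k).sub hVV).congr (Eventually.of_forall fun x => ?_)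
    simp only [Pi.sub_apply]
    rw [← mul_assoc, hkT]
    ring
  have e1 : ∫ x : E, T0 k V c x * Real.exp (-V x)
      = (1 / k) * ((∫ x : E, V x * Real.exp (-V x)) + ∫ x : E, Q k c x * Real.exp (-V x)) := by
    rw [← integral_add hVV hQi, ← integral_const_mul]
    congr 1
    ext x
    unfold T0
    field_simp
  have e2 : KL k V c = k * (∫ x : E, c x * Real.exp (-V x)) - (∫ x : E, Q k c x * Real.exp (-V x))
      + Real.log (Z k c) - ∫ x : E, V x * Real.exp (-V x) := by
    unfold KL
    have h1 : (fun x : E => (W k c x - V x) * Real.exp (-V x)) = fun x => ((k * (c x * Real.exp (-V x))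
        - Q k c x * Real.exp (-V x)) + Real.log (Z k c) * Real.exp (-V x)) - V x * Real.exp (-V x) := by
      ext x
      unfold W
      ring
    have i1 : Integrable fun x : E => k * (c x * Real.exp (-V x)) := hci.const_mul k
    have i2 : Integrable fun x : E => k * (c x * Real.exp (-V x)) - Q k c x * Real.exp (-V x) := i1.sub hQi
    have i3 : Integrable fun x : E => Real.log (Z k c) * Real.exp (-V x) := hVi.const_mul _
    have i4 : Integrable fun x : E => k * (c x * Real.exp (-V x)) - Q k c x * Real.exp (-V x)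
      + Real.log (Z k c) * Real.exp (-V x) := i2.add i3
    rw [h1, integral_sub i4 hVV, integral_add i2 i3, integral_sub i1 hQi,
      integral_const_mul, integral_const_mul, hV1, mul_one]
  have h3 := h.mass_le hk ha hb hT hVi hV1
  unfold J
  rw [e1, e2]
  have e3 : (k * (∫ x : E, c x * Real.exp (-V x)) - (∫ x : E, Q k c x * Real.exp (-V x))
      + Real.log (Z k c) - ∫ x : E, V x * Real.exp (-V x)) / k = (∫ x : E, c x * Real.exp (-V x))
      - (1 / k) * (∫ x : E, Q k c x * Real.exp (-V x)) + (1 / k) * Real.log (Z k c)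
      - (1 / k) * ∫ x : E, V x * Real.exp (-V x) := by
    field_simp
  rw [e3]
  nlinarith [h3]

/-- lower bound of the functional -/
theorem Qg.J_ge (hk : 0 < k) (ha : 0 < a) (hb : 0 < b) (h : Qg a b c)
    (hVi : Integrable fun x : E => Real.exp (-V x)) (hV1 : ∫ x : E, Real.exp (-V x) = 1)
    (hci : Integrable fun x : E => c x * Real.exp (-V x)) :
    gc E k b - Real.log (∫ y : E, Real.exp (-(1 * (1 / b / 2 * ‖y‖ ^ 2)))) ≤ J k V c := by
  have hga : Integrable fun y : E => Real.exp (-(1 * (1 / b / 2 * ‖y‖ ^ 2))) := integrable_gauss one_pos (by positivity)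
  have h1 : c 0 ≤ ∫ x : E, c x * Real.exp (-V x) := by
    have h2 : ∫ x : E, c 0 * Real.exp (-V x) = c 0 := by rw [integral_const_mul, hV1, mul_one]
    rw [← h2]
    refine integral_mono (hVi.const_mul _) hci fun x => ?_
    refine mul_le_mul_of_nonneg_right ?_ (Real.exp_pos _).le
    have : 0 ≤ a / 2 * ‖x‖ ^ 2 := by positivity
    linarith [h.lo x]
  have h7 : Real.log (Z k c) ≤ (c 0 - gc E k b) + Real.log (∫ y : E, Real.exp (-(1 * (1 / b / 2 * ‖y‖ ^ 2)))) := by
    have h8 : Z k c ≤ Real.exp (c 0 - gc E k b) * ∫ y : E, Real.exp (-(1 * (1 / b / 2 * ‖y‖ ^ 2))) := by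
      unfold Z
      rw [← integral_const_mul]
      refine integral_mono (h.int3 hk ha hb) (hga.const_mul _) fun y => ?_
      simp only
      rw [← Real.exp_add]
      refine Real.exp_le_exp.2 ?_
      linarith [h.phi_lo hk ha hb y]
    have h9 := Real.log_le_log (h.Z_pos hk ha hb) h8
    rwa [Real.log_mul (Real.exp_pos _).ne' (integral_exp_pos hga).ne', Real.log_exp] at h9
  unfold J
  linarith

/-! ### shifts -/

theorem phi_add_const (hk : 0 < k) (s : ℝ) (y : E) (h : Qg a b c) (ha : 0 < a) :
    phi k (fun x => c x + s) y = phi k c y - s := by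
  rw [phi_eq, phi_eq]
  have h1 : (fun x : E => Real.exp (k * inner ℝ x y - k * (c x + s)))
      = fun x => Real.exp (k * inner ℝ x y - k * c x) * Real.exp (-(k * s)) := by
    ext x
    rw [← Real.exp_add]
    congr 1
    ring
  rw [h1, integral_mul_const, Real.log_mul (integral_exp_pos (h.int1 hk ha y)).ne' (Real.exp_pos _).ne', Real.log_exp]
  field_simp
  ring

theorem Q_add_const (hk : 0 < k) (s : ℝ) (x : E) (h : Qg a b c) (ha : 0 < a) (hb : 0 < b) :
    Q k (fun x => c x + s) x = Q k c x + (k + 1) * s := by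
  rw [Q_eq, Q_eq]
  have h1 : (fun y : E => Real.exp (k * inner ℝ x y - (k + 1) * phi k (fun x => c x + s) y))
      = fun y => Real.exp (k * inner ℝ x y - (k + 1) * phi k c y) * Real.exp ((k + 1) * s) := by
    ext y
    rw [phi_add_const hk s y h ha, ← Real.exp_add]
    congr 1
    ring
  rw [h1, integral_mul_const, Real.log_mul (integral_exp_pos (h.int2 hk ha hb x)).ne' (Real.exp_pos _).ne', Real.log_exp]

theorem Z_add_const (hk : 0 < k) (s : ℝ) (h : Qg a b c) (ha : 0 < a) :
    Z k (fun x => c x + s) = Z k c * Real.exp s := by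
  unfold Z
  rw [← integral_mul_const]
  congr 1
  ext y
  rw [phi_add_const hk s y h ha, ← Real.exp_add]
  congr 1
  ring

theorem J_add_const (hk : 0 < k) (s : ℝ) (h : Qg a b c) (ha : 0 < a) (hb : 0 < b)
    (hVi : Integrable fun x : E => Real.exp (-V x)) (hV1 : ∫ x : E, Real.exp (-V x) = 1)
    (hci : Integrable fun x : E => c x * Real.exp (-V x)) :
    J k V (fun x => c x + s) = J k V c := by
  unfold J
  rw [Z_add_const hk s h ha, Real.log_mul (h.Z_pos hk ha hb).ne' (Real.exp_pos _).ne', Real.log_exp]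
  have h1 : (fun x : E => (c x + s) * Real.exp (-V x)) = fun x => c x * Real.exp (-V x) + s * Real.exp (-V x) := by
    ext x
    ring
  rw [h1, integral_add hci (hVi.const_mul s), integral_const_mul, hV1]
  ring

theorem Qg.add_const (s : ℝ) (h : Qg a b c) : Qg a b (fun x => c x + s) :=
  ⟨h.meas.add_const s, fun x => by linarith [h.lo x], fun x => by linarith [h.hi x]⟩

/-- hypotheses on the target potential -/
structure Pot (V : E → ℝ) : Prop where
  meas : Measurable V
  int0 : Integrable fun x : E => Real.exp (-V x)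
  one : ∫ x : E, Real.exp (-V x) = 1
  intV : Integrable fun x : E => V x * Real.exp (-V x)
  int2 : Integrable fun x : E => ‖x‖ ^ 2 * Real.exp (-V x)

theorem Qg.integrable (ha : 0 < a) (hb : 0 < b) (h : Qg a b c) (hV : Pot V) : Integrable fun x : E => c x * Real.exp (-V x) := by
  have h3 : Integrable fun x : E => |c 0| * Real.exp (-V x) + (b / 2) * (‖x‖ ^ 2 * Real.exp (-V x)) :=
    (hV.int0.const_mul _).add (hV.int2.const_mul _)
  refine h3.mono' (h.meas.mul (Real.measurable_exp.comp hV.meas.neg)).aestronglyMeasurable (Eventually.of_forall fun x => ?_)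
  rw [Real.norm_eq_abs, abs_mul, abs_of_pos (Real.exp_pos _)]
  have h4 : |c x| ≤ |c 0| + b / 2 * ‖x‖ ^ 2 := by
    have h5 := h.lo x
    have h6 := h.hi x
    have h7 : 0 ≤ a / 2 * ‖x‖ ^ 2 := by positivity
    have h9 := neg_abs_le (c 0)
    have h10 := le_abs_self (c 0)
    have h11 : 0 ≤ b / 2 * ‖x‖ ^ 2 := by positivity
    rw [abs_le]
    constructor <;> linarith
  calc |c x| * Real.exp (-V x) ≤ (|c 0| + b / 2 * ‖x‖ ^ 2) * Real.exp (-V x) :=
        mul_le_mul_of_nonneg_right h4 (Real.exp_pos _).le
    _ = _ := by ring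

/-- descent for the normalised map -/
theorem descentN (hk : 0 < k) (ha : 0 < a) (hb : 0 < b) (hV : Pot V) (h : Qg a b c) (hT : Qg a b (T k V c)) :
    J k V (T k V c) ≤ J k V c - KL k V c / k := by
  have h1 : T0 k V c = fun x => T k V c x + (V 0 + Q k c 0) / k := by
    ext x
    unfold T0 T
    ring
  have h2 : Qg a b (T0 k V c) := by
    rw [h1]
    exact hT.add_const _
  have h3 := h.descent hk ha hb h2 hV.int0 hV.one hV.intV hV.int2
  have h4 : J k V (T0 k V c) = J k V (T k V c) := by
    rw [h1]
    exact J_add_const hk _ hT ha hb hV.int0 hV.one (hT.integrable ha hb hV)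
  rwa [h4] at h3

/-- **small relative entropy along the iteration**, for any invariant class `P` -/
theorem exists_KL_le (hk : 0 < k) (ha : 0 < a) (hb : 0 < b) (hV : Pot V) (P : (E → ℝ) → Prop) (c₀ : E → ℝ) (h0 : P c₀)
    (hPT : ∀ c, P c → P (T k V c)) (hPG : ∀ c, P c → Qg a b c) {ε : ℝ} (hε : 0 < ε) :
    ∃ c, P c ∧ KL k V c ≤ ε := by
  by_contra hcon
  simp only [not_exists, not_and, not_le] at hcon
  have hPi : ∀ i : ℕ, P ((T k V)^[i] c₀) := by
    intro i
    induction i with
    | zero => exact h0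
    | succ i ih =>
      rw [Function.iterate_succ_apply']
      exact hPT _ ih
  have hJi : ∀ i : ℕ, J k V ((T k V)^[i] c₀) ≤ J k V c₀ - i * (ε / k) := by
    intro i
    induction i with
    | zero => simp
    | succ i ih =>
      rw [Function.iterate_succ_apply']
      have h1 := descentN hk ha hb hV (hPG _ (hPi i)) (hPG _ (hPT _ (hPi i)))
      have h2 := (hcon _ (hPi i)).le
      have h3 : ε / k ≤ KL k V ((T k V)^[i] c₀) / k := by gcongr
      push_cast
      linarith
  set m := gc E k b - Real.log (∫ y : E, Real.exp (-(1 * (1 / b / 2 * ‖y‖ ^ 2)))) with hm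
  obtain ⟨i, hi⟩ := exists_nat_gt ((J k V c₀ - m) / (ε / k))
  have h1 := (hPG _ (hPi i)).J_ge hk ha hb hV.int0 hV.one ((hPG _ (hPi i)).integrable ha hb hV)
  rw [← hm] at h1
  have h2 := hJi i
  rw [div_lt_iff₀ (by positivity)] at hi
  linarith

end Vale.Agent.P227.M.LK.Dsc
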