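import Vale.Agent.P227.M.LL.Smooth

/-! # P227/M/LK : the joint law of level `k`

`G(x,y) = exp (k⟪x,y⟫ - W x - (k+1) φ y)`, `φ y = (1/k) Lam W (k y)`.
`∫ G dx = exp (-φ y)`, `∫ G dy = exp (-W x) Z ((k+1) φ) (k x)`, and the first marginal is close to the
law of the conditional mean. -/

open MeasureTheory Real
open scoped RealInnerProductSpace

set_option linter.unusedSectionVars false

namespace Vale.Agent.P227.M.LK.Law

open Vale.Agent.P227.M.LL

variable {E : Type} [NormedAddCommGroup E] [InnerProductSpace ℝ E] [FiniteDimensional ℝ E]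
  [MeasurableSpace E] [BorelSpace E]

/-- joint density -/
noncomputable def jd (k : ℝ) (W φ : E → ℝ) (p : E × E) : ℝ :=
  Real.exp (k * ⟪p.1, p.2⟫ - W p.1 - (k + 1) * φ p.2)

/-- conditional mean of `x` given `y` -/
noncomputable def mn (k : ℝ) (W : E → ℝ) (y : E) : E := av W (k • y) (fun x => x)

variable {W φ : E → ℝ} {a C k : ℝ}

theorem inner_av (hW : Gr W a C) (y v : E) :
    ⟪av W y (fun x => x), v⟫ = av W y (fun x => ⟪x, v⟫) := by
  unfold av I
  rw [real_inner_smul_left, smul_eq_mul]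
  congr 1
  have h := integrable hW (Pg.id (E := E)) y
  rw [real_inner_comm, ← integral_inner h v]
  refine integral_congr_ae (Filter.Eventually.of_forall fun x => ?_)
  simp only [real_inner_smul_right, smul_eq_mul, real_inner_comm]

theorem av_sq_dist (hW : Gr W a C) (y : E) :
    av W y (fun x => ‖x - av W y (fun x => x)‖ ^ 2) =
      ∑ i, c2 W y (stdOrthonormalBasis ℝ E i) := by
  set m := av W y (fun x => x) with hm
  have h1 : (fun x : E => ‖x - m‖ ^ 2) =
      fun x => ∑ i, (⟪x, stdOrthonormalBasis ℝ E i⟫ - av W y (fun x => ⟪x, stdOrthonormalBasis ℝ E i⟫)) ^ 2 := by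
    funext x
    rw [← (stdOrthonormalBasis ℝ E).sum_sq_norm_inner_left (x - m)]
    refine Finset.sum_congr rfl fun i _ => ?_
    rw [Real.norm_eq_abs, sq_abs, inner_sub_left, hm, inner_av hW]
  rw [h1]
  have hP : ∀ v : E, Pg (fun x : E => (⟪x, v⟫ - av W y (fun x => ⟪x, v⟫)) ^ 2) := fun v =>
    ((Pg.inner v).sub (Pg.const _)).pow 2
  have h2 : ∀ s : Finset (Fin (Module.finrank ℝ E)),
      Pg (fun x : E => ∑ i ∈ s, (⟪x, stdOrthonormalBasis ℝ E i⟫ - av W y (fun x => ⟪x, stdOrthonormalBasis ℝ E i⟫)) ^ 2) ∧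
      av W y (fun x => ∑ i ∈ s, (⟪x, stdOrthonormalBasis ℝ E i⟫ - av W y (fun x => ⟪x, stdOrthonormalBasis ℝ E i⟫)) ^ 2)
        = ∑ i ∈ s, c2 W y (stdOrthonormalBasis ℝ E i) := by
    intro s
    induction s using Finset.induction_on with
    | empty =>
      simp only [Finset.sum_empty]
      exact ⟨Pg.const 0, av_const hW y 0⟩
    | insert i s hi ih =>
      simp only [Finset.sum_insert hi]
      refine ⟨(hP _).add ih.1, ?_⟩
      rw [av_add hW (hP _) ih.1, ih.2]
      rfl
  exact (h2 Finset.univ).2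

/-- conditional expectation of a Lipschitz function is close to its value at the mean -/
theorem av_lip (hW : Gr W a C) (y : E) {σ : ℝ} (hσ : ∀ v, c2 W y v ≤ σ * ‖v‖ ^ 2)
    {F : E → ℝ} {L : ℝ} (hL : 0 ≤ L) (hF : ∀ x x', |F x - F x'| ≤ L * ‖x - x'‖) (hP : Pg F)
    {s : ℝ} (hs : 0 < s) (hs2 : Module.finrank ℝ E * σ ≤ s ^ 2) :
    |av W y F - F (av W y (fun x => x))| ≤ L * s := by
  set m := av W y (fun x => x) with hm
  have hsum : ∑ i, c2 W y (stdOrthonormalBasis ℝ E i) ≤ s ^ 2 := by
    refine le_trans (Finset.sum_le_sum fun i _ => hσ _) ?_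
    simp only [OrthonormalBasis.norm_eq_one]
    simpa using hs2
  have hPn : Pg (fun x : E => ‖x - m‖ ^ 2) := by
    have h0 : Pg (fun x : E => x - m) := Pg.id.sub (Pg.const m)
    obtain ⟨hc, B, j, hB⟩ := h0
    have hn : Pg (fun x : E => ‖x - m‖) := ⟨hc.norm, B, j, fun x => by simpa using hB x⟩
    exact hn.pow 2
  have key : ∀ x, |F x - F m| ≤ L * (s / 2) + (L / (2 * s)) * ‖x - m‖ ^ 2 := by
    intro x
    refine (hF x m).trans ?_
    have h1 : ‖x - m‖ ≤ s / 2 + 1 / (2 * s) * ‖x - m‖ ^ 2 := by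
      have : 0 ≤ 1 / (2 * s) * (‖x - m‖ - s) ^ 2 := by positivity
      have e : 1 / (2 * s) * (‖x - m‖ - s) ^ 2 = 1 / (2 * s) * ‖x - m‖ ^ 2 - ‖x - m‖ + s / 2 := by
        field_simp
        ring
      linarith
    calc L * ‖x - m‖ ≤ L * (s / 2 + 1 / (2 * s) * ‖x - m‖ ^ 2) := mul_le_mul_of_nonneg_left h1 hL
      _ = _ := by field_simp
  have hPr : Pg (fun x : E => L * (s / 2) + (L / (2 * s)) * ‖x - m‖ ^ 2) :=
    (Pg.const _).add ((Pg.const _).mul hPn)
  have hval : av W y (fun x : E => L * (s / 2) + (L / (2 * s)) * ‖x - m‖ ^ 2) ≤ L * s := by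
    rw [av_add hW (Pg.const _) ((Pg.const _).mul hPn), av_const hW, av_const_mul, hm,
      av_sq_dist hW]
    have : (L / (2 * s)) * ∑ i, c2 W y (stdOrthonormalBasis ℝ E i) ≤ (L / (2 * s)) * s ^ 2 :=
      mul_le_mul_of_nonneg_left hsum (by positivity)
    have e : (L / (2 * s)) * s ^ 2 = L * (s / 2) := by field_simp
    linarith
  have e1 : av W y F - F m = av W y (fun x => F x - F m) := by
    rw [av_sub hW hP (Pg.const _), av_const hW]
  rw [e1, abs_le]
  have hPF : Pg (fun x : E => F x - F m) := hP.sub (Pg.const _)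
  constructor
  · have h := av_mono hW ((Pg.const (-1 : ℝ)).mul hPF) hPr y (fun x => by
      have := (abs_le.1 (key x)).1; linarith)
    rw [av_const_mul] at h
    linarith
  · have h := av_mono hW hPF hPr y (fun x => (abs_le.1 (key x)).2)
    linarith

/-! ### the joint law -/

theorem phi_cont (hW : Gr W a C) (hφ : ∀ y, φ y = 1 / k * Lam W (k • y)) : Continuous φ := by
  have h : φ = fun y => 1 / k * Lam W (k • y) := funext hφ
  rw [h]
  exact continuous_const.mul ((contDiff_Lam hW).continuous.comp (continuous_const_smul k))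

theorem jd_cont (hW : Gr W a C) (hφ : ∀ y, φ y = 1 / k * Lam W (k • y)) :
    Continuous (jd k W φ) := by
  have h1 := phi_cont hW hφ
  have h2 := hW.cont
  unfold jd
  fun_prop

theorem jd_eq (x y : E) : jd k W φ (x, y) =
    Real.exp (-((k + 1) * φ y)) * Real.exp (⟪x, k • y⟫ - W x) := by
  unfold jd
  rw [← Real.exp_add]
  congr 1
  simp only [real_inner_smul_right]
  ring

theorem jd_eq' (x y : E) : jd k W φ (x, y) =
    Real.exp (-W x) * Real.exp (⟪y, k • x⟫ - (k + 1) * φ y) := by
  unfold jd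
  rw [← Real.exp_add]
  congr 1
  simp only [real_inner_smul_right]
  rw [real_inner_comm]
  ring

theorem exp_phi (hW : Gr W a C) (hk : 0 < k) (hφ : ∀ y, φ y = 1 / k * Lam W (k • y)) (y : E) :
    Real.exp (-((k + 1) * φ y)) * Z W (k • y) = Real.exp (-φ y) := by
  have h1 : Z W (k • y) = Real.exp (k * φ y) := by
    rw [hφ y, ← mul_assoc, mul_one_div_cancel hk.ne', one_mul]
    unfold Lam
    rw [Real.exp_log (Z_pos hW _)]
  rw [h1, ← Real.exp_add]
  congr 1
  ring

theorem int_jd_x (hW : Gr W a C) (hk : 0 < k) (hφ : ∀ y, φ y = 1 / k * Lam W (k • y))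
    (F : E → ℝ) (y : E) :
    ∫ x, F x * jd k W φ (x, y) = Real.exp (-φ y) * av W (k • y) F := by
  have h1 : ∀ x, F x * jd k W φ (x, y) =
      Real.exp (-((k + 1) * φ y)) * (Real.exp (⟪x, k • y⟫ - W x) • F x) := by
    intro x
    rw [jd_eq, smul_eq_mul]
    ring
  simp_rw [h1]
  rw [integral_const_mul, ← exp_phi hW hk hφ y]
  unfold av I
  rw [smul_eq_mul]
  have := (Z_pos hW (k • y)).ne'
  field_simp

theorem jd_integrable (hW : Gr W a C) (hk : 0 < k) (hφ : ∀ y, φ y = 1 / k * Lam W (k • y))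
    (hi : Integrable (fun y => Real.exp (-φ y))) :
    Integrable (jd k W φ) ((volume : Measure E).prod volume) := by
  have hm : AEStronglyMeasurable (jd k W φ) ((volume : Measure E).prod volume) :=
    (jd_cont hW hφ).aestronglyMeasurable
  rw [integrable_prod_iff' hm]
  constructor
  · refine Filter.Eventually.of_forall fun y => ?_
    have h := (integrable_exp hW (k • y)).const_mul (Real.exp (-((k + 1) * φ y)))
    refine h.congr (Filter.Eventually.of_forall fun x => ?_)
    exact (jd_eq x y).symm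
  · refine hi.congr (Filter.Eventually.of_forall fun y => ?_)
    have h := int_jd_x hW hk hφ (fun _ => 1) y
    rw [av_const hW, mul_one] at h
    change Real.exp (-φ y) = ∫ x, ‖jd k W φ (x, y)‖
    rw [← h]
    refine integral_congr_ae (Filter.Eventually.of_forall fun x => ?_)
    simp [jd, abs_of_pos, Real.exp_pos]

/-- Fubini for the joint law -/
theorem fubini (hW : Gr W a C) (hk : 0 < k) (hφ : ∀ y, φ y = 1 / k * Lam W (k • y))
    (hi : Integrable (fun y => Real.exp (-φ y))) {F : E → ℝ} (hF : Continuous F) {B : ℝ}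
    (hB : ∀ x, |F x| ≤ B) :
    Integrable (fun y => Real.exp (-φ y) * av W (k • y) F) ∧
    Integrable (fun x => F x * (Real.exp (-W x) * Z (fun y => (k + 1) * φ y) (k • x))) ∧
    ∫ y, Real.exp (-φ y) * av W (k • y) F =
      ∫ x, F x * (Real.exp (-W x) * Z (fun y => (k + 1) * φ y) (k • x)) := by
  have hJ := jd_integrable hW hk hφ hi
  have hFJ : Integrable (fun p : E × E => F p.1 * jd k W φ p)
      ((volume : Measure E).prod volume) := by
    refine hJ.bdd_mul (c := B) (hF.comp continuous_fst).aestronglyMeasurable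
      (Filter.Eventually.of_forall fun p => ?_)
    simpa using hB p.1
  have hx : ∀ x, ∫ y, F x * jd k W φ (x, y) =
      F x * (Real.exp (-W x) * Z (fun y => (k + 1) * φ y) (k • x)) := by
    intro x
    rw [integral_const_mul]
    congr 1
    simp_rw [jd_eq']
    rw [integral_const_mul]
    rfl
  have hy : ∀ y, ∫ x, F x * jd k W φ (x, y) = Real.exp (-φ y) * av W (k • y) F :=
    fun y => int_jd_x hW hk hφ F y
  refine ⟨?_, ?_, ?_⟩
  · refine hFJ.integral_prod_right.congr (Filter.Eventually.of_forall fun y => ?_)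
    exact hy y
  · refine hFJ.integral_prod_left.congr (Filter.Eventually.of_forall fun x => ?_)
    exact hx x
  · have h1 := integral_prod _ hFJ
    have h2 := integral_prod_symm _ hFJ
    simp only [hx, hy] at h1 h2
    rw [← h1, ← h2]

/-- total masses of the two marginals agree -/
theorem mass (hW : Gr W a C) (hk : 0 < k) (hφ : ∀ y, φ y = 1 / k * Lam W (k • y))
    (hi : Integrable (fun y => Real.exp (-φ y))) :
    Integrable (fun x => Real.exp (-W x) * Z (fun y => (k + 1) * φ y) (k • x)) ∧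
    ∫ y, Real.exp (-φ y) = ∫ x, Real.exp (-W x) * Z (fun y => (k + 1) * φ y) (k • x) := by
  obtain ⟨-, h2, h3⟩ := fubini hW hk hφ hi (F := fun _ => (1 : ℝ)) continuous_const (B := 1)
    (fun _ => by simp)
  simp only [av_const hW, mul_one, one_mul] at h2 h3
  exact ⟨h2, h3⟩

theorem mn_cont (hW : Gr W a C) : Continuous (mn k W) :=
  (contDiff_av hW Pg.id).continuous.comp (continuous_const_smul k)

/-- THE LAW OF LEVEL `k`: the `x`-marginal is close to the image of `e^{-φ} dy` under the conditional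
mean. -/
theorem law (hW : Gr W a C) (hk : 0 < k) (hφ : ∀ y, φ y = 1 / k * Lam W (k • y))
    (hi : Integrable (fun y => Real.exp (-φ y))) {σ : ℝ}
    (hσ : ∀ y v, c2 W y v ≤ σ * ‖v‖ ^ 2) {F : E → ℝ} {B L : ℝ} (hL : 0 ≤ L)
    (hF : ∀ x x', |F x - F x'| ≤ L * ‖x - x'‖) (hB : ∀ x, |F x| ≤ B)
    {s : ℝ} (hs : 0 < s) (hs2 : Module.finrank ℝ E * σ ≤ s ^ 2) :
    |(∫ y, F (mn k W y) * Real.exp (-φ y)) -
      ∫ x, F x * (Real.exp (-W x) * Z (fun y => (k + 1) * φ y) (k • x))| ≤
      L * s * ∫ y, Real.exp (-φ y) := by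
  have hFc : Continuous F := by
    have : LipschitzWith (Real.toNNReal L) F := LipschitzWith.of_dist_le_mul fun x y => by
      rw [Real.dist_eq, dist_eq_norm, Real.coe_toNNReal _ hL]
      exact hF x y
    exact this.continuous
  have hP : Pg F := ⟨hFc, B, 0, fun x => by simpa using hB x⟩
  obtain ⟨h1, -, h3⟩ := fubini hW hk hφ hi hFc hB
  have h4 : Integrable (fun y => F (mn k W y) * Real.exp (-φ y)) := by
    refine hi.bdd_mul (c := B) (hFc.comp (mn_cont hW)).aestronglyMeasurable
      (Filter.Eventually.of_forall fun p => ?_)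
    simpa using hB _
  rw [← h3, ← integral_sub h4 h1, ← integral_const_mul]
  refine (abs_integral_le_integral_abs).trans ?_
  refine integral_mono (h4.sub h1).abs (hi.const_mul _) fun y => ?_
  have h5 := av_lip hW (k • y) (hσ (k • y)) hL hF hP hs hs2
  have h6 : F (mn k W y) * Real.exp (-φ y) - Real.exp (-φ y) * av W (k • y) F =
      -(Real.exp (-φ y) * (av W (k • y) F - F (mn k W y))) := by ring
  change |F (mn k W y) * Real.exp (-φ y) - Real.exp (-φ y) * av W (k • y) F| ≤ _
  rw [h6, abs_neg, abs_mul, abs_of_pos (Real.exp_pos _), mul_comm]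
  exact mul_le_mul_of_nonneg_right h5 (Real.exp_pos _).le

end Vale.Agent.P227.M.LK.Law
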