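import Mathlib

/-! # P227/M, block LK: small relative entropy implies closeness in total variation -/

open MeasureTheory Set Filter Topology

namespace Vale.Agent.P227.M.LK

/-- if `∫ (W - V) e^{-V} ≤ η²` for two probability densities `e^{-V}`, `e^{-W}`, then
`|∫ F e^{-W} - ∫ F e^{-V}| ≤ 2 M η` for `|F| ≤ M` -/
theorem abs_sub_le_of_KL {α : Type*} [MeasurableSpace α] {μ : Measure α} {V W F : α → ℝ} {M η : ℝ}
    (hη : 0 < η) (hV : Integrable (fun x => Real.exp (-V x)) μ) (hW : Integrable (fun x => Real.exp (-W x)) μ)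
    (hV1 : ∫ x, Real.exp (-V x) ∂μ = 1) (hW1 : ∫ x, Real.exp (-W x) ∂μ = 1)
    (hKi : Integrable (fun x => (W x - V x) * Real.exp (-V x)) μ)
    (hK : ∫ x, (W x - V x) * Real.exp (-V x) ∂μ ≤ η ^ 2)
    (hF : AEStronglyMeasurable F μ) (hM : 0 ≤ M) (hFM : ∀ x, |F x| ≤ M) :
    |(∫ x, F x * Real.exp (-W x) ∂μ) - ∫ x, F x * Real.exp (-V x) ∂μ| ≤ 2 * M * η := by
  have hFW : Integrable (fun x => F x * Real.exp (-W x)) μ := by
    refine (hW.const_mul M).mono' (hF.mul hW.aestronglyMeasurable) (Eventually.of_forall fun x => ?_)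
    rw [Real.norm_eq_abs, abs_mul, abs_of_pos (Real.exp_pos _)]
    exact mul_le_mul_of_nonneg_right (hFM x) (Real.exp_pos _).le
  have hFV : Integrable (fun x => F x * Real.exp (-V x)) μ := by
    refine (hV.const_mul M).mono' (hF.mul hV.aestronglyMeasurable) (Eventually.of_forall fun x => ?_)
    rw [Real.norm_eq_abs, abs_mul, abs_of_pos (Real.exp_pos _)]
    exact mul_le_mul_of_nonneg_right (hFM x) (Real.exp_pos _).le
  rw [← integral_sub hFW hFV, ← Real.norm_eq_abs]
  -- the dominating function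
  have i1 : Integrable (fun x => Real.exp (-W x) - Real.exp (-V x)) μ := hW.sub hV
  have i2 : Integrable (fun x => Real.exp (-W x) - Real.exp (-V x) + (W x - V x) * Real.exp (-V x)) μ := i1.add hKi
  have i3 : Integrable (fun x => Real.exp (-W x) + Real.exp (-V x)) μ := hW.add hV
  have i4 : Integrable (fun x => (1 / η) * (Real.exp (-W x) - Real.exp (-V x) + (W x - V x) * Real.exp (-V x))
      + (η / 2) * (Real.exp (-W x) + Real.exp (-V x))) μ := (i2.const_mul _).add (i3.const_mul _)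
  have hpt : ∀ x, ‖F x * Real.exp (-W x) - F x * Real.exp (-V x)‖ ≤ M * ((1 / η) * (Real.exp (-W x) - Real.exp (-V x)
      + (W x - V x) * Real.exp (-V x)) + (η / 2) * (Real.exp (-W x) + Real.exp (-V x))) := by
    intro x
    rw [Real.norm_eq_abs, ← mul_sub, abs_mul]
    have h0 : 0 < Real.exp (-V x) := Real.exp_pos _
    set p := Real.exp (-(W x - V x) / 2) with hp
    have hp0 : 0 < p := Real.exp_pos _
    have h1 : Real.exp (-W x) = p ^ 2 * Real.exp (-V x) := by
      rw [hp, ← Real.exp_nat_mul, ← Real.exp_add]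
      congr 1
      push_cast
      ring
    have h2 : 1 - (W x - V x) / 2 ≤ p := by
      have := Real.add_one_le_exp (-(W x - V x) / 2)
      linarith
    have h3 : (p - 1) ^ 2 ≤ p ^ 2 - 1 + (W x - V x) := by nlinarith
    have h4 : |Real.exp (-W x) - Real.exp (-V x)| = |p - 1| * (p + 1) * Real.exp (-V x) := by
      rw [h1, show p ^ 2 * Real.exp (-V x) - Real.exp (-V x) = (p - 1) * (p + 1) * Real.exp (-V x) by ring,
        abs_mul, abs_mul, abs_of_pos h0, abs_of_pos (by linarith : 0 < p + 1)]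
    have h5 : |p - 1| * (p + 1) ≤ (1 / η) * (p - 1) ^ 2 + (η / 4) * (p + 1) ^ 2 := by
      have h6 : 0 ≤ (|p - 1| / η - (p + 1) / 2) ^ 2 := sq_nonneg _
      have h7 : (|p - 1| / η - (p + 1) / 2) ^ 2 * η = (1 / η) * (p - 1) ^ 2 + (η / 4) * (p + 1) ^ 2 - |p - 1| * (p + 1) := by
        have : |p - 1| ^ 2 = (p - 1) ^ 2 := sq_abs _
        field_simp
        rw [← this]
        ring
      have h8 := mul_nonneg h6 hη.le
      linarith
    have h9 : (p + 1) ^ 2 ≤ 2 * (p ^ 2 + 1) := by nlinarith [sq_nonneg (p - 1)]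
    have h10 : |p - 1| * (p + 1) ≤ (1 / η) * (p ^ 2 - 1 + (W x - V x)) + (η / 2) * (p ^ 2 + 1) := by
      have e1 : (1 / η) * (p - 1) ^ 2 ≤ (1 / η) * (p ^ 2 - 1 + (W x - V x)) :=
        mul_le_mul_of_nonneg_left h3 (by positivity)
      have e2 : (η / 4) * (p + 1) ^ 2 ≤ (η / 4) * (2 * (p ^ 2 + 1)) := mul_le_mul_of_nonneg_left h9 (by positivity)
      linarith
    have h11 : |Real.exp (-W x) - Real.exp (-V x)| ≤ (1 / η) * (Real.exp (-W x) - Real.exp (-V x)
        + (W x - V x) * Real.exp (-V x)) + (η / 2) * (Real.exp (-W x) + Real.exp (-V x)) := by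
      rw [h4, h1]
      calc |p - 1| * (p + 1) * Real.exp (-V x)
          ≤ ((1 / η) * (p ^ 2 - 1 + (W x - V x)) + (η / 2) * (p ^ 2 + 1)) * Real.exp (-V x) :=
            mul_le_mul_of_nonneg_right h10 h0.le
        _ = _ := by ring
    exact mul_le_mul (hFM x) h11 (abs_nonneg _) hM
  have h1 := norm_integral_le_of_norm_le (i4.const_mul M) (Eventually.of_forall hpt)
  refine h1.trans ?_
  have h2 : ∫ x, M * ((1 / η) * (Real.exp (-W x) - Real.exp (-V x)
      + (W x - V x) * Real.exp (-V x)) + (η / 2) * (Real.exp (-W x) + Real.exp (-V x))) ∂μ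
      = M * ((1 / η) * (1 - 1 + ∫ x, (W x - V x) * Real.exp (-V x) ∂μ) + (η / 2) * (1 + 1)) := by
    rw [integral_const_mul, integral_add (i2.const_mul _) (i3.const_mul _), integral_const_mul, integral_const_mul,
      integral_add i1 hKi, integral_sub hW hV, integral_add hW hV, hV1, hW1]
  rw [h2]
  have h3 : (1 / η) * ∫ x, (W x - V x) * Real.exp (-V x) ∂μ ≤ η := by
    calc (1 / η) * ∫ x, (W x - V x) * Real.exp (-V x) ∂μ ≤ (1 / η) * η ^ 2 :=
          mul_le_mul_of_nonneg_left hK (by positivity)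
      _ = η := by field_simp
  have h4 : (1 / η) * (1 - 1 + ∫ x, (W x - V x) * Real.exp (-V x) ∂μ) + (η / 2) * (1 + 1) ≤ 2 * η := by
    rw [sub_self, zero_add]
    linarith
  calc M * ((1 / η) * (1 - 1 + ∫ x, (W x - V x) * Real.exp (-V x) ∂μ) + (η / 2) * (1 + 1)) ≤ M * (2 * η) :=
        mul_le_mul_of_nonneg_left h4 hM
    _ = 2 * M * η := by ring

end Vale.Agent.P227.M.LK
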