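import Vale.Agent.P227.M.LK.Line
import Vale.Agent.P227.M.Stmts

/-! # Invariance of the level-`k` class under `T` (helper874 10615 (2)). -/

open MeasureTheory
open scoped ContDiff

namespace Vale.Agent.P227.M.LK

variable {n : ℕ}

/-! ### Sums and constants -/

theorem iteratedFDeriv_add' {V W : E n → ℝ} (hV : ContDiff ℝ (⊤ : ℕ∞) V) (hW : ContDiff ℝ (⊤ : ℕ∞) W)
    (i : ℕ) (x : E n) :
    iteratedFDeriv ℝ i (fun y => V y + W y) x = iteratedFDeriv ℝ i V x + iteratedFDeriv ℝ i W x := by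
  have hi : (i : WithTop ℕ∞) ≤ (⊤ : ℕ∞) := by exact_mod_cast le_top
  exact iteratedFDeriv_add_apply (hV.of_le hi).contDiffAt (hW.of_le hi).contDiffAt

theorem qf_add {V W : E n → ℝ} (hV : ContDiff ℝ (⊤ : ℕ∞) V) (hW : ContDiff ℝ (⊤ : ℕ∞) W) (x v : E n) :
    qf (hess (fun y => V y + W y) x) v = qf (hess V x) v + qf (hess W x) v := by
  have h1 : ContDiff ℝ (⊤ : ℕ∞) (fun y => V y + W y) := hV.add hW
  rw [← iteratedDeriv_two_line h1, ← iteratedDeriv_two_line hV, ← iteratedDeriv_two_line hW,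
    iteratedDeriv_line_zero h1, iteratedDeriv_line_zero hV, iteratedDeriv_line_zero hW,
    iteratedFDeriv_add' hV hW]
  rfl

theorem Reg.add {V W : E n → ℝ} {c C c' C' : ℝ} (hV : Reg V c C) (hW : Reg W c' C') :
    Reg (fun y => V y + W y) (c + c') (C + C') where
  c_pos := add_pos hV.c_pos hW.c_pos
  smooth := hV.smooth.add hW.smooth
  lower x v := by
    rw [qf_add hV.smooth hW.smooth, add_mul]
    exact add_le_add (hV.lower x v) (hW.lower x v)
  upper x v := by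
    rw [qf_add hV.smooth hW.smooth, add_mul]
    exact add_le_add (hV.upper x v) (hW.upper x v)
  bdd k hk := by
    obtain ⟨B, hB⟩ := hV.bdd k hk
    obtain ⟨B', hB'⟩ := hW.bdd k hk
    refine ⟨B + B', fun x => ?_⟩
    rw [iteratedFDeriv_add' hV.smooth hW.smooth]
    exact (norm_add_le _ _).trans (add_le_add (hB x) (hB' x))

theorem iteratedFDeriv_sub_const' {V : E n → ℝ} (hV : ContDiff ℝ (⊤ : ℕ∞) V) (r : ℝ) {i : ℕ} (hi0 : i ≠ 0)
    (x : E n) : iteratedFDeriv ℝ i (fun y => V y - r) x = iteratedFDeriv ℝ i V x := by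
  have h1 : (fun y => V y - r) = fun y => V y + (fun _ => -r) y := by funext y; ring
  rw [h1, iteratedFDeriv_add' hV contDiff_const, iteratedFDeriv_const_of_ne hi0]
  simp

theorem qf_sub_const {V : E n → ℝ} (hV : ContDiff ℝ (⊤ : ℕ∞) V) (r : ℝ) (x v : E n) :
    qf (hess (fun y => V y - r) x) v = qf (hess V x) v := by
  have h1 : ContDiff ℝ (⊤ : ℕ∞) (fun y => V y - r) := hV.sub contDiff_const
  rw [← iteratedDeriv_two_line h1, ← iteratedDeriv_two_line hV,
    iteratedDeriv_line_zero h1, iteratedDeriv_line_zero hV, iteratedFDeriv_sub_const' hV r (by norm_num)]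

theorem Reg.sub_const {V : E n → ℝ} {c C : ℝ} (hV : Reg V c C) (r : ℝ) :
    Reg (fun y => V y - r) c C where
  c_pos := hV.c_pos
  smooth := hV.smooth.sub contDiff_const
  lower x v := by rw [qf_sub_const hV.smooth]; exact hV.lower x v
  upper x v := by rw [qf_sub_const hV.smooth]; exact hV.upper x v
  bdd k hk := by
    obtain ⟨B, hB⟩ := hV.bdd k hk
    refine ⟨B, fun x => ?_⟩
    rw [iteratedFDeriv_sub_const' hV.smooth r (by omega)]
    exact hB x

theorem SelfConc.sub_const {V : E n → ℝ} {c C κ : ℝ} (hV : Reg V c C) (h : SelfConc κ V) (r : ℝ) :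
    SelfConc κ (fun y => V y - r) := by
  have hR := Reg.sub_const hV r
  rw [selfConc_iff hR.smooth (qf_nonneg_of_reg hR)]
  rw [selfConc_iff hV.smooth (qf_nonneg_of_reg hV)] at h
  intro x v
  rw [qf_sub_const hV.smooth, iteratedFDeriv_sub_const' hV.smooth r (by norm_num)]
  exact h x v

theorem Reg.congr_const {V : E n → ℝ} {c C c' C' : ℝ} (hV : Reg V c C) (h1 : c = c') (h2 : C = C') :
    Reg V c' C' := by subst h1; subst h2; exact hV

theorem SelfConc.mono {V : E n → ℝ} {c C κ κ' : ℝ} (hV : Reg V c C) (h : SelfConc κ V) (hκ : κ ≤ κ') :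
    SelfConc κ' V := by
  rw [selfConc_iff hV.smooth (qf_nonneg_of_reg hV)] at h ⊢
  intro x v
  refine (h x v).trans ?_
  have : 0 ≤ √(qf (hess V x) v) ^ 3 := by positivity
  nlinarith

/-- regular potentials are self-concordant -/
theorem Reg.exists_selfConc {V : E n → ℝ} {c C : ℝ} (hV : Reg V c C) : ∃ κ, 0 ≤ κ ∧ SelfConc κ V := by
  obtain ⟨B, hB⟩ := hV.bdd 3 (by norm_num)
  have hc := hV.c_pos
  have hs : 0 < √c := Real.sqrt_pos.2 hc
  refine ⟨|B| / (2 * √c ^ 3), by positivity, ?_⟩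
  rw [selfConc_iff hV.smooth (qf_nonneg_of_reg hV)]
  intro x v
  have h1 : |iteratedFDeriv ℝ 3 V x (fun _ => v)| ≤ |B| * ‖v‖ ^ 3 := by
    have h := (iteratedFDeriv ℝ 3 V x).le_opNorm (fun _ => v)
    simp only [Finset.prod_const, Finset.card_univ, Fintype.card_fin, Real.norm_eq_abs] at h
    exact h.trans (mul_le_mul_of_nonneg_right ((hB x).trans (le_abs_self B)) (by positivity))
  have h2 : √c * ‖v‖ ≤ √(qf (hess V x) v) := by
    rw [show √c * ‖v‖ = √(c * ‖v‖ ^ 2) by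
      rw [Real.sqrt_mul hc.le, Real.sqrt_sq (norm_nonneg v)]]
    exact Real.sqrt_le_sqrt (hV.lower x v)
  have h3 : (√c * ‖v‖) ^ 3 ≤ √(qf (hess V x) v) ^ 3 := pow_le_pow_left₀ (by positivity) h2 3
  have h4 : 2 * (|B| / (2 * √c ^ 3)) * (√c * ‖v‖) ^ 3 = |B| * ‖v‖ ^ 3 := by
    field_simp
  calc _ ≤ |B| * ‖v‖ ^ 3 := h1
    _ = 2 * (|B| / (2 * √c ^ 3)) * (√c * ‖v‖) ^ 3 := h4.symm
    _ ≤ _ := mul_le_mul_of_nonneg_left h3 (by positivity)

/-! ### The log-Laplace transform of an even function is even -/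

theorem logLap_neg {W : E n → ℝ} (hW : ∀ x, W (-x) = W x) (y : E n) : logLap W (-y) = logLap W y := by
  unfold logLap
  congr 1
  rw [← integral_neg_eq_self (fun x => Real.exp (inner ℝ x (-y) - W x))]
  refine integral_congr_ae (Filter.Eventually.of_forall fun x => ?_)
  simp [hW]

/-! ### The main arithmetic inequality -/

theorem sum_ineq {k m MV c0 C0 V2 Q2 V3 Q3 : ℝ} (hk : 0 < k) (hm : 0 ≤ m) (hMV : 0 ≤ MV) (hc0 : 0 < c0)
    (hC0 : 0 ≤ C0)
    (hmV : 2 / 3 * MV * √(C0 / c0) ≤ m) {N : ℝ} (hN : 0 ≤ N) (hV0 : 0 ≤ V2) (hVu : V2 ≤ C0 * N)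
    (hQl : k * c0 * N ≤ Q2) (hV3 : |V3| ≤ 2 * MV * √V2 ^ 3) (hQ3 : |Q3| ≤ 2 * (m / √k) * √Q2 ^ 3) :
    |V3 + Q3| ≤ 2 * (m / √k) * √(V2 + Q2) ^ 3 := by
  have hQ0 : 0 ≤ Q2 := le_trans (by positivity) hQl
  set s := √V2 with hs
  set r := √Q2 with hr
  set p := √(V2 + Q2) with hp
  have hs2 : s ^ 2 = V2 := Real.sq_sqrt hV0
  have hr2 : r ^ 2 = Q2 := Real.sq_sqrt hQ0
  have hp2 : p ^ 2 = V2 + Q2 := Real.sq_sqrt (by positivity)
  have hs0 : 0 ≤ s := Real.sqrt_nonneg _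
  have hr0 : 0 ≤ r := Real.sqrt_nonneg _
  have hp0 : 0 ≤ p := Real.sqrt_nonneg _
  have hsk : 0 < √k := Real.sqrt_pos.2 hk
  -- `√k s ≤ √(C0/c0) r`
  have h1 : √k * s ≤ √(C0 / c0) * r := by
    rw [hs, hr, ← Real.sqrt_mul hk.le, ← Real.sqrt_mul (by positivity)]
    refine Real.sqrt_le_sqrt ?_
    calc k * V2 ≤ k * (C0 * N) := mul_le_mul_of_nonneg_left hVu hk.le
      _ = C0 / c0 * (k * c0 * N) := by field_simp
      _ ≤ C0 / c0 * Q2 := mul_le_mul_of_nonneg_left hQl (by positivity)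
  have h2 : MV * √k * s ≤ 3 / 2 * m * r := by
    calc MV * √k * s = MV * (√k * s) := by ring
      _ ≤ MV * (√(C0 / c0) * r) := mul_le_mul_of_nonneg_left h1 hMV
      _ = 3 / 2 * (2 / 3 * MV * √(C0 / c0)) * r := by ring
      _ ≤ 3 / 2 * m * r := by
        refine mul_le_mul_of_nonneg_right ?_ hr0
        linarith
  -- `p³ ≥ r³ + (3/2) s² r`
  have h3 : r ^ 3 + 3 / 2 * s ^ 2 * r ≤ p ^ 3 := by
    refine abs_le_of_sq_le_sq' ?_ (by positivity) |>.2
    have : p ^ 2 = s ^ 2 + r ^ 2 := by rw [hp2, hs2, hr2]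
    have e : (p ^ 3) ^ 2 = (s ^ 2 + r ^ 2) ^ 3 := by rw [← this]; ring
    rw [e]
    nlinarith [sq_nonneg (s ^ 3), sq_nonneg (s ^ 2 * r)]
  have h4 : MV * s ^ 3 ≤ m / √k * (3 / 2 * s ^ 2 * r) := by
    rw [div_mul_eq_mul_div, le_div_iff₀ hsk]
    nlinarith [mul_le_mul_of_nonneg_left h2 (sq_nonneg s)]
  calc |V3 + Q3| ≤ |V3| + |Q3| := abs_add_le _ _
    _ ≤ 2 * MV * s ^ 3 + 2 * (m / √k) * r ^ 3 := add_le_add hV3 hQ3
    _ ≤ 2 * (m / √k) * (r ^ 3 + 3 / 2 * s ^ 2 * r) := by nlinarith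
    _ ≤ 2 * (m / √k) * p ^ 3 := mul_le_mul_of_nonneg_left h3 (by positivity)

/-! ### Level-`k` objects -/

/-- the regularity theorem for the log-Laplace transform, as a hypothesis (helper801: `reg_logLap`) -/
def RegLL : Prop := ∀ (n : ℕ) (W : E n → ℝ) (c C : ℝ), Reg W c C → 0 < C → Reg (logLap W) (1 / C) (1 / c)

theorem Nice.scale {W : E n → ℝ} {c C : ℝ} (h : Nice W c C) {α β : ℝ} (hα : 0 < α) (hβ : β ≠ 0) :
    Nice (fun y => α * W (β • y)) (α * β ^ 2 * c) (α * β ^ 2 * C) where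
  toReg := Reg.scale h.toReg hα hβ
  even x := by rw [smul_neg, h.even]

theorem nice_logLap (hLL : RegLL) {W : E n → ℝ} {c C : ℝ} (h : Nice W c C) (hC : 0 < C) :
    Nice (logLap W) (1 / C) (1 / c) where
  toReg := hLL n W c C h.toReg hC
  even x := logLap_neg h.even x

theorem Nice.congr_const {V : E n → ℝ} {c C c' C' : ℝ} (hV : Nice V c C) (h1 : c = c') (h2 : C = C') :
    Nice V c' C' := by subst h1; subst h2; exact hV

theorem Nice.mulK {c : E n → ℝ} {a b k : ℝ} (h : Nice c a b) (hk : 0 < k) :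
    Nice (fun x => k * c x) (k * a) (k * b) := by
  have := Nice.scale h hk one_ne_zero
  simpa using this

theorem SelfConc.mulK {c : E n → ℝ} {a b k m : ℝ} (h : Reg c a b) (hs : SelfConc m c) (hk : 0 < k) :
    SelfConc (m / √k) (fun x => k * c x) := by
  have := SelfConc.scale h hs hk one_ne_zero
  simpa using this

section
variable {k c0 C0 m : ℝ} {c : E n → ℝ}

theorem nice_phiK (hLL : RegLL) (hk : 0 < k) (hc0 : 0 < c0) (hC0 : 0 < C0)
    (hc : Nice c (c0 * (k + 1) / k) (C0 * (k + 1) / k)) :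
    Nice (phiK k c) (k / ((k + 1) * C0)) (k / ((k + 1) * c0)) := by
  have h1 := Nice.mulK hc hk
  have h2 := nice_logLap hLL h1 (by positivity)
  have h3 := Nice.scale h2 (α := 1 / k) (β := k) (by positivity) hk.ne'
  refine Nice.congr_const h3 ?_ ?_ <;> field_simp

theorem sc_phiK (hSC : StmtSC) (hLL : RegLL) (hk : 0 < k) (hC0 : 0 < C0) (hm : 0 ≤ m)
    (hmk : m ^ 2 ≤ k) (hc : Nice c (c0 * (k + 1) / k) (C0 * (k + 1) / k)) (hs : SelfConc m c) :
    SelfConc m (phiK k c) := by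
  have hsk : 0 < √k := Real.sqrt_pos.2 hk
  have h1 := Nice.mulK hc hk
  have h1s := SelfConc.mulK hc.toReg hs hk
  have h2 := nice_logLap hLL h1 (by positivity)
  have hle : m / √k ≤ 1 := by
    rw [div_le_one hsk]
    exact Real.le_sqrt_of_sq_le hmk
  have h2s := hSC n _ _ _ _ h1.toReg (by positivity) hle h1s
  have h3 := SelfConc.scale h2.toReg h2s (α := 1 / k) (β := k) (by positivity) hk.ne'
  have h4 : m / √k / √(1 / k) = m := by
    rw [Real.sqrt_div zero_le_one, Real.sqrt_one]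
    field_simp
  rw [h4] at h3
  exact h3

theorem nice_QK (hLL : RegLL) (hk : 0 < k) (hc0 : 0 < c0) (hC0 : 0 < C0)
    (hc : Nice c (c0 * (k + 1) / k) (C0 * (k + 1) / k)) :
    Nice (QK k c) (k * c0) (k * C0) := by
  have h1 := nice_phiK hLL hk hc0 hC0 hc
  have h2 := Nice.mulK h1 (k := k + 1) (by positivity)
  have h3 := nice_logLap hLL h2 (by positivity)
  have h4 := Nice.scale h3 (α := 1) (β := k) (by positivity) hk.ne'
  simp only [one_mul] at h4
  refine Nice.congr_const h4 ?_ ?_ <;> field_simp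

theorem sc_QK (hSC : StmtSC) (hLL : RegLL) (hk : 0 < k) (hc0 : 0 < c0) (hC0 : 0 < C0) (hm : 0 ≤ m)
    (hmk : m ^ 2 ≤ k) (hc : Nice c (c0 * (k + 1) / k) (C0 * (k + 1) / k)) (hs : SelfConc m c) :
    SelfConc (m / √k) (QK k c) := by
  have hsk : 0 < √k := Real.sqrt_pos.2 hk
  have hsk1 : 0 < √(k + 1) := Real.sqrt_pos.2 (by positivity)
  have h1 := nice_phiK hLL hk hc0 hC0 hc
  have h1s := sc_phiK hSC hLL hk hC0 hm hmk hc hs
  have h2 := Nice.mulK h1 (k := k + 1) (by positivity)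
  have h2s := SelfConc.mulK h1.toReg h1s (k := k + 1) (by positivity)
  have h3 := nice_logLap hLL h2 (by positivity)
  have hle : m / √(k + 1) ≤ 1 := by
    rw [div_le_one hsk1]
    exact Real.le_sqrt_of_sq_le (by linarith)
  have h3s := hSC n _ _ _ _ h2.toReg (by positivity) hle h2s
  have h4 := Nice.scale h3 (α := 1) (β := k) (by positivity) hk.ne'
  have h4s := SelfConc.scale h3.toReg h3s (α := 1) (β := k) (by positivity) hk.ne'
  simp only [one_mul, Real.sqrt_one, div_one] at h4 h4s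
  refine SelfConc.mono h4.toReg h4s ?_
  exact div_le_div_of_nonneg_left hm hsk (Real.sqrt_le_sqrt (by linarith))

/-- `T` maps the level-`k` class into itself -/
theorem ClassK.TK_mem (hSC : StmtSC) (hLL : RegLL) {V : E n → ℝ} {MV : ℝ} (hV : Nice V c0 C0)
    (hC0 : 0 < C0) (hMV : 0 ≤ MV) (hVs : SelfConc MV V) (hm : 2 / 3 * MV * √(C0 / c0) ≤ m)
    (hk : 0 < k) (hmk : m ^ 2 ≤ k) (hc : ClassK k c0 C0 m c) : ClassK k c0 C0 m (TK k V c) := by
  have hc0 : 0 < c0 := hV.c_pos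
  have hm0 : 0 ≤ m := le_trans (by positivity) hm
  have hsk : 0 < √k := Real.sqrt_pos.2 hk
  have hQ := nice_QK hLL hk hc0 hC0 hc.nice
  have hQs := sc_QK hSC hLL hk hc0 hC0 hm0 hmk hc.nice hc.sc
  -- the sum
  have hS : Reg (fun x => V x + QK k c x) (c0 + k * c0) (C0 + k * C0) := Reg.add hV.toReg hQ.toReg
  have hSs : SelfConc (m / √k) (fun x => V x + QK k c x) := by
    rw [selfConc_iff hS.smooth (qf_nonneg_of_reg hS)]
    rw [selfConc_iff hV.smooth (qf_nonneg_of_reg hV.toReg)] at hVs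
    rw [selfConc_iff hQ.smooth (qf_nonneg_of_reg hQ.toReg)] at hQs
    intro x v
    rw [iteratedFDeriv_add' hV.smooth hQ.smooth, qf_add hV.smooth hQ.smooth]
    exact sum_ineq hk hm0 hMV hc0 hC0.le hm (N := ‖v‖ ^ 2) (by positivity)
      (qf_nonneg_of_reg hV.toReg x v) (hV.upper x v) (hQ.lower x v) (hVs x v) (hQs x v)
  -- divide by `k`
  have hD := Reg.scale hS (α := 1 / k) (β := 1) (by positivity) one_ne_zero
  have hDs := SelfConc.scale hS hSs (α := 1 / k) (β := 1) (by positivity) one_ne_zero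
  simp only [one_smul, one_pow, mul_one] at hD hDs
  have hTeq : TK k V c = fun x => 1 / k * (V x + QK k c x) - (V 0 + QK k c 0) / k := by
    funext x; unfold TK; ring
  have h4 : m / √k / √(1 / k) = m := by
    rw [Real.sqrt_div zero_le_one, Real.sqrt_one]
    field_simp
  rw [h4] at hDs
  refine ⟨⟨?_, ?_⟩, ?_, ?_⟩
  · rw [hTeq]
    refine Reg.congr_const (Reg.sub_const hD _) ?_ ?_ <;> field_simp <;> ring
  · intro x
    simp only [TK, hV.even x, hQ.even x]
  · rw [hTeq]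
    exact SelfConc.sub_const hD hDs _
  · simp [TK]

end

end Vale.Agent.P227.M.LK
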