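import Vale.Agent.P227.M.LK.DescK
import Vale.Agent.P227.M.LK.TV

/-! # P227/M, block LK: at level `k`, `x` is close to `g y` (a semiconcavity gradient of `phi`), and the push-forward error -/

open MeasureTheory Set Filter Topology

namespace Vale.Agent.P227.M.LK.Dsc

set_option linter.unusedSectionVars false

theorem two_add_sq_le (u : ℝ) : 2 + u ^ 2 ≤ Real.exp u + Real.exp (-u) := by
  have h1 : Real.exp u + Real.exp (-u) = 2 * Real.cosh u := by
    rw [Real.cosh_eq]
    ring
  have h2 : Real.cosh u = 1 + 2 * Real.sinh (u / 2) ^ 2 := by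
    have := Real.cosh_two_mul (u / 2)
    rw [show 2 * (u / 2) = u by ring, Real.cosh_sq] at this
    rw [this]
    ring
  have h3 : (u / 2) ^ 2 ≤ Real.sinh (u / 2) ^ 2 := by
    rcases le_total 0 (u / 2) with h | h
    · exact pow_le_pow_left₀ h (Real.self_le_sinh_iff.2 h) 2
    · have h4 := Real.self_le_sinh_iff.2 (neg_nonneg.2 h)
      rw [Real.sinh_neg] at h4
      have h5 := pow_le_pow_left₀ (neg_nonneg.2 h) h4 2
      nlinarith
  rw [h1, h2]
  nlinarith

variable {E : Type*} [NormedAddCommGroup E] [InnerProductSpace ℝ E] [FiniteDimensional ℝ E]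
  [MeasurableSpace E] [BorelSpace E]

variable {V : E → ℝ} {k a b A : ℝ} {c : E → ℝ}

/-- the conditional density of `x` given `y` -/
noncomputable def cd (k : ℝ) (c : E → ℝ) (y x : E) : ℝ := Real.exp (k * inner ℝ x y - k * c x - k * phi k c y)

theorem cd_pos (y x : E) : 0 < cd k c y x := Real.exp_pos _

theorem integrable_cd_tilt (hk : 0 < k) (ha : 0 < a) (h : Qg a b c) (y z : E) (s : ℝ) :
    Integrable fun x : E => Real.exp (k * (inner ℝ x z - s)) * cd k c y x := by
  have h1 := (h.int1 hk ha (y + z)).mul_const (Real.exp (-(k * s) - k * phi k c y))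
  refine h1.congr (Eventually.of_forall fun x => ?_)
  simp only [cd]
  rw [← Real.exp_add, ← Real.exp_add, inner_add_right]
  congr 1
  ring

theorem integral_cd_tilt (hk : 0 < k) (ha : 0 < a) (h : Qg a b c) (y z : E) (s : ℝ) :
    ∫ x : E, Real.exp (k * (inner ℝ x z - s)) * cd k c y x = Real.exp (k * (phi k c (y + z) - phi k c y - s)) := by
  have h1 : (fun x : E => Real.exp (k * (inner ℝ x z - s)) * cd k c y x)
      = fun x => Real.exp (k * inner ℝ x (y + z) - k * c x) * Real.exp (-(k * s) - k * phi k c y) := by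
    ext x
    simp only [cd]
    rw [← Real.exp_add, ← Real.exp_add, inner_add_right]
    congr 1
    ring
  rw [h1, integral_mul_const, ← exp_phi hk (h.int1 hk ha (y + z)), ← Real.exp_add]
  congr 1
  ring

theorem integrable_cd (hk : 0 < k) (ha : 0 < a) (h : Qg a b c) (y : E) : Integrable (cd k c y) := by
  refine (integrable_cd_tilt hk ha h y 0 0).congr (Eventually.of_forall fun x => ?_)
  simp

theorem integral_cd (hk : 0 < k) (ha : 0 < a) (h : Qg a b c) (y : E) : ∫ x : E, cd k c y x = 1 := by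
  have := integral_cd_tilt hk ha h y 0 0
  simpa using this

theorem measurable_cd (hc : Measurable c) (y : E) : Measurable (cd k c y) := by
  unfold cd
  have : Measurable fun x : E => (inner ℝ x y : ℝ) := (continuous_id.inner continuous_const).measurable
  exact Real.measurable_exp.comp (((this.const_mul k).sub (hc.const_mul k)).sub_const _)

/-- second moments in a direction -/
theorem second_moment (hk : 0 < k) (ha : 0 < a) (h : Qg a b c) (hA : 0 ≤ A) {y w : E}
    (hsc : ∀ z, phi k c (y + z) ≤ phi k c y + inner ℝ w z + A / 2 * ‖z‖ ^ 2) {e : E} (he : ‖e‖ = 1) :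
    Integrable (fun x : E => (inner ℝ (x - w) e) ^ 2 * cd k c y x) ∧
      ∫ x : E, (inner ℝ (x - w) e) ^ 2 * cd k c y x ≤ A / k := by
  have hm : Measurable fun x : E => (inner ℝ (x - w) e : ℝ) := ((continuous_id.sub continuous_const).inner continuous_const).measurable
  -- for every r > 0
  have key : ∀ r : ℝ, 0 < r → Integrable (fun x : E => (2 + (k * (r * inner ℝ (x - w) e)) ^ 2) * cd k c y x) ∧
      ∫ x : E, (2 + (k * (r * inner ℝ (x - w) e)) ^ 2) * cd k c y x ≤ 2 * Real.exp (k * (A / 2 * r ^ 2)) := by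
    intro r hr
    have i1 := integrable_cd_tilt hk ha h y (r • e) (inner ℝ w (r • e))
    have i2 := integrable_cd_tilt hk ha h y (-(r • e)) (inner ℝ w (-(r • e)))
    have hpt : ∀ x : E, (2 + (k * (r * inner ℝ (x - w) e)) ^ 2) * cd k c y x ≤
        Real.exp (k * (inner ℝ x (r • e) - inner ℝ w (r • e))) * cd k c y x
        + Real.exp (k * (inner ℝ x (-(r • e)) - inner ℝ w (-(r • e)))) * cd k c y x := by
      intro x
      rw [← add_mul]
      refine mul_le_mul_of_nonneg_right ?_ (cd_pos y x).le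
      have h1 : k * (inner ℝ x (r • e) - inner ℝ w (r • e)) = k * (r * inner ℝ (x - w) e) := by
        rw [inner_smul_right, inner_smul_right, inner_sub_left]
        ring
      have h2 : k * (inner ℝ x (-(r • e)) - inner ℝ w (-(r • e))) = -(k * (r * inner ℝ (x - w) e)) := by
        rw [inner_neg_right, inner_neg_right, inner_smul_right, inner_smul_right, inner_sub_left]
        ring
      rw [h1, h2]
      exact two_add_sq_le _
    have hi : Integrable (fun x : E => (2 + (k * (r * inner ℝ (x - w) e)) ^ 2) * cd k c y x) := by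
      refine (i1.add i2).mono' ?_ (Eventually.of_forall fun x => ?_)
      · exact (((((hm.const_mul r).const_mul k).pow_const 2).const_add 2).mul (measurable_cd h.meas y)).aestronglyMeasurable
      · rw [Real.norm_eq_abs, abs_of_nonneg (mul_nonneg (by positivity) (cd_pos y x).le)]
        exact hpt x
    refine ⟨hi, ?_⟩
    have h3 := integral_mono hi (i1.add i2) hpt
    have h4 : ∫ x : E, ((fun x => Real.exp (k * (inner ℝ x (r • e) - inner ℝ w (r • e))) * cd k c y x)
        + (fun x => Real.exp (k * (inner ℝ x (-(r • e)) - inner ℝ w (-(r • e)))) * cd k c y x)) x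
        = Real.exp (k * (phi k c (y + r • e) - phi k c y - inner ℝ w (r • e)))
          + Real.exp (k * (phi k c (y + -(r • e)) - phi k c y - inner ℝ w (-(r • e)))) := by
      rw [integral_add' i1 i2, integral_cd_tilt hk ha h, integral_cd_tilt hk ha h]
    rw [h4] at h3
    have hn : ‖r • e‖ ^ 2 = r ^ 2 := by rw [norm_smul, he, mul_one, Real.norm_eq_abs, sq_abs]
    have h5 : Real.exp (k * (phi k c (y + r • e) - phi k c y - inner ℝ w (r • e))) ≤ Real.exp (k * (A / 2 * r ^ 2)) := by
      refine Real.exp_le_exp.2 (mul_le_mul_of_nonneg_left ?_ hk.le)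
      have := hsc (r • e)
      rw [hn] at this
      linarith
    have h6 : Real.exp (k * (phi k c (y + -(r • e)) - phi k c y - inner ℝ w (-(r • e)))) ≤ Real.exp (k * (A / 2 * r ^ 2)) := by
      refine Real.exp_le_exp.2 (mul_le_mul_of_nonneg_left ?_ hk.le)
      have := hsc (-(r • e))
      rw [norm_neg, hn] at this
      linarith
    linarith
  have hcd := integrable_cd hk ha h y
  have h1 : Integrable (fun x : E => (inner ℝ (x - w) e) ^ 2 * cd k c y x) := by
    have := ((key 1 one_pos).1.sub (hcd.const_mul 2)).const_mul (1 / k ^ 2)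
    refine this.congr (Eventually.of_forall fun x => ?_)
    simp only [Pi.sub_apply]
    field_simp
    ring
  refine ⟨h1, ?_⟩
  set m := ∫ x : E, (inner ℝ (x - w) e) ^ 2 * cd k c y x with hm'
  have h2 : ∀ r : ℝ, 0 < r → 2 + k ^ 2 * r ^ 2 * m ≤ 2 * Real.exp (k * (A / 2 * r ^ 2)) := by
    intro r hr
    refine le_trans (le_of_eq ?_) (key r hr).2
    have h3 : (fun x : E => (2 + (k * (r * inner ℝ (x - w) e)) ^ 2) * cd k c y x)
        = fun x => 2 * cd k c y x + (k ^ 2 * r ^ 2) * ((inner ℝ (x - w) e) ^ 2 * cd k c y x) := by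
      ext x
      ring
    rw [h3, integral_add (hcd.const_mul 2) (h1.const_mul _), integral_const_mul, integral_const_mul, integral_cd hk ha h]
    ring
  refine le_of_forall_pos_le_add fun δ hδ => ?_
  -- choose r small
  have hA1 : 0 < k * A / 2 + 1 := by positivity
  obtain ⟨r, hr0, hr1, hr2⟩ : ∃ r : ℝ, 0 < r ∧ k * (A / 2 * r ^ 2) ≤ 1 ∧ A ^ 2 / 2 * r ^ 2 ≤ δ := by
    have ht : Tendsto (fun r : ℝ => k * (A / 2 * r ^ 2)) (𝓝[>] 0) (𝓝 (k * (A / 2 * 0 ^ 2))) :=
      (Continuous.tendsto (by fun_prop) 0).mono_left nhdsWithin_le_nhds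
    have ht2 : Tendsto (fun r : ℝ => A ^ 2 / 2 * r ^ 2) (𝓝[>] 0) (𝓝 (A ^ 2 / 2 * 0 ^ 2)) :=
      (Continuous.tendsto (by fun_prop) 0).mono_left nhdsWithin_le_nhds
    have e1 := ht.eventually (ge_mem_nhds (by norm_num : k * (A / 2 * 0 ^ 2) < 1))
    have e2 := ht2.eventually (ge_mem_nhds (by simpa using hδ : A ^ 2 / 2 * 0 ^ 2 < δ))
    have e3 : ∀ᶠ r : ℝ in 𝓝[>] 0, 0 < r := self_mem_nhdsWithin
    obtain ⟨r, h1, h2, h3⟩ := (e1.and (e2.and e3)).exists
    exact ⟨r, h3, h1, h2⟩
  have h3 := h2 r hr0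
  set u := k * (A / 2 * r ^ 2) with hu
  have hu0 : 0 ≤ u := by positivity
  have h4 := Real.abs_exp_sub_one_sub_id_le (x := u) (by rw [abs_of_nonneg hu0]; exact hr1)
  have h5 := (abs_le.1 h4).2
  have h6 : k ^ 2 * r ^ 2 * m ≤ 2 * (u + u ^ 2) := by linarith
  have h7 : 2 * (u + u ^ 2) = k ^ 2 * r ^ 2 * (A / k + A ^ 2 / 2 * r ^ 2) := by
    rw [hu]
    field_simp
  rw [h7] at h6
  have h8 := le_of_mul_le_mul_left h6 (by positivity)
  linarith

/-- first moment of `‖x - w‖` -/
theorem first_moment (hk : 0 < k) (ha : 0 < a) (h : Qg a b c) (hA : 0 ≤ A) {y w : E}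
    (hsc : ∀ z, phi k c (y + z) ≤ phi k c y + inner ℝ w z + A / 2 * ‖z‖ ^ 2) {σ : ℝ} (hσ : 0 < σ)
    (hAσ : Module.finrank ℝ E * (A / k) ≤ σ ^ 2) :
    Integrable (fun x : E => ‖x - w‖ * cd k c y x) ∧ ∫ x : E, ‖x - w‖ * cd k c y x ≤ σ := by
  let B := stdOrthonormalBasis ℝ E
  have h1 : ∀ i, Integrable (fun x : E => (inner ℝ (x - w) (B i)) ^ 2 * cd k c y x) ∧
      ∫ x : E, (inner ℝ (x - w) (B i)) ^ 2 * cd k c y x ≤ A / k := fun i =>
    second_moment hk ha h hA hsc (B.orthonormal.1 i)
  have hsum : ∀ x : E, ‖x - w‖ ^ 2 * cd k c y x = ∑ i, (inner ℝ (x - w) (B i)) ^ 2 * cd k c y x := by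
    intro x
    rw [← Finset.sum_mul, B.sum_sq_inner_left]
  have i2 : Integrable (fun x : E => ‖x - w‖ ^ 2 * cd k c y x) := by
    have := integrable_finsetSum Finset.univ fun i _ => (h1 i).1
    refine this.congr (Eventually.of_forall fun x => ?_)
    simp only
    rw [hsum]
  have h2 : ∫ x : E, ‖x - w‖ ^ 2 * cd k c y x ≤ σ ^ 2 := by
    have : ∫ x : E, ‖x - w‖ ^ 2 * cd k c y x = ∑ i, ∫ x : E, (inner ℝ (x - w) (B i)) ^ 2 * cd k c y x := by
      rw [← integral_finsetSum _ fun i _ => (h1 i).1]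
      congr 1
      ext x
      exact hsum x
    rw [this]
    calc ∑ i, ∫ x : E, (inner ℝ (x - w) (B i)) ^ 2 * cd k c y x ≤ ∑ _i : Fin (Module.finrank ℝ E), A / k :=
          Finset.sum_le_sum fun i _ => (h1 i).2
      _ = Module.finrank ℝ E * (A / k) := by simp
      _ ≤ σ ^ 2 := hAσ
  have hcd := integrable_cd hk ha h y
  have i3 : Integrable (fun x : E => σ / 2 * cd k c y x + 1 / (2 * σ) * (‖x - w‖ ^ 2 * cd k c y x)) :=
    (hcd.const_mul _).add (i2.const_mul _)
  have hpt : ∀ x : E, ‖x - w‖ * cd k c y x ≤ σ / 2 * cd k c y x + 1 / (2 * σ) * (‖x - w‖ ^ 2 * cd k c y x) := by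
    intro x
    have h3 : ‖x - w‖ ≤ σ / 2 + 1 / (2 * σ) * ‖x - w‖ ^ 2 := by
      have h4 : 0 ≤ (‖x - w‖ - σ) ^ 2 / (2 * σ) := by positivity
      have h5 : (‖x - w‖ - σ) ^ 2 / (2 * σ) = σ / 2 + 1 / (2 * σ) * ‖x - w‖ ^ 2 - ‖x - w‖ := by
        field_simp
        ring
      linarith
    have := mul_le_mul_of_nonneg_right h3 (cd_pos (k := k) (c := c) y x).le
    linarith
  have i4 : Integrable (fun x : E => ‖x - w‖ * cd k c y x) := by
    refine i3.mono' ((measurable_norm.comp (measurable_id.sub_const w)).mul (measurable_cd h.meas y)).aestronglyMeasurable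
      (Eventually.of_forall fun x => ?_)
    rw [Real.norm_eq_abs, abs_of_nonneg (mul_nonneg (norm_nonneg _) (cd_pos y x).le)]
    exact hpt x
  refine ⟨i4, (integral_mono i4 i3 hpt).trans ?_⟩
  rw [integral_add (hcd.const_mul _) (i2.const_mul _), integral_const_mul, integral_const_mul, integral_cd hk ha h]
  have : 1 / (2 * σ) * ∫ x : E, ‖x - w‖ ^ 2 * cd k c y x ≤ 1 / (2 * σ) * σ ^ 2 :=
    mul_le_mul_of_nonneg_left h2 (by positivity)
  have h3 : 1 / (2 * σ) * σ ^ 2 = σ / 2 := by field_simp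
  linarith

/-- **the law at level `k`**: `∫ F (g y) e^{-phi y} dy` against the `x`-marginal -/
theorem law_error (hk : 0 < k) (ha : 0 < a) (hb : 0 < b) (h : Qg a b c) (hA : 0 ≤ A) {g : E → E} (hg : Measurable g)
    (hsc : ∀ y z, phi k c (y + z) ≤ phi k c y + inner ℝ (g y) z + A / 2 * ‖z‖ ^ 2) {σ : ℝ} (hσ : 0 < σ)
    (hAσ : Module.finrank ℝ E * (A / k) ≤ σ ^ 2) {F : E → ℝ} {L M : ℝ}
    (hF : Continuous F) (hL0 : 0 ≤ L) (hL : ∀ x y, |F x - F y| ≤ L * ‖x - y‖) (hM : ∀ x, |F x| ≤ M) :
    |(∫ y, F (g y) * Real.exp (-phi k c y)) / Z k c - ∫ x, F x * Real.exp (-W k c x)| ≤ L * σ := by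
  have hZ := h.Z_pos hk ha hb
  have hphi := h.int3 hk ha hb
  have hM0 : 0 ≤ M := (abs_nonneg _).trans (hM 0)
  -- joint density
  set j : E → E → ℝ := fun x y => Real.exp (k * inner ℝ x y - k * c x - (k + 1) * phi k c y) with hj
  have hjc : ∀ x y, j x y = cd k c y x * Real.exp (-phi k c y) := by
    intro x y
    rw [hj]
    simp only [cd]
    rw [← Real.exp_add]
    congr 1
    ring
  have hji : Integrable (fun p : E × E => j p.1 p.2) ((volume : Measure E).prod volume) := h.int_joint hk ha hb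
  have hFj : Integrable (fun p : E × E => F p.1 * j p.1 p.2) ((volume : Measure E).prod volume) := by
    refine (hji.const_mul M).mono' ((hF.comp continuous_fst).aestronglyMeasurable.mul hji.aestronglyMeasurable)
      (Eventually.of_forall fun p => ?_)
    rw [Real.norm_eq_abs, abs_mul, abs_of_pos (Real.exp_pos _)]
    exact mul_le_mul_of_nonneg_right (hM _) (Real.exp_pos _).le
  have hswap := integral_integral_swap (f := fun x y => F x * j x y) hFj
  have hx : ∀ x : E, ∫ y : E, F x * j x y = F x * Real.exp (-(k * c x - Q k c x)) := by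
    intro x
    rw [integral_const_mul, hj, h.marg_x hk ha hb]
  simp only [hx] at hswap
  have hxm : (∫ x, F x * Real.exp (-W k c x)) = (∫ x, F x * Real.exp (-(k * c x - Q k c x))) / Z k c := by
    rw [← integral_div]
    congr 1
    ext x
    have : Real.exp (-W k c x) = Real.exp (-(k * c x - Q k c x)) / Z k c := by
      unfold W
      rw [neg_add, Real.exp_add, Real.exp_neg (Real.log _), Real.exp_log hZ, div_eq_mul_inv]
    rw [this]
    ring
  rw [hxm, hswap, ← sub_div, abs_div, abs_of_pos hZ, div_le_iff₀ hZ]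
  have hFg : Integrable fun y => F (g y) * Real.exp (-phi k c y) := by
    refine (hphi.const_mul M).mono' ((hF.measurable.comp hg).aestronglyMeasurable.mul hphi.aestronglyMeasurable)
      (Eventually.of_forall fun p => ?_)
    rw [Real.norm_eq_abs, abs_mul, abs_of_pos (Real.exp_pos _)]
    exact mul_le_mul_of_nonneg_right (hM _) (Real.exp_pos _).le
  have hyi : Integrable fun y => ∫ x, F x * j x y := hFj.integral_prod_right
  rw [← integral_sub hFg hyi, ← Real.norm_eq_abs]
  have hpt : ∀ y : E, ‖F (g y) * Real.exp (-phi k c y) - ∫ x, F x * j x y‖ ≤ L * σ * Real.exp (-phi k c y) := by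
    intro y
    have hcd := integrable_cd hk ha h y
    have hcd1 := integral_cd hk ha h y
    have h1 : ∫ x, F x * j x y = (∫ x, F x * cd k c y x) * Real.exp (-phi k c y) := by
      rw [← integral_mul_const]
      congr 1
      ext x
      rw [hjc]
      ring
    have hFi : Integrable fun x => F x * cd k c y x := by
      refine (hcd.const_mul M).mono' (hF.aestronglyMeasurable.mul hcd.aestronglyMeasurable)
        (Eventually.of_forall fun p => ?_)
      rw [Real.norm_eq_abs, abs_mul, abs_of_pos (cd_pos _ _)]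
      exact mul_le_mul_of_nonneg_right (hM _) (cd_pos _ _).le
    have h2 : F (g y) * Real.exp (-phi k c y) - ∫ x, F x * j x y
        = (∫ x, (F (g y) - F x) * cd k c y x) * Real.exp (-phi k c y) := by
      have h3 : (fun x => (F (g y) - F x) * cd k c y x) = fun x => F (g y) * cd k c y x - F x * cd k c y x := by
        ext x
        ring
      rw [h1, h3, integral_sub (hcd.const_mul _) hFi, integral_const_mul, hcd1]
      ring
    rw [h2, norm_mul, Real.norm_eq_abs (Real.exp _), abs_of_pos (Real.exp_pos _)]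
    refine mul_le_mul_of_nonneg_right ?_ (Real.exp_pos _).le
    obtain ⟨f1, f2⟩ := first_moment hk ha h hA (hsc y) hσ hAσ
    have h4 := norm_integral_le_of_norm_le (f1.const_mul L) (f := fun x => (F (g y) - F x) * cd k c y x)
      (Eventually.of_forall fun x => by
        rw [norm_mul, Real.norm_eq_abs, Real.norm_eq_abs, abs_of_pos (cd_pos _ _), ← mul_assoc]
        refine mul_le_mul_of_nonneg_right ?_ (cd_pos _ _).le
        rw [abs_sub_comm]
        exact hL x (g y))
    refine h4.trans ?_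
    rw [integral_const_mul]
    exact mul_le_mul_of_nonneg_left f2 hL0
  have h7 := norm_integral_le_of_norm_le (hphi.const_mul (L * σ)) (Eventually.of_forall hpt)
  refine h7.trans (le_of_eq ?_)
  rw [integral_const_mul]
  rfl

theorem Qg.integrable_exp_neg_W' (hk : 0 < k) (ha : 0 < a) (hb : 0 < b) (h : Qg a b c) :
    Integrable fun x : E => Real.exp (-W k c x) := by
  by_contra hcon
  have := h.integral_W hk ha hb
  rw [integral_undef hcon] at this
  norm_num at this

/-- **push-forward error at level `k`** -/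
theorem push_error (hk : 0 < k) (ha : 0 < a) (hb : 0 < b) (hV : Pot V) (h : Qg a b c) (hT : Qg a b (T k V c))
    (hA : 0 ≤ A) {g : E → E} (hg : Measurable g)
    (hsc : ∀ y z, phi k c (y + z) ≤ phi k c y + inner ℝ (g y) z + A / 2 * ‖z‖ ^ 2) {σ η : ℝ} (hσ : 0 < σ)
    (hAσ : Module.finrank ℝ E * (A / k) ≤ σ ^ 2) (hη : 0 < η) (hKL : KL k V c ≤ η ^ 2) {F : E → ℝ} {L M : ℝ}
    (hF : Continuous F) (hL0 : 0 ≤ L) (hL : ∀ x y, |F x - F y| ≤ L * ‖x - y‖) (hM : ∀ x, |F x| ≤ M) :
    |(∫ y, F (g y) * Real.exp (-phi k c y)) / Z k c - ∫ x, F x * Real.exp (-V x)| ≤ L * σ + 2 * M * η := by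
  have h1 := law_error hk ha hb h hA hg hsc hσ hAσ hF hL0 hL hM
  have hM0 : 0 ≤ M := (abs_nonneg _).trans (hM 0)
  -- integrability of `(W - V) e^{-V}`
  have hci := h.integrable ha hb hV
  have hTi := hT.integrable ha hb hV
  have hQi : Integrable fun x : E => Q k c x * Real.exp (-V x) := by
    have h2 := ((hTi.const_mul k).add (hV.int0.const_mul (V 0 + Q k c 0))).sub hV.intV
    refine h2.congr (Eventually.of_forall fun x => ?_)
    simp only [Pi.sub_apply, Pi.add_apply]
    unfold T
    field_simp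
    ring
  have hKi : Integrable fun x : E => (W k c x - V x) * Real.exp (-V x) := by
    have h2 := (((hci.const_mul k).sub hQi).add (hV.int0.const_mul (Real.log (Z k c)))).sub hV.intV
    refine h2.congr (Eventually.of_forall fun x => ?_)
    simp only [Pi.sub_apply, Pi.add_apply]
    unfold W
    ring
  have h2 := abs_sub_le_of_KL hη hV.int0 (h.integrable_exp_neg_W' hk ha hb) hV.one (h.integral_W hk ha hb) hKi hKL
    hF.aestronglyMeasurable hM0 hM
  calc |(∫ y, F (g y) * Real.exp (-phi k c y)) / Z k c - ∫ x, F x * Real.exp (-V x)|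
      = |((∫ y, F (g y) * Real.exp (-phi k c y)) / Z k c - ∫ x, F x * Real.exp (-W k c x))
        + ((∫ x, F x * Real.exp (-W k c x)) - ∫ x, F x * Real.exp (-V x))| := by ring_nf
    _ ≤ _ := abs_add_le _ _
    _ ≤ L * σ + 2 * M * η := add_le_add h1 h2

end Vale.Agent.P227.M.LK.Dsc
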