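import Vale.Agent.P227.M.LK.Defs

/-! # Derivatives along lines, scalings and sums for `Reg`, `Nice`, `SelfConc`. -/

open MeasureTheory
open scoped ContDiff

namespace Vale.Agent.P227.M.LK

variable {n : ℕ}

/-- line derivatives are diagonal values of the iterated derivative -/
theorem iteratedDeriv_line {W : E n → ℝ} (hW : ContDiff ℝ (⊤ : ℕ∞) W) (i : ℕ) (x v : E n) (s : ℝ) :
    iteratedDeriv i (fun t : ℝ => W (x + t • v)) s = iteratedFDeriv ℝ i W (x + s • v) (fun _ => v) := by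
  have h1 : (fun t : ℝ => W (x + t • v)) =
      (fun z => W (x + z)) ∘ (ContinuousLinearMap.toSpanSingleton ℝ v) := by
    funext t; simp [ContinuousLinearMap.toSpanSingleton_apply]
  have h2 : ContDiff ℝ (⊤ : ℕ∞) (fun z => W (x + z)) := hW.comp (contDiff_const.add contDiff_id)
  have hi : (i : WithTop ℕ∞) ≤ (⊤ : ℕ∞) := by exact_mod_cast le_top
  rw [iteratedDeriv_eq_iteratedFDeriv, h1,
    ContinuousLinearMap.iteratedFDeriv_comp_right _ h2 s hi,
    ContinuousMultilinearMap.compContinuousLinearMap_apply]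
  have h3 := iteratedFDeriv_comp_add_left (𝕜 := ℝ) (f := W) i x
    ((ContinuousLinearMap.toSpanSingleton ℝ v) s)
  rw [h3]
  simp [ContinuousLinearMap.toSpanSingleton_apply]

theorem iteratedDeriv_line_zero {W : E n → ℝ} (hW : ContDiff ℝ (⊤ : ℕ∞) W) (i : ℕ) (x v : E n) :
    iteratedDeriv i (fun t : ℝ => W (x + t • v)) 0 = iteratedFDeriv ℝ i W x (fun _ => v) := by
  rw [iteratedDeriv_line hW]; simp

theorem sum_ei (v : E n) : ∑ i, v i • (ei i : E n) = v := by
  ext j
  simp [ei, Pi.single_apply]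

/-- the quadratic form of the Hessian matrix is the second derivative -/
theorem qf_hess {W : E n → ℝ} (hW : ContDiff ℝ 2 W) (x v : E n) :
    qf (hess W x) v = fderiv ℝ (fderiv ℝ W) x v v := by
  have hd : Differentiable ℝ (fderiv ℝ W) :=
    (hW.fderiv_right (m := 1) (by norm_num)).differentiable (by norm_num)
  have h1 : ∀ i j : Fin n, hess W x i j = fderiv ℝ (fderiv ℝ W) x (ei i) (ei j) := by
    intro i j
    unfold hess pd
    rw [fderiv_clm_apply (hd x) (differentiableAt_const _)]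
    simp
  unfold qf
  conv_rhs => rw [← sum_ei v]
  simp only [map_sum, map_smul, sum_apply, smul_apply,
    smul_eq_mul, Finset.mul_sum]
  simp only [h1]
  rw [Finset.sum_comm]
  refine Finset.sum_congr rfl fun i _ => Finset.sum_congr rfl fun j _ => ?_
  ring

theorem iteratedDeriv_two_line {W : E n → ℝ} (hW : ContDiff ℝ (⊤ : ℕ∞) W) (x v : E n) :
    iteratedDeriv 2 (fun t : ℝ => W (x + t • v)) 0 = qf (hess W x) v := by
  rw [iteratedDeriv_line_zero hW, qf_hess (by exact_mod_cast contDiff_infty.1 hW 2), iteratedFDeriv_two_apply]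

theorem rpow_three_half {x : ℝ} (hx : 0 ≤ x) : x ^ ((3 : ℝ) / 2) = √x ^ 3 := by
  rw [Real.sqrt_eq_rpow, ← Real.rpow_natCast, ← Real.rpow_mul hx]
  norm_num

/-- `SelfConc` through the iterated derivatives -/
theorem selfConc_iff {W : E n → ℝ} (hW : ContDiff ℝ (⊤ : ℕ∞) W) (h0 : ∀ x v, 0 ≤ qf (hess W x) v) (κ : ℝ) :
    SelfConc κ W ↔ ∀ x v : E n, |iteratedFDeriv ℝ 3 W x (fun _ => v)| ≤ 2 * κ * √(qf (hess W x) v) ^ 3 := by
  unfold SelfConc
  refine forall_congr' fun x => forall_congr' fun v => ?_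
  rw [iteratedDeriv_line_zero hW, iteratedDeriv_two_line hW, rpow_three_half (h0 x v)]

/-! ### Scaling -/

theorem iteratedFDeriv_scale {W : E n → ℝ} (hW : ContDiff ℝ (⊤ : ℕ∞) W) (α β : ℝ) (i : ℕ) (y : E n)
    (m : Fin i → E n) :
    iteratedFDeriv ℝ i (fun y => α * W (β • y)) y m = α * β ^ i * iteratedFDeriv ℝ i W (β • y) m := by
  have hi : (i : WithTop ℕ∞) ≤ (⊤ : ℕ∞) := by exact_mod_cast le_top
  have h1 : (fun y : E n => α * W (β • y)) = α • (W ∘ (β • ContinuousLinearMap.id ℝ (E n))) := by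
    funext y; simp
  have h2 : ContDiff ℝ (⊤ : ℕ∞) (W ∘ (β • ContinuousLinearMap.id ℝ (E n))) :=
    hW.comp (ContinuousLinearMap.contDiff _)
  rw [h1, iteratedFDeriv_const_smul_apply (h2.of_le hi).contDiffAt,
    ContinuousLinearMap.iteratedFDeriv_comp_right _ hW y hi]
  simp only [smul_apply, ContinuousMultilinearMap.compContinuousLinearMap_apply,
    ContinuousLinearMap.id_apply, smul_eq_mul]
  rw [ContinuousMultilinearMap.map_smul_univ]
  simp [mul_assoc]

theorem contDiff_scale {W : E n → ℝ} (hW : ContDiff ℝ (⊤ : ℕ∞) W) (α β : ℝ) :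
    ContDiff ℝ (⊤ : ℕ∞) (fun y : E n => α * W (β • y)) := by
  exact contDiff_const.mul (hW.comp (contDiff_const_smul β))

theorem qf_scale {W : E n → ℝ} (hW : ContDiff ℝ (⊤ : ℕ∞) W) (α β : ℝ) (y v : E n) :
    qf (hess (fun y => α * W (β • y)) y) v = α * β ^ 2 * qf (hess W (β • y)) v := by
  rw [← iteratedDeriv_two_line (contDiff_scale hW α β), iteratedDeriv_line_zero (contDiff_scale hW α β),
    iteratedFDeriv_scale hW, ← iteratedDeriv_two_line hW, iteratedDeriv_line_zero hW]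

theorem Reg.scale {W : E n → ℝ} {c C : ℝ} (h : Reg W c C) {α β : ℝ} (hα : 0 < α) (hβ : β ≠ 0) :
    Reg (fun y => α * W (β • y)) (α * β ^ 2 * c) (α * β ^ 2 * C) where
  c_pos := by have := h.c_pos; positivity
  smooth := contDiff_scale h.smooth α β
  lower x v := by
    rw [qf_scale h.smooth, mul_assoc (α * β ^ 2)]
    exact mul_le_mul_of_nonneg_left (h.lower _ _) (by positivity)
  upper x v := by
    rw [qf_scale h.smooth, mul_assoc (α * β ^ 2)]
    exact mul_le_mul_of_nonneg_left (h.upper _ _) (by positivity)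
  bdd k hk := by
    obtain ⟨B, hB⟩ := h.bdd k hk
    refine ⟨|α * β ^ k| * |B|, fun x => ?_⟩
    refine ContinuousMultilinearMap.opNorm_le_bound (by positivity) fun m => ?_
    rw [iteratedFDeriv_scale h.smooth, norm_mul, Real.norm_eq_abs, mul_assoc]
    refine mul_le_mul_of_nonneg_left ?_ (abs_nonneg _)
    refine (ContinuousMultilinearMap.le_opNorm _ _).trans ?_
    exact mul_le_mul_of_nonneg_right ((hB _).trans (le_abs_self B)) (by positivity)

theorem qf_nonneg_of_reg {W : E n → ℝ} {c C : ℝ} (h : Reg W c C) (x v : E n) : 0 ≤ qf (hess W x) v :=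
  le_trans (by have := h.c_pos; positivity) (h.lower x v)

theorem SelfConc.scale {W : E n → ℝ} {c C κ : ℝ} (h : Reg W c C) (hs : SelfConc κ W)
    {α β : ℝ} (hα : 0 < α) (hβ : β ≠ 0) :
    SelfConc (κ / √α) (fun y => α * W (β • y)) := by
  have hR := Reg.scale h hα hβ
  rw [selfConc_iff hR.smooth (qf_nonneg_of_reg hR)]
  rw [selfConc_iff h.smooth (qf_nonneg_of_reg h)] at hs
  intro x v
  rw [iteratedFDeriv_scale h.smooth, qf_scale h.smooth, abs_mul]
  have h1 := hs (β • x) v
  have h2 : √(α * β ^ 2 * qf (hess W (β • x)) v) = √α * |β| * √(qf (hess W (β • x)) v) := by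
    rw [Real.sqrt_mul (by positivity), Real.sqrt_mul hα.le, Real.sqrt_sq_eq_abs]
  rw [h2]
  have h3 : 0 < √α := Real.sqrt_pos.2 hα
  have h4 : √α ^ 2 = α := Real.sq_sqrt hα.le
  have h5 : 2 * (κ / √α) * (√α * |β| * √(qf (hess W (β • x)) v)) ^ 3
      = |α * β ^ 3| * (2 * κ * √(qf (hess W (β • x)) v) ^ 3) := by
    rw [abs_mul, abs_of_pos hα, abs_pow]
    have h6 : √α ^ 3 / √α = α := by
      rw [pow_succ, h4]; field_simp
    calc _ = 2 * κ * (√α ^ 3 / √α) * |β| ^ 3 * √(qf (hess W (β • x)) v) ^ 3 := by ring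
      _ = _ := by rw [h6]; ring
  rw [h5]
  exact mul_le_mul_of_nonneg_left h1 (abs_nonneg _)

end Vale.Agent.P227.M.LK
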