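import Vale.Agent.P227.M.LK.Conv

/-! The log-Laplace transform on `EuclideanSpace ℝ (Fin n)`: Hessian bounds as convexity statements,
and the invariance of the class of the level `k` map. -/

open MeasureTheory Set Real
open scoped ENNReal RealInnerProductSpace

namespace Vale.Agent.P227.M.LKHB

/-- the Euclidean space -/
abbrev En (n : ℕ) : Type := EuclideanSpace ℝ (Fin n)

variable {n : ℕ}

/-- Prekopa on the Euclidean space. -/
theorem prekopaE {Y : Type*} [AddCommGroup Y] [Module ℝ Y] (F : En n → Y → ℝ)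
    (hF : ConvexOn ℝ univ (fun p : En n × Y => F p.1 p.2))
    (hi : ∀ y, Integrable (fun x => Real.exp (-F x y))) :
    ConvexOn ℝ univ (fun y => -Real.log (∫ x, Real.exp (-F x y))) := by
  have hmp := PiLp.volume_preserving_toLp (Fin n)
  have hemb : MeasurableEmbedding (WithLp.toLp 2 : (Fin n → ℝ) → En n) :=
    (MeasurableEquiv.toLp 2 (Fin n → ℝ)).measurableEmbedding
  have hconv : ConvexOn ℝ univ (fun p : (Fin n → ℝ) × Y => F (WithLp.toLp 2 p.1) p.2) := by
    have h := hF.comp_linearMap (LinearMap.prodMap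
      ((WithLp.linearEquiv 2 ℝ (Fin n → ℝ)).symm : (Fin n → ℝ) →ₗ[ℝ] En n)
      (LinearMap.id : Y →ₗ[ℝ] Y))
    exact h
  have h1 := prekopa_convex (fun x y => F (WithLp.toLp 2 x) y) hconv (fun y =>
    (hmp.integrable_comp_emb hemb).2 (hi y))
  refine h1.congr fun y _ => ?_
  have h2 := hmp.integral_comp hemb (fun x => Real.exp (-F x y))
  simp only [h2]

/-- `log ∫ exp (κ ⟪x, y⟫ - w x) dx` -/
noncomputable def lapE (κ : ℝ) (w : En n → ℝ) (y : En n) : ℝ :=
  Real.log (∫ x : En n, Real.exp (κ * ⟪x, y⟫ - w x))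

theorem lapE_apply (κ : ℝ) (w : En n → ℝ) (y : En n) :
    lapE κ w y = Real.log (∫ x : En n, Real.exp (κ * ⟪x, y⟫ - w x)) := rfl

/-- Gaussian integrability with a linear term. -/
theorem integrable_gaussE {a : ℝ} (ha : 0 < a) (v : En n) (d : ℝ) :
    Integrable (fun x : En n => Real.exp (⟪v, x⟫ - a * ‖x‖ ^ 2 + d)) := by
  have h := GaussianFourier.integrable_cexp_neg_mul_sq_norm_add (V := En n) (b := (a : ℂ))
    (by simpa using ha) 1 v
  have h2 := (h.norm).mul_const (Real.exp d)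
  refine h2.congr (ae_of_all _ fun x => ?_)
  change ‖Complex.exp (-(a : ℂ) * ‖x‖ ^ 2 + 1 * (⟪v, x⟫ : ℝ))‖ * Real.exp d = _
  rw [Complex.norm_exp, ← Real.exp_add]
  congr 1
  have h3 : (-(a : ℂ) * ‖x‖ ^ 2 + 1 * (⟪v, x⟫ : ℝ)) = ((-a * ‖x‖ ^ 2 + ⟪v, x⟫ : ℝ) : ℂ) := by
    push_cast; ring
  rw [h3, Complex.ofReal_re]
  ring

/-- An even convex function is smallest at `0`. -/
theorem evenE_min {E : Type*} [AddCommGroup E] [Module ℝ E] {u : E → ℝ}
    (hu : ConvexOn ℝ univ u) (he : ∀ x, u (-x) = u x) (x : E) : u 0 ≤ u x := by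
  have h := hu.2 (mem_univ x) (mem_univ (-x)) (by norm_num : (0 : ℝ) ≤ 1 / 2)
    (by norm_num : (0 : ℝ) ≤ 1 / 2) (by norm_num)
  rw [smul_neg, add_neg_cancel, he] at h
  simp only [smul_eq_mul] at h
  linarith

theorem lowerE {w : En n → ℝ} {a : ℝ}
    (hw : ConvexOn ℝ univ (fun x => w x - a / 2 * ‖x‖ ^ 2)) (he : ∀ x, w (-x) = w x)
    (x : En n) : w 0 + a / 2 * ‖x‖ ^ 2 ≤ w x := by
  have h := evenE_min hw (fun x => by rw [he, norm_neg]) x
  simp only [norm_zero] at h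
  linarith

theorem upperE {w : En n → ℝ} {b : ℝ}
    (hw : ConvexOn ℝ univ (fun x => b / 2 * ‖x‖ ^ 2 - w x)) (he : ∀ x, w (-x) = w x)
    (x : En n) : w x ≤ w 0 + b / 2 * ‖x‖ ^ 2 := by
  have h := evenE_min hw (fun x => by rw [he, norm_neg]) x
  simp only [norm_zero] at h
  linarith

theorem convex_sqE {c : ℝ} (hc : 0 ≤ c) : ConvexOn ℝ univ (fun x : En n => c * ‖x‖ ^ 2) := by
  have h1 : ConvexOn ℝ univ (fun x : En n => ‖x‖ ^ 2) :=
    convexOn_univ_norm.pow (fun x _ => norm_nonneg x) 2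
  exact h1.smul hc

theorem continuousE {w : En n → ℝ} {a : ℝ}
    (hw : ConvexOn ℝ univ (fun x => w x - a / 2 * ‖x‖ ^ 2)) : Continuous w := by
  have h1 : Continuous (fun x => w x - a / 2 * ‖x‖ ^ 2) :=
    continuousOn_univ.1 (hw.continuousOn isOpen_univ)
  have h2 : Continuous (fun x : En n => a / 2 * ‖x‖ ^ 2) := by fun_prop
  refine (h1.add h2).congr fun x => ?_
  change w x - a / 2 * ‖x‖ ^ 2 + a / 2 * ‖x‖ ^ 2 = w x
  ring

/-- Integrability of the exponential weight. -/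
theorem lapE_integrable {κ a : ℝ} (ha : 0 < a) {w : En n → ℝ}
    (hw : ConvexOn ℝ univ (fun x => w x - a / 2 * ‖x‖ ^ 2)) (he : ∀ x, w (-x) = w x)
    (y : En n) : Integrable (fun x : En n => Real.exp (κ * ⟪x, y⟫ - w x)) := by
  have hc : Continuous w := continuousE hw
  have h := integrable_gaussE (n := n) (half_pos ha) (κ • y) (-w 0)
  refine h.mono' ?_ (ae_of_all _ fun x => ?_)
  · exact (Real.continuous_exp.comp (by fun_prop)).aestronglyMeasurable
  · rw [Real.norm_eq_abs, abs_of_pos (Real.exp_pos _)]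
    apply Real.exp_le_exp.2
    have h1 := lowerE hw he x
    have h2 : ⟪κ • y, x⟫ = κ * ⟪x, y⟫ := by
      rw [real_inner_smul_left, real_inner_comm]
    rw [h2]
    linarith

/-- `w ≥ a` (Hessians) gives `lapE κ w ≤ κ² / a`. -/
theorem lapE_upper {κ a : ℝ} (ha : 0 < a) {w : En n → ℝ}
    (hw : ConvexOn ℝ univ (fun x => w x - a / 2 * ‖x‖ ^ 2)) (he : ∀ x, w (-x) = w x) :
    ConvexOn ℝ univ (fun y : En n => κ ^ 2 / a / 2 * ‖y‖ ^ 2 - lapE κ w y) := by
  set F : En n → En n → ℝ := fun x y =>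
    (w x - a / 2 * ‖x‖ ^ 2) + a / 2 * ‖x - (κ / a) • y‖ ^ 2 with hF
  have hid : ∀ x y, κ * ⟪x, y⟫ - w x = κ ^ 2 / a / 2 * ‖y‖ ^ 2 + -F x y := by
    intro x y
    have h1 : ‖x - (κ / a) • y‖ ^ 2 =
        ‖x‖ ^ 2 - 2 * (κ / a) * ⟪x, y⟫ + (κ / a) ^ 2 * ‖y‖ ^ 2 := by
      rw [norm_sub_sq_real, real_inner_smul_right, norm_smul, mul_pow, Real.norm_eq_abs, sq_abs]
      ring
    simp only [hF, h1]
    field_simp
    ring
  have hint : ∀ y, Integrable (fun x => Real.exp (-F x y)) := by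
    intro y
    have h1 := (lapE_integrable (κ := κ) ha hw he y).const_mul
      (Real.exp (-(κ ^ 2 / a / 2 * ‖y‖ ^ 2)))
    refine h1.congr (ae_of_all _ fun x => ?_)
    change Real.exp _ * Real.exp (κ * ⟪x, y⟫ - w x) = _
    rw [hid, ← Real.exp_add]
    congr 1
    ring
  have hconv : ConvexOn ℝ univ (fun p : En n × En n => F p.1 p.2) := by
    have h1 : ConvexOn ℝ univ (fun p : En n × En n => w p.1 - a / 2 * ‖p.1‖ ^ 2) := by
      have := hw.comp_linearMap (LinearMap.fst ℝ (En n) (En n))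
      exact this
    have h2 : ConvexOn ℝ univ (fun p : En n × En n => a / 2 * ‖p.1 - (κ / a) • p.2‖ ^ 2) := by
      have h3 := (convex_sqE (n := n) (half_pos ha).le).comp_linearMap
        (LinearMap.fst ℝ (En n) (En n) - (κ / a) • LinearMap.snd ℝ (En n) (En n))
      exact h3
    exact h1.add h2
  have hP := prekopaE F hconv hint
  refine hP.congr fun y _ => ?_
  have hpos : 0 < ∫ x, Real.exp (-F x y) := integral_exp_pos (hint y)
  rw [lapE_apply]
  simp only [hid, Real.exp_add]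
  rw [integral_const_mul, Real.log_mul (Real.exp_pos _).ne' hpos.ne', Real.log_exp]
  ring

/-- `w ≤ b` (Hessians) gives `lapE κ w ≥ κ² / b`. -/
theorem lapE_lower {κ a b : ℝ} (ha : 0 < a) (hb : 0 < b) {w : En n → ℝ}
    (hw : ConvexOn ℝ univ (fun x => w x - a / 2 * ‖x‖ ^ 2)) (he : ∀ x, w (-x) = w x)
    (hwb : ConvexOn ℝ univ (fun x => b / 2 * ‖x‖ ^ 2 - w x)) :
    ConvexOn ℝ univ (fun y : En n => lapE κ w y - κ ^ 2 / b / 2 * ‖y‖ ^ 2) := by
  set G : En n → En n → ℝ := fun z y =>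
    (b / 2 * ‖z + (κ / b) • y‖ ^ 2 - w (z + (κ / b) • y)) - b / 2 * ‖z‖ ^ 2 with hG
  have hid : ∀ z y, κ * ⟪z + (κ / b) • y, y⟫ - w (z + (κ / b) • y) =
      κ ^ 2 / b / 2 * ‖y‖ ^ 2 + G z y := by
    intro z y
    have h1 : ‖z + (κ / b) • y‖ ^ 2 =
        ‖z‖ ^ 2 + 2 * (κ / b) * ⟪z, y⟫ + (κ / b) ^ 2 * ‖y‖ ^ 2 := by
      rw [norm_add_sq_real, real_inner_smul_right, norm_smul, mul_pow, Real.norm_eq_abs, sq_abs]
      ring
    have h2 : ⟪z + (κ / b) • y, y⟫ = ⟪z, y⟫ + (κ / b) * ‖y‖ ^ 2 := by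
      rw [inner_add_left, real_inner_smul_left, real_inner_self_eq_norm_sq]
    simp only [hG, h1, h2]
    field_simp
    ring
  have hint : ∀ y, Integrable (fun z => Real.exp (G z y)) := by
    intro y
    have h1 := ((lapE_integrable (κ := κ) ha hw he y).comp_add_right ((κ / b) • y)).const_mul
      (Real.exp (-(κ ^ 2 / b / 2 * ‖y‖ ^ 2)))
    refine h1.congr (ae_of_all _ fun z => ?_)
    change Real.exp _ * Real.exp (κ * ⟪z + (κ / b) • y, y⟫ - w (z + (κ / b) • y)) = _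
    rw [hid, ← Real.exp_add]
    congr 1
    ring
  have hconv : ∀ z, ConvexOn ℝ univ (G z) := by
    intro z
    have h1 := hwb.translate_right z
    have h2 := (h1.comp_linearMap ((κ / b) • (LinearMap.id : En n →ₗ[ℝ] En n)))
    have h3 := h2.add_const (-(b / 2 * ‖z‖ ^ 2))
    refine (h3.subset (subset_univ _) convex_univ |>.congr ?_)
    intro y _
    simp only [hG, Function.comp, LinearMap.smul_apply, LinearMap.id_apply, Pi.add_apply]
    ring
  have hH := holder_convex (volume : Measure (En n)) G hconv hint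
  refine hH.congr fun y _ => ?_
  have hpos : 0 < ∫ z, Real.exp (G z y) := integral_exp_pos (hint y)
  rw [lapE_apply, ← integral_add_right_eq_self
    (fun x : En n => Real.exp (κ * ⟪x, y⟫ - w x)) ((κ / b) • y)]
  simp only [hid, Real.exp_add]
  rw [integral_const_mul, Real.log_mul (Real.exp_pos _).ne' hpos.ne', Real.log_exp]
  ring

theorem lapE_even {κ : ℝ} {w : En n → ℝ} (he : ∀ x, w (-x) = w x) (y : En n) :
    lapE κ w (-y) = lapE κ w y := by
  rw [lapE_apply, lapE_apply, ← integral_neg_eq_self]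
  congr 1
  refine integral_congr_ae (ae_of_all _ fun x => ?_)
  change Real.exp (κ * ⟪-x, -y⟫ - w (-x)) = Real.exp (κ * ⟪x, y⟫ - w x)
  rw [he, inner_neg_neg]

end Vale.Agent.P227.M.LKHB
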