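import Vale.Agent.P227.M.Stmts

/-! # P227/M, block LK: the invariant class of the level `k` map, including self-concordance.

`phiK k c y = (1/k) log ∫ exp (k⟨x,y⟩ - k c x) dx`, `QK k φ x = log ∫ exp (k⟨x,y⟩ - (k+1) φ y) dy`,
`TK V k c = (V + QK k (phiK k c)) / k`. -/

open MeasureTheory
open scoped Topology

namespace Vale.Agent.P227.M.LK.B136

variable {n : ℕ}

/-- second derivative along the line `x + t v` at `0` -/
noncomputable def l2 (U : E n → ℝ) (x v : E n) : ℝ :=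
  iteratedDeriv 2 (fun t : ℝ => U (x + t • v)) 0

/-- third derivative along the line `x + t v` at `0` -/
noncomputable def l3 (U : E n → ℝ) (x v : E n) : ℝ :=
  iteratedDeriv 3 (fun t : ℝ => U (x + t • v)) 0

theorem sum_ei (v : E n) : v = ∑ i, v i • ei i := by
  ext j
  simp [ei, Finset.sum_apply, Pi.single_apply]

theorem fd_eq (U : E n → ℝ) (z v : E n) : fderiv ℝ U z v = ∑ j, v j * pd j U z := by
  conv_lhs => rw [sum_ei v]
  simp [map_sum, pd]

theorem line_contDiff {U : E n → ℝ} {m : WithTop ℕ∞} (hU : ContDiff ℝ m U) (x v : E n) :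
    ContDiff ℝ m (fun t : ℝ => U (x + t • v)) :=
  hU.comp (contDiff_const.add (contDiff_id.smul contDiff_const))

theorem line_deriv {U : E n → ℝ} (hU : Differentiable ℝ U) (x v : E n) :
    deriv (fun t : ℝ => U (x + t • v)) = fun t => fderiv ℝ U (x + t • v) v := by
  funext t
  have h1 : HasDerivAt (fun t : ℝ => x + t • v) v t := by
    simpa using ((hasDerivAt_id t).smul_const v).const_add x
  exact ((hU (x + t • v)).hasFDerivAt.comp_hasDerivAt t h1).deriv

theorem l2_eq {U : E n → ℝ} (hU : ContDiff ℝ 2 U) (x v : E n) : l2 U x v = qf (hess U x) v := by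
  have hd : Differentiable ℝ U := hU.differentiable (by norm_num)
  have h1 : ContDiff ℝ 1 (fderiv ℝ U) := hU.fderiv_right (by norm_num)
  have hpd : ∀ j, Differentiable ℝ (pd j U) := fun j =>
    (h1.differentiable (by norm_num)).clm_apply (differentiable_const _)
  have e1 : (fun t : ℝ => fderiv ℝ U (x + t • v) v) =
      fun t : ℝ => (fun z => ∑ j, v j * pd j U z) (x + t • v) := by
    funext t
    exact fd_eq U _ v
  have hs : Differentiable ℝ (fun z => ∑ j, v j * pd j U z) :=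
    Differentiable.fun_sum fun j _ => (hpd j).const_mul _
  unfold l2
  rw [iteratedDeriv_succ, iteratedDeriv_one, line_deriv hd, e1, line_deriv hs]
  simp only [zero_smul, add_zero]
  rw [fd_eq]
  unfold qf hess
  refine Finset.sum_congr rfl fun i _ => ?_
  have h2 : pd i (fun z => ∑ j, v j * pd j U z) x = ∑ j, v j * pd i (pd j U) x := by
    have h4 : HasFDerivAt (fun z => ∑ j, v j * pd j U z)
        (∑ j, v j • fderiv ℝ (pd j U) x) x :=
      HasFDerivAt.fun_sum fun j _ => ((hpd j) x).hasFDerivAt.const_mul (v j)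
    have h5 : pd i (fun z => ∑ j, v j * pd j U z) x
        = fderiv ℝ (fun z => ∑ j, v j * pd j U z) x (ei i) := rfl
    rw [h5, h4.fderiv]
    simp [pd]
  rw [h2, Finset.mul_sum]
  refine Finset.sum_congr rfl fun j _ => ?_
  ring

/-- scaling -/
theorem line_scale (lam mu : ℝ) (U : E n → ℝ) (x v : E n) (i : ℕ) :
    iteratedDeriv i (fun t : ℝ => lam * U (mu • (x + t • v))) 0
      = lam * iteratedDeriv i (fun t : ℝ => U (mu • x + t • (mu • v))) 0 := by
  have e : (fun t : ℝ => lam * U (mu • (x + t • v)))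
      = fun t : ℝ => lam * (fun t : ℝ => U (mu • x + t • (mu • v))) t := by
    funext t
    simp only [smul_add, smul_comm mu t v]
  rw [e, iteratedDeriv_const_mul_field]

theorem l2_scale (lam mu : ℝ) (U : E n → ℝ) (x v : E n) :
    l2 (fun x => lam * U (mu • x)) x v = lam * l2 U (mu • x) (mu • v) := line_scale lam mu U x v 2

theorem l3_scale (lam mu : ℝ) (U : E n → ℝ) (x v : E n) :
    l3 (fun x => lam * U (mu • x)) x v = lam * l3 U (mu • x) (mu • v) := line_scale lam mu U x v 3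

theorem l2_add {U W : E n → ℝ} (hU : ContDiff ℝ 2 U) (hW : ContDiff ℝ 2 W) (x v : E n) :
    l2 (fun x => U x + W x) x v = l2 U x v + l2 W x v :=
  iteratedDeriv_fun_add (line_contDiff hU x v).contDiffAt (line_contDiff hW x v).contDiffAt

theorem l3_add {U W : E n → ℝ} (hU : ContDiff ℝ 3 U) (hW : ContDiff ℝ 3 W) (x v : E n) :
    l3 (fun x => U x + W x) x v = l3 U x v + l3 W x v :=
  iteratedDeriv_fun_add (line_contDiff hU x v).contDiffAt (line_contDiff hW x v).contDiffAt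

theorem smooth_two {U : E n → ℝ} (h : ContDiff ℝ (⊤ : ℕ∞) U) : ContDiff ℝ 2 U := by
  exact_mod_cast contDiff_infty.1 h 2

theorem smooth_three {U : E n → ℝ} (h : ContDiff ℝ (⊤ : ℕ∞) U) : ContDiff ℝ 3 U := by
  exact_mod_cast contDiff_infty.1 h 3

theorem Reg.l2_lower {U : E n → ℝ} {a b : ℝ} (h : Reg U a b) (x v : E n) :
    a * ‖v‖ ^ 2 ≤ l2 U x v := by
  rw [l2_eq (smooth_two h.smooth)]; exact h.lower x v

theorem Reg.l2_upper {U : E n → ℝ} {a b : ℝ} (h : Reg U a b) (x v : E n) :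
    l2 U x v ≤ b * ‖v‖ ^ 2 := by
  rw [l2_eq (smooth_two h.smooth)]; exact h.upper x v

theorem Reg.l2_nonneg {U : E n → ℝ} {a b : ℝ} (h : Reg U a b) (x v : E n) : 0 ≤ l2 U x v :=
  le_trans (mul_nonneg h.c_pos.le (by positivity)) (Reg.l2_lower h x v)

theorem smooth_scale {U : E n → ℝ} (hU : ContDiff ℝ (⊤ : ℕ∞) U) (lam mu : ℝ) :
    ContDiff ℝ (⊤ : ℕ∞) (fun x => lam * U (mu • x)) :=
  contDiff_const.mul (hU.comp (contDiff_id.const_smul mu))

theorem reg_scale {U : E n → ℝ} {a b : ℝ} (h : Reg U a b) {lam mu : ℝ} (hl : 0 < lam)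
    (hm : 0 < mu) : Reg (fun x => lam * U (mu • x)) (lam * mu ^ 2 * a) (lam * mu ^ 2 * b) where
  c_pos := mul_pos (mul_pos hl (by positivity)) h.c_pos
  smooth := smooth_scale h.smooth lam mu
  lower := fun x v => by
    rw [← l2_eq (smooth_two (smooth_scale h.smooth lam mu)), l2_scale]
    have h1 := Reg.l2_lower h (mu • x) (mu • v)
    rw [norm_smul, Real.norm_of_nonneg hm.le] at h1
    calc lam * mu ^ 2 * a * ‖v‖ ^ 2 = lam * (a * (mu * ‖v‖) ^ 2) := by ring
      _ ≤ _ := mul_le_mul_of_nonneg_left h1 hl.le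
  upper := fun x v => by
    rw [← l2_eq (smooth_two (smooth_scale h.smooth lam mu)), l2_scale]
    have h1 := Reg.l2_upper h (mu • x) (mu • v)
    rw [norm_smul, Real.norm_of_nonneg hm.le] at h1
    calc _ ≤ lam * (b * (mu * ‖v‖) ^ 2) := mul_le_mul_of_nonneg_left h1 hl.le
      _ = _ := by ring
  bdd := fun k hk => by
    obtain ⟨B, hB⟩ := h.bdd k hk
    refine ⟨lam * (B * ‖(mu • ContinuousLinearMap.id ℝ (E n))‖ ^ k), fun x => ?_⟩
    have hU : ContDiff ℝ k U := h.smooth.of_le (by exact_mod_cast le_top)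
    have e : (fun x => lam * U (mu • x)) =
        lam • (U ∘ (mu • ContinuousLinearMap.id ℝ (E n))) := by
      funext x
      simp
    have hc : ContDiff ℝ k (U ∘ (mu • ContinuousLinearMap.id ℝ (E n))) :=
      hU.comp (ContinuousLinearMap.contDiff _)
    rw [e, iteratedFDeriv_const_smul_apply hc.contDiffAt, norm_smul, Real.norm_of_nonneg hl.le]
    refine mul_le_mul_of_nonneg_left ?_ hl.le
    rw [ContinuousLinearMap.iteratedFDeriv_comp_right _ hU _ (le_refl _)]
    refine (ContinuousMultilinearMap.norm_compContinuousLinearMap_le _ _).trans ?_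
    rw [Finset.prod_const, Finset.card_univ, Fintype.card_fin]
    exact mul_le_mul_of_nonneg_right (hB _) (by positivity)

theorem reg_add {U W : E n → ℝ} {a b a' b' : ℝ} (h : Reg U a b) (h' : Reg W a' b') :
    Reg (fun x => U x + W x) (a + a') (b + b') where
  c_pos := add_pos h.c_pos h'.c_pos
  smooth := h.smooth.add h'.smooth
  lower := fun x v => by
    rw [← l2_eq (smooth_two (h.smooth.add h'.smooth)),
      l2_add (smooth_two h.smooth) (smooth_two h'.smooth)]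
    have h1 := Reg.l2_lower h x v
    have h2 := Reg.l2_lower h' x v
    nlinarith
  upper := fun x v => by
    rw [← l2_eq (smooth_two (h.smooth.add h'.smooth)),
      l2_add (smooth_two h.smooth) (smooth_two h'.smooth)]
    have h1 := Reg.l2_upper h x v
    have h2 := Reg.l2_upper h' x v
    nlinarith
  bdd := fun k hk => by
    obtain ⟨B, hB⟩ := h.bdd k hk
    obtain ⟨B', hB'⟩ := h'.bdd k hk
    refine ⟨B + B', fun x => ?_⟩
    have hU : ContDiff ℝ k U := h.smooth.of_le (by exact_mod_cast le_top)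
    have hW : ContDiff ℝ k W := h'.smooth.of_le (by exact_mod_cast le_top)
    have e : (fun x => U x + W x) = U + W := rfl
    rw [e, iteratedFDeriv_add_apply hU.contDiffAt hW.contDiffAt]
    exact (norm_add_le _ _).trans (add_le_add (hB x) (hB' x))

/-- self-concordance under scaling of the function and of the variable -/
theorem selfConc_scale {U : E n → ℝ} {a b κ : ℝ} (h : Reg U a b)
    (hs : SelfConc κ U) {lam : ℝ} (hl : 0 < lam) (mu : ℝ) :
    SelfConc (κ / Real.sqrt lam) (fun x => lam * U (mu • x)) := by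
  intro x v
  have e3 := l3_scale lam mu U x v
  have e2 := l2_scale lam mu U x v
  unfold l3 at e3
  unfold l2 at e2
  rw [e3, e2]
  have h1 := hs (mu • x) (mu • v)
  have h0 := Reg.l2_nonneg h (mu • x) (mu • v)
  unfold l2 at h0
  set A := iteratedDeriv 2 (fun t : ℝ => U (mu • x + t • (mu • v))) 0
  set B := iteratedDeriv 3 (fun t : ℝ => U (mu • x + t • (mu • v))) 0
  rw [abs_mul, abs_of_pos hl, Real.mul_rpow hl.le h0]
  have e4 : lam ^ ((3 : ℝ) / 2) = lam * Real.sqrt lam := by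
    rw [Real.sqrt_eq_rpow, ← Real.rpow_one_add' hl.le (by norm_num)]
    norm_num
  rw [e4]
  have hsq : 0 < Real.sqrt lam := Real.sqrt_pos.2 hl
  have e5 : 2 * (κ / Real.sqrt lam) * (lam * Real.sqrt lam * A ^ ((3 : ℝ) / 2))
      = lam * (2 * κ * A ^ ((3 : ℝ) / 2)) := by
    field_simp
  rw [e5]
  exact mul_le_mul_of_nonneg_left h1 hl.le

theorem selfConc_mono {U : E n → ℝ} {a b κ κ' : ℝ} (h : Reg U a b) (hs : SelfConc κ U)
    (hk : κ ≤ κ') : SelfConc κ' U := by
  intro x v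
  have h0 := Reg.l2_nonneg h x v
  unfold l2 at h0
  refine (hs x v).trans ?_
  have := Real.rpow_nonneg h0 ((3 : ℝ) / 2)
  nlinarith

/-- third derivative on lines is bounded -/
theorem l3_bdd {U : E n → ℝ} {a b : ℝ} (h : Reg U a b) :
    ∃ B : ℝ, 0 ≤ B ∧ ∀ x v : E n, |l3 U x v| ≤ B * ‖v‖ ^ 3 := by
  obtain ⟨B, hB⟩ := h.bdd 3 (by norm_num)
  refine ⟨max B 0, le_max_right _ _, fun x v => ?_⟩
  have hU : ContDiff ℝ 3 U := smooth_three h.smooth
  have hg : ContDiff ℝ 3 (fun z => U (x + z)) := hU.comp (contDiff_const.add contDiff_id)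
  have e : (fun t : ℝ => U (x + t • v)) =
      (fun z => U (x + z)) ∘ (ContinuousLinearMap.toSpanSingleton ℝ v) := by
    funext t
    simp [ContinuousLinearMap.toSpanSingleton_apply]
  unfold l3
  rw [← Real.norm_eq_abs, ← norm_iteratedFDeriv_eq_norm_iteratedDeriv, e]
  have h3 : ((3 : ℕ) : WithTop ℕ∞) ≤ 3 := by norm_num
  rw [ContinuousLinearMap.iteratedFDeriv_comp_right _ hg _ h3]
  refine (ContinuousMultilinearMap.norm_compContinuousLinearMap_le _ _).trans ?_
  rw [Finset.prod_const, Finset.card_univ, Fintype.card_fin,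
    ContinuousLinearMap.norm_toSpanSingleton]
  refine mul_le_mul_of_nonneg_right ?_ (by positivity)
  have e2 := iteratedFDeriv_comp_add_left (𝕜 := ℝ) (f := U) 3 x
    ((ContinuousLinearMap.toSpanSingleton ℝ v) 0)
  rw [e2]
  exact (hB _).trans (le_max_left _ _)

theorem selfConc_of_reg {U : E n → ℝ} {a b : ℝ} (h : Reg U a b) :
    ∃ κ : ℝ, 0 ≤ κ ∧ SelfConc κ U := by
  obtain ⟨B, hB0, hB⟩ := l3_bdd h
  have ha := h.c_pos
  refine ⟨B / (2 * a ^ ((3 : ℝ) / 2)), by positivity, fun x v => ?_⟩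
  have h1 := hB x v
  have h2 := Reg.l2_lower h x v
  unfold l3 at h1
  unfold l2 at h2
  set A := iteratedDeriv 2 (fun t : ℝ => U (x + t • v)) 0
  have hpos : 0 < a ^ ((3 : ℝ) / 2) := by positivity
  have h3 : a ^ ((3 : ℝ) / 2) * ‖v‖ ^ 3 ≤ A ^ ((3 : ℝ) / 2) := by
    have h4 : (a * ‖v‖ ^ 2) ^ ((3 : ℝ) / 2) ≤ A ^ ((3 : ℝ) / 2) :=
      Real.rpow_le_rpow (by positivity) h2 (by norm_num)
    have h5 : (a * ‖v‖ ^ 2) ^ ((3 : ℝ) / 2) = a ^ ((3 : ℝ) / 2) * ‖v‖ ^ 3 := by
      rw [Real.mul_rpow ha.le (by positivity)]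
      congr 1
      rw [← Real.rpow_natCast ‖v‖ 2, ← Real.rpow_mul (norm_nonneg v)]
      norm_num
    rwa [h5] at h4
  refine h1.trans ?_
  calc B * ‖v‖ ^ 3 = 2 * (B / (2 * a ^ ((3 : ℝ) / 2))) * (a ^ ((3 : ℝ) / 2) * ‖v‖ ^ 3) := by
        field_simp
    _ ≤ _ := mul_le_mul_of_nonneg_left h3 (by positivity)

theorem reg_mono {U : E n → ℝ} {a b a' b' : ℝ} (h : Reg U a b) (h0 : 0 < a') (ha : a' ≤ a)
    (hb : b ≤ b') : Reg U a' b' where
  c_pos := h0
  smooth := h.smooth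
  lower := fun x v => (mul_le_mul_of_nonneg_right ha (by positivity)).trans (h.lower x v)
  upper := fun x v => (h.upper x v).trans (mul_le_mul_of_nonneg_right hb (by positivity))
  bdd := h.bdd

theorem reg_mul {U : E n → ℝ} {a b : ℝ} (h : Reg U a b) {lam : ℝ} (hl : 0 < lam) :
    Reg (fun x => lam * U x) (lam * a) (lam * b) := by
  simpa using reg_scale h hl one_pos

theorem selfConc_mul {U : E n → ℝ} {a b κ : ℝ} (h : Reg U a b)
    (hs : SelfConc κ U) {lam : ℝ} (hl : 0 < lam) :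
    SelfConc (κ / Real.sqrt lam) (fun x => lam * U x) := by
  simpa using selfConc_scale h hs hl 1

theorem rpow_th {A : ℝ} (h : 0 ≤ A) : A ^ ((3 : ℝ) / 2) = Real.sqrt A ^ 3 := by
  rw [Real.sqrt_eq_rpow, ← Real.rpow_natCast, ← Real.rpow_mul h]
  norm_num

/-- real inequality behind the sum rule -/
theorem sum_ineq {M m a b s p q ν t r : ℝ} (hM : 0 ≤ M) (hm : 0 ≤ m) (hb : 0 ≤ b)
    (hs : 0 ≤ s) (hr : 0 < r) (hν : 0 ≤ ν) (hs2 : s ^ 2 = a ^ 2 + b ^ 2)
    (h1 : a ≤ q * ν) (h2 : r * p * ν ≤ b) (h3 : 2 * M * q ≤ 3 * m * p) (ht : t ≤ m / r) :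
    M * a ^ 3 + t * b ^ 3 ≤ m / r * s ^ 3 := by
  have hbs : b ≤ s := by
    refine le_of_sq_le_sq ?_ hs
    nlinarith [sq_nonneg a]
  have e1 : b ^ 3 + 3 / 2 * a ^ 2 * b ≤ s ^ 3 := by
    have e2 : s ^ 3 - (b ^ 3 + 3 / 2 * a ^ 2 * b) = (s - b) ^ 2 * (s + b / 2) := by
      have : a ^ 2 = s ^ 2 - b ^ 2 := by linarith
      rw [this]; ring
    have e3 : 0 ≤ (s - b) ^ 2 * (s + b / 2) := by positivity
    linarith
  have e4 : M * a ≤ 3 / 2 * (m / r) * b := by
    have i1 : M * a ≤ M * (q * ν) := mul_le_mul_of_nonneg_left h1 hM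
    have i2 : 2 * (M * (q * ν)) ≤ 3 * m * p * ν := by
      have := mul_le_mul_of_nonneg_right h3 hν
      linarith
    have i3 : m / r * (r * p * ν) ≤ m / r * b := mul_le_mul_of_nonneg_left h2 (by positivity)
    have i4 : m / r * (r * p * ν) = m * p * ν := by field_simp
    rw [i4] at i3
    linarith
  have e5 : M * a ^ 3 ≤ 3 / 2 * (m / r) * b * a ^ 2 := by
    have := mul_le_mul_of_nonneg_right e4 (sq_nonneg a)
    calc M * a ^ 3 = M * a * a ^ 2 := by ring
      _ ≤ _ := this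
  have e6 : t * b ^ 3 ≤ m / r * b ^ 3 := mul_le_mul_of_nonneg_right ht (by positivity)
  have e7 : m / r * (b ^ 3 + 3 / 2 * a ^ 2 * b) ≤ m / r * s ^ 3 :=
    mul_le_mul_of_nonneg_left e1 (by positivity)
  nlinarith

/-- sum rule (874 10615 (2)) -/
theorem selfConc_sum {V U : E n → ℝ} {c0 C0 M m k : ℝ} (hV : Reg V c0 C0) (hM : 0 ≤ M)
    (hVs : SelfConc M V) (hk : 0 < k) (hm : 0 ≤ m) (hmM : 2 * M * Real.sqrt C0 ≤ 3 * m * Real.sqrt c0)
    (hC0 : 0 ≤ C0) (hU : Reg U (k * c0) (k * C0)) (hUs : SelfConc (m / Real.sqrt (k + 1)) U) :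
    SelfConc (m / Real.sqrt k) (fun x => V x + U x) := by
  intro x v
  have e3 := l3_add (smooth_three hV.smooth) (smooth_three hU.smooth) x v
  have e2 := l2_add (smooth_two hV.smooth) (smooth_two hU.smooth) x v
  have i1 := hVs x v
  have i2 := hUs x v
  have hA0 := Reg.l2_nonneg hV x v
  have hB0 := Reg.l2_nonneg hU x v
  have hA1 := Reg.l2_upper hV x v
  have hB1 := Reg.l2_lower hU x v
  unfold l3 at e3
  unfold l2 at e2 hA0 hB0 hA1 hB1
  rw [e3, e2]
  set A := iteratedDeriv 2 (fun t : ℝ => V (x + t • v)) 0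
  set B := iteratedDeriv 2 (fun t : ℝ => U (x + t • v)) 0
  rw [rpow_th hA0] at i1
  rw [rpow_th hB0] at i2
  rw [rpow_th (add_nonneg hA0 hB0)]
  have hc0 := hV.c_pos
  have key := sum_ineq (M := M) (m := m) (a := Real.sqrt A) (b := Real.sqrt B)
    (s := Real.sqrt (A + B)) (p := Real.sqrt c0) (q := Real.sqrt C0) (ν := ‖v‖)
    (t := m / Real.sqrt (k + 1)) (r := Real.sqrt k) hM hm
    (Real.sqrt_nonneg _) (Real.sqrt_nonneg _) (Real.sqrt_pos.2 hk) (norm_nonneg _)
    (by rw [Real.sq_sqrt hA0, Real.sq_sqrt hB0, Real.sq_sqrt (add_nonneg hA0 hB0)])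
    (by
      refine Real.sqrt_le_iff.2 ⟨by positivity, ?_⟩
      rw [mul_pow, Real.sq_sqrt hC0]; exact hA1)
    (by
      refine Real.le_sqrt_of_sq_le ?_
      rw [mul_pow, mul_pow, Real.sq_sqrt hk.le, Real.sq_sqrt hc0.le]; exact hB1)
    hmM
    (div_le_div_of_nonneg_left hm (Real.sqrt_pos.2 hk) (Real.sqrt_le_sqrt (by linarith)))
  calc _ ≤ _ := abs_add_le _ _
    _ ≤ _ := add_le_add i1 i2
    _ = 2 * (M * Real.sqrt A ^ 3 + m / Real.sqrt (k + 1) * Real.sqrt B ^ 3) := by ring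
    _ ≤ 2 * (m / Real.sqrt k * Real.sqrt (A + B) ^ 3) := mul_le_mul_of_nonneg_left key (by norm_num)
    _ = _ := by ring

/-! ### the level `k` map -/

/-- the level-`k` potential -/
noncomputable def phiK (k : ℝ) (c : E n → ℝ) (y : E n) : ℝ :=
  (1 / k) * logLap (fun x => k * c x) (k • y)

/-- the second log-Laplace transform -/
noncomputable def QK (k : ℝ) (p : E n → ℝ) (x : E n) : ℝ :=
  logLap (fun y => (k + 1) * p y) (k • x)

/-- the level-`k` map -/
noncomputable def TK (V : E n → ℝ) (k : ℝ) (c : E n → ℝ) (x : E n) : ℝ :=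
  (V x + QK k (phiK k c) x) / k

theorem logLap_even {W : E n → ℝ} (h : ∀ x, W (-x) = W x) (y : E n) :
    logLap W (-y) = logLap W y := by
  unfold logLap
  congr 1
  rw [← integral_neg_eq_self]
  refine integral_congr_ae (Filter.Eventually.of_forall fun x => ?_)
  simp only [h, inner_neg_neg]

theorem phiK_even {k : ℝ} {c : E n → ℝ} (h : ∀ x, c (-x) = c x) (y : E n) :
    phiK k c (-y) = phiK k c y := by
  unfold phiK
  rw [smul_neg, logLap_even]
  intro x; rw [h]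

theorem QK_even {k : ℝ} {p : E n → ℝ} (h : ∀ x, p (-x) = p x) (x : E n) :
    QK k p (-x) = QK k p x := by
  unfold QK
  rw [smul_neg, logLap_even]
  intro x; rw [h]

/-- the invariant class -/
structure Cls (c0 C0 m k : ℝ) (c : E n → ℝ) : Prop where
  reg : Reg c (c0 * (k + 1) / k) (C0 * (k + 1) / k)
  even : ∀ x, c (-x) = c x
  sc : SelfConc (m / Real.sqrt k) (fun x => k * c x)

/-- block LL (`reg_logLap`) -/
def LogLapReg : Prop := ∀ (n : ℕ) (W : E n → ℝ) (c C : ℝ), 0 < C → Reg W c C →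
  Reg (logLap W) C⁻¹ c⁻¹

section step

variable {c0 C0 m k : ℝ} {c V : E n → ℝ}

theorem Cls.reg' (hk : 0 < k) (h : Cls c0 C0 m k c) :
    Reg (fun x => k * c x) (c0 * (k + 1)) (C0 * (k + 1)) := by
  have h1 := reg_mul h.reg hk
  have e1 : k * (c0 * (k + 1) / k) = c0 * (k + 1) := by field_simp
  have e2 : k * (C0 * (k + 1) / k) = C0 * (k + 1) := by field_simp
  rwa [e1, e2] at h1

theorem div_sqrt_le_one (hk : 0 < k) (hmk : m ^ 2 ≤ k) : m / Real.sqrt k ≤ 1 := by
  rw [div_le_one (Real.sqrt_pos.2 hk)]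
  exact Real.le_sqrt_of_sq_le hmk

theorem Cls.phi_reg (hR : LogLapReg) (hC0 : 0 < C0) (hk : 0 < k)
    (h : Cls c0 C0 m k c) : Reg (phiK k c) (k / ((k + 1) * C0)) (k / ((k + 1) * c0)) := by
  have h1 := hR n _ _ _ (by positivity) (h.reg' hk)
  have hc0 : 0 < c0 * (k + 1) := (h.reg' hk).c_pos
  have h2 := reg_scale h1 (lam := 1 / k) (mu := k) (by positivity) hk
  have hc0' : c0 ≠ 0 := by
    rintro rfl
    simp at hc0
  have e1 : 1 / k * k ^ 2 * (C0 * (k + 1))⁻¹ = k / ((k + 1) * C0) := by field_simp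
  have e2 : 1 / k * k ^ 2 * (c0 * (k + 1))⁻¹ = k / ((k + 1) * c0) := by field_simp
  rw [e1, e2] at h2
  exact h2

theorem Cls.phi_sc (hSC : StmtSC) (hR : LogLapReg) (hC0 : 0 < C0) (hk : 0 < k) (hm : 0 ≤ m)
    (hmk : m ^ 2 ≤ k) (h : Cls c0 C0 m k c) : SelfConc m (phiK k c) := by
  have h1 := hR n _ _ _ (by positivity) (h.reg' hk)
  have h2 := hSC n _ _ _ _ (h.reg' hk) (by positivity) (div_sqrt_le_one hk hmk) h.sc
  have h3 := selfConc_scale h1 h2 (lam := 1 / k) (by positivity) k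
  have e : m / Real.sqrt k / Real.sqrt (1 / k) = m := by
    rw [one_div, Real.sqrt_inv]
    have := Real.sqrt_pos.2 hk
    field_simp
  rw [e] at h3
  exact h3

theorem Cls.phi_even (h : Cls c0 C0 m k c) (y : E n) : phiK k c (-y) = phiK k c y :=
  phiK_even h.even y

theorem Cls.c0_pos (hk : 0 < k) (h : Cls c0 C0 m k c) : 0 < c0 := by
  have := (h.reg' hk).c_pos
  exact pos_of_mul_pos_left this (by linarith)

theorem Cls.q_reg (hR : LogLapReg) (hC0 : 0 < C0) (hk : 0 < k)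
    (h : Cls c0 C0 m k c) : Reg (QK k (phiK k c)) (k * c0) (k * C0) := by
  have hc0 := h.c0_pos hk
  have h1 := reg_mul (h.phi_reg hR hC0 hk) (lam := k + 1) (by linarith)
  have h2 := hR n _ _ _ (by positivity) h1
  have h3 := reg_scale h2 (lam := 1) (mu := k) one_pos hk
  have e1 : 1 * k ^ 2 * ((k + 1) * (k / ((k + 1) * C0)))⁻¹ = k * C0 := by field_simp
  have e2 : 1 * k ^ 2 * ((k + 1) * (k / ((k + 1) * c0)))⁻¹ = k * c0 := by field_simp
  rw [e1, e2] at h3
  have e3 : (fun x => 1 * logLap (fun y => (k + 1) * phiK k c y) (k • x)) = QK k (phiK k c) := by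
    funext x
    simp [QK]
  exact e3 ▸ h3

theorem Cls.q_sc (hSC : StmtSC) (hR : LogLapReg) (hC0 : 0 < C0) (hk : 0 < k) (hm : 0 ≤ m)
    (hmk : m ^ 2 ≤ k) (h : Cls c0 C0 m k c) :
    SelfConc (m / Real.sqrt (k + 1)) (QK k (phiK k c)) := by
  have hc0 := h.c0_pos hk
  have hk1 : 0 < k + 1 := by linarith
  have h1 := reg_mul (h.phi_reg hR hC0 hk) hk1
  have h2 := selfConc_mul (h.phi_reg hR hC0 hk) (h.phi_sc hSC hR hC0 hk hm hmk) hk1
  have h3 := hSC n _ _ _ _ h1 (by positivity) (div_sqrt_le_one hk1 (by linarith)) h2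
  have h4 := hR n _ _ _ (by positivity) h1
  have h5 := selfConc_scale h4 h3 (lam := 1) one_pos k
  have e3 : (fun x => 1 * logLap (fun y => (k + 1) * phiK k c y) (k • x)) = QK k (phiK k c) := by
    funext x
    simp [QK]
  rw [e3, Real.sqrt_one, div_one] at h5
  exact h5

/-- **invariance** -/
theorem Cls.step (hSC : StmtSC) (hR : LogLapReg) {M : ℝ} (hV : Nice V c0 C0) (hC0 : 0 < C0)
    (hM : 0 ≤ M) (hVs : SelfConc M V) (hk : 0 < k) (hm : 0 ≤ m) (hmk : m ^ 2 ≤ k)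
    (hmM : 2 * M * Real.sqrt C0 ≤ 3 * m * Real.sqrt c0) (h : Cls c0 C0 m k c) :
    Cls c0 C0 m k (TK V k c) := by
  have hc0 := hV.c_pos
  have h1 := h.q_reg hR hC0 hk
  have h2 := h.q_sc hSC hR hC0 hk hm hmk
  have h3 := selfConc_sum hV.toReg hM hVs hk hm hmM hC0.le h1 h2
  have h4 := reg_add hV.toReg h1
  have h5 := reg_mul h4 (lam := 1 / k) (by positivity)
  have e1 : 1 / k * (c0 + k * c0) = c0 * (k + 1) / k := by field_simp; ring
  have e2 : 1 / k * (C0 + k * C0) = C0 * (k + 1) / k := by field_simp; ring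
  rw [e1, e2] at h5
  have e3 : (fun x => 1 / k * (V x + QK k (phiK k c) x)) = TK V k c := by
    funext x
    unfold TK
    ring
  have e4 : (fun x => k * TK V k c x) = fun x => V x + QK k (phiK k c) x := by
    funext x
    unfold TK
    field_simp
  refine ⟨e3 ▸ h5, fun x => ?_, ?_⟩
  · unfold TK
    rw [hV.even, QK_even (phiK_even h.even)]
  · rw [e4]; exact h3

/-- the start -/
theorem Cls.start {M : ℝ} (hV : Nice V c0 C0) (hVs : SelfConc M V) (hk : 0 < k)
    (hm : 0 ≤ m) (hMm : M ≤ m) : Cls c0 C0 m k (fun x => (k + 1) / k * V x) := by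
  have hk1 : 0 < k + 1 := by linarith
  have h1 := reg_mul hV.toReg (lam := (k + 1) / k) (by positivity)
  have e1 : (k + 1) / k * c0 = c0 * (k + 1) / k := by ring
  have e2 : (k + 1) / k * C0 = C0 * (k + 1) / k := by ring
  rw [e1, e2] at h1
  refine ⟨h1, fun x => by rw [hV.even], ?_⟩
  have e3 : (fun x => k * ((k + 1) / k * V x)) = fun x => (k + 1) * V x := by
    funext x
    field_simp
  rw [e3]
  have h2 := selfConc_mul hV.toReg hVs hk1
  refine selfConc_mono (reg_mul hV.toReg hk1) h2 ?_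
  calc M / Real.sqrt (k + 1) ≤ m / Real.sqrt (k + 1) :=
        div_le_div_of_nonneg_right hMm (Real.sqrt_nonneg _)
    _ ≤ _ := div_le_div_of_nonneg_left hm (Real.sqrt_pos.2 hk) (Real.sqrt_le_sqrt (by linarith))

/-- the uniform third-derivative bound of the level-`k` potentials -/
theorem Cls.phi_l3 (hSC : StmtSC) (hR : LogLapReg) (hC0 : 0 < C0) (hk : 0 < k) (hm : 0 ≤ m)
    (hmk : m ^ 2 ≤ k) (h : Cls c0 C0 m k c) (x v : E n) :
    |l3 (phiK k c) x v| ≤ 2 * m * (Real.sqrt c0⁻¹) ^ 3 * ‖v‖ ^ 3 := by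
  have hc0 := h.c0_pos hk
  have h1 := h.phi_reg hR hC0 hk
  have h2 := h.phi_sc hSC hR hC0 hk hm hmk x v
  have h3 := Reg.l2_upper h1 x v
  have h4 := Reg.l2_nonneg h1 x v
  unfold l2 at h3 h4
  rw [rpow_th h4] at h2
  unfold l3
  refine h2.trans ?_
  have h5 : k / ((k + 1) * c0) ≤ c0⁻¹ := by
    rw [div_le_iff₀ (by positivity)]
    field_simp
    linarith
  have h6 : Real.sqrt (iteratedDeriv 2 (fun t : ℝ => phiK k c (x + t • v)) 0)
      ≤ Real.sqrt c0⁻¹ * ‖v‖ := by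
    refine Real.sqrt_le_iff.2 ⟨by positivity, ?_⟩
    rw [mul_pow, Real.sq_sqrt (by positivity)]
    exact h3.trans (mul_le_mul_of_nonneg_right h5 (by positivity))
  calc _ ≤ 2 * m * (Real.sqrt c0⁻¹ * ‖v‖) ^ 3 :=
        mul_le_mul_of_nonneg_left (pow_le_pow_left₀ (Real.sqrt_nonneg _) h6 3) (by positivity)
    _ = _ := by ring

end step

/-- **LK1**: the invariant class of the level-`k` map -/
theorem exists_cls (hSC : StmtSC) (hR : LogLapReg) {V : E n → ℝ} {c0 C0 : ℝ} (hV : Nice V c0 C0)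
    (hC0 : 0 < C0) : ∃ m : ℝ, 0 ≤ m ∧ ∀ k : ℝ, 0 < k → m ^ 2 ≤ k →
      Cls c0 C0 m k (fun x => (k + 1) / k * V x) ∧
      (∀ c : E n → ℝ, Cls c0 C0 m k c → Cls c0 C0 m k (TK V k c)) ∧
      ∀ c : E n → ℝ, Cls c0 C0 m k c →
        Reg (phiK k c) (k / ((k + 1) * C0)) (k / ((k + 1) * c0)) ∧
        (∀ y, phiK k c (-y) = phiK k c y) ∧ SelfConc m (phiK k c) ∧
        ∀ x v, |l3 (phiK k c) x v| ≤ 2 * m * (Real.sqrt c0⁻¹) ^ 3 * ‖v‖ ^ 3 := by
  obtain ⟨M, hM, hVs⟩ := selfConc_of_reg hV.toReg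
  have hc0 := hV.c_pos
  have hs0 : 0 < Real.sqrt c0 := Real.sqrt_pos.2 hc0
  refine ⟨M * (1 + Real.sqrt C0 / Real.sqrt c0), by positivity, fun k hk hmk => ?_⟩
  have hm : 0 ≤ M * (1 + Real.sqrt C0 / Real.sqrt c0) := by positivity
  have hMm : M ≤ M * (1 + Real.sqrt C0 / Real.sqrt c0) := by
    have : 0 ≤ M * (Real.sqrt C0 / Real.sqrt c0) := by positivity
    linarith
  have hmM : 2 * M * Real.sqrt C0 ≤ 3 * (M * (1 + Real.sqrt C0 / Real.sqrt c0)) * Real.sqrt c0 := by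
    have e : 3 * (M * (1 + Real.sqrt C0 / Real.sqrt c0)) * Real.sqrt c0
        = 3 * M * Real.sqrt c0 + 3 * (M * Real.sqrt C0) := by
      field_simp
    rw [e]
    have : 0 ≤ M * Real.sqrt C0 := by positivity
    have : 0 ≤ 3 * M * Real.sqrt c0 := by positivity
    linarith
  refine ⟨Cls.start hV hVs hk hm hMm, fun c h => Cls.step hSC hR hV hC0 hM hVs hk hm hmk hmM h,
    fun c h => ⟨h.phi_reg hR hC0 hk, h.phi_even, h.phi_sc hSC hR hC0 hk hm hmk,
      h.phi_l3 hSC hR hC0 hk hm hmk⟩⟩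

end Vale.Agent.P227.M.LK.B136
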