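import Mathlib

/-! # P227/M, block LK: the level-`k` descent

`phi k c y = (1/k) log ∫ exp (k ⟪x,y⟫ - k c x) dx`, `Q k p x = log ∫ exp (k ⟪x,y⟫ - (k+1) p y) dy`,
`T V k c = (V + Q k (phi k c)) / k`.  Along `c ↦ T V k c` the functional
`J V k c = ∫ c e^{-V} - log ∫ e^{-phi k c}` drops by at least `KL / k`. -/

open MeasureTheory Set Filter Topology

namespace Vale.Agent.P227.M.LK

variable {E : Type*} [NormedAddCommGroup E] [InnerProductSpace ℝ E] [FiniteDimensional ℝ E]
  [MeasurableSpace E] [BorelSpace E]

/-- the log-Laplace transform at level `k` -/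
noncomputable def phi (k : ℝ) (c : E → ℝ) (y : E) : ℝ :=
  (1 / k) * Real.log (∫ x : E, Real.exp (k * inner ℝ x y - k * c x))

/-- the second log-Laplace transform -/
noncomputable def Q (k : ℝ) (p : E → ℝ) (x : E) : ℝ :=
  Real.log (∫ y : E, Real.exp (k * inner ℝ x y - (k + 1) * p y))

/-- the map whose fixed points are the level-`k` moment potentials -/
noncomputable def T (V : E → ℝ) (k : ℝ) (c : E → ℝ) (x : E) : ℝ := (V x + Q k (phi k c) x) / k

/-- the total mass -/
noncomputable def Z (k : ℝ) (c : E → ℝ) : ℝ := ∫ y : E, Real.exp (-phi k c y)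

/-- the potential of the `x`-marginal -/
noncomputable def W (k : ℝ) (c : E → ℝ) (x : E) : ℝ := k * c x - Q k (phi k c) x + Real.log (Z k c)

/-- the relative entropy of `e^{-V}` with respect to the `x`-marginal -/
noncomputable def KL (V : E → ℝ) (k : ℝ) (c : E → ℝ) : ℝ := ∫ x : E, (W k c x - V x) * Real.exp (-V x)

/-- the functional -/
noncomputable def J (V : E → ℝ) (k : ℝ) (c : E → ℝ) : ℝ := (∫ x : E, c x * Real.exp (-V x)) - Real.log (Z k c)

theorem exp_phi {k : ℝ} (hk : 0 < k) {c : E → ℝ} {y : E} (h : Integrable fun x : E => Real.exp (k * inner ℝ x y - k * c x)) :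
    Real.exp (k * phi k c y) = ∫ x : E, Real.exp (k * inner ℝ x y - k * c x) := by
  have h1 : k * phi k c y = Real.log (∫ x : E, Real.exp (k * inner ℝ x y - k * c x)) := by
    unfold phi
    field_simp
  rw [h1, Real.exp_log]
  exact integral_exp_pos h

theorem exp_Q {k : ℝ} {p : E → ℝ} {x : E} (h : Integrable fun y : E => Real.exp (k * inner ℝ x y - (k + 1) * p y)) :
    Real.exp (Q k p x) = ∫ y : E, Real.exp (k * inner ℝ x y - (k + 1) * p y) := by
  unfold Q
  rw [Real.exp_log]
  exact integral_exp_pos h

theorem measurable_phi {k : ℝ} {c : E → ℝ} (hc : Measurable c) : Measurable (phi k c) := by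
  unfold phi
  refine (Real.measurable_log.comp ?_).const_mul _
  have h1 : StronglyMeasurable (fun p : E × E => Real.exp (k * inner ℝ p.2 p.1 - k * c p.2)) := by
    refine Measurable.stronglyMeasurable ?_
    have : Measurable fun p : E × E => (inner ℝ p.2 p.1 : ℝ) := (continuous_snd.inner continuous_fst).measurable
    exact Real.measurable_exp.comp ((this.const_mul k).sub ((hc.comp measurable_snd).const_mul k))
  exact (h1.integral_prod_right' (ν := volume)).measurable

theorem measurable_Q {k : ℝ} {p : E → ℝ} (hp : Measurable p) : Measurable (Q k p) := by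
  unfold Q
  refine Real.measurable_log.comp ?_
  have h1 : StronglyMeasurable (fun q : E × E => Real.exp (k * inner ℝ q.1 q.2 - (k + 1) * p q.2)) := by
    refine Measurable.stronglyMeasurable ?_
    have : Measurable fun q : E × E => (inner ℝ q.1 q.2 : ℝ) := (continuous_fst.inner continuous_snd).measurable
    exact Real.measurable_exp.comp ((this.const_mul k).sub ((hp.comp measurable_snd).const_mul (k + 1)))
  exact (h1.integral_prod_right' (ν := volume)).measurable

/-- Gaussian tails make exponentials integrable -/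
theorem integrable_exp_of_quad {a k : ℝ} (ha : 0 < a) (hk : 0 < k) {f : E → ℝ} (hf : Measurable f)
    (h : ∀ x, f 0 + a / 2 * ‖x‖ ^ 2 ≤ f x) (l : ℝ) (y : E) :
    Integrable fun x : E => Real.exp (l * inner ℝ x y - k * f x) := by
  have h1 := (GaussianFourier.integrable_cexp_neg_mul_sq_norm_add (V := E) (b := ((k * a / 2 : ℝ) : ℂ)) (by
    rw [Complex.ofReal_re]; positivity) (l : ℂ) y).norm
  have h2 : Integrable fun x : E => Real.exp (-(k * f 0)) * Real.exp (l * inner ℝ x y - k * a / 2 * ‖x‖ ^ 2) := by
    refine Integrable.const_mul ?_ _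
    refine h1.congr (Eventually.of_forall fun x => ?_)
    simp only [Complex.norm_exp]
    congr 1
    simp only [Complex.add_re, Complex.mul_re, Complex.neg_re, Complex.ofReal_re, Complex.neg_im, Complex.ofReal_im]
    rw [← Complex.ofReal_pow, Complex.ofReal_re, Complex.ofReal_im, real_inner_comm]
    ring
  refine h2.mono' ?_ (Eventually.of_forall fun x => ?_)
  · have : Measurable fun x : E => (inner ℝ x y : ℝ) := (continuous_id.inner continuous_const).measurable
    exact (Real.measurable_exp.comp ((this.const_mul l).sub (hf.const_mul k))).aestronglyMeasurable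
  · rw [Real.norm_eq_abs, abs_of_pos (Real.exp_pos _), ← Real.exp_add]
    refine Real.exp_le_exp.2 ?_
    have := mul_le_mul_of_nonneg_left (h x) hk.le
    nlinarith

/-- the quantitative class on which everything is integrable -/
structure Good (k a b a' : ℝ) (c : E → ℝ) : Prop where
  meas : Measurable c
  lo : ∀ x, c 0 + a / 2 * ‖x‖ ^ 2 ≤ c x
  hi : ∀ x, c x ≤ c 0 + b / 2 * ‖x‖ ^ 2
  plo : ∀ y, phi k c 0 + a' / 2 * ‖y‖ ^ 2 ≤ phi k c y

variable {V : E → ℝ} {k a b a' : ℝ} {c : E → ℝ}

theorem Good.int1 (hk : 0 < k) (ha : 0 < a) (h : Good k a b a' c) (y : E) :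
    Integrable fun x : E => Real.exp (k * inner ℝ x y - k * c x) :=
  integrable_exp_of_quad ha hk h.meas h.lo k y

theorem Good.int2 (hk : 0 < k) (ha' : 0 < a') (h : Good k a b a' c) (x : E) :
    Integrable fun y : E => Real.exp (k * inner ℝ x y - (k + 1) * phi k c y) := by
  have := integrable_exp_of_quad ha' (by linarith : 0 < k + 1) (measurable_phi h.meas) h.plo k x
  refine this.congr (Eventually.of_forall fun y => ?_)
  simp only [real_inner_comm]

theorem Good.int3 (ha' : 0 < a') (h : Good k a b a' c) : Integrable fun y : E => Real.exp (-phi k c y) := by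
  have := integrable_exp_of_quad ha' one_pos (measurable_phi h.meas) h.plo 0 0
  refine this.congr (Eventually.of_forall fun y => ?_)
  simp

theorem Good.Z_pos (ha' : 0 < a') (h : Good k a b a' c) : 0 < Z k c := integral_exp_pos (h.int3 ha')

/-- the joint density is integrable -/
theorem Good.int_joint (hk : 0 < k) (ha : 0 < a) (ha' : 0 < a') (h : Good k a b a' c) :
    Integrable (fun p : E × E => Real.exp (k * inner ℝ p.1 p.2 - k * c p.1 - (k + 1) * phi k c p.2))
      ((volume : Measure E).prod volume) := by
  have hm : Measurable fun p : E × E => Real.exp (k * inner ℝ p.1 p.2 - k * c p.1 - (k + 1) * phi k c p.2) := by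
    have : Measurable fun p : E × E => (inner ℝ p.1 p.2 : ℝ) := (continuous_fst.inner continuous_snd).measurable
    exact Real.measurable_exp.comp (((this.const_mul k).sub ((h.meas.comp measurable_fst).const_mul k)).sub
      (((measurable_phi h.meas).comp measurable_snd).const_mul (k + 1)))
  rw [integrable_prod_iff' hm.aestronglyMeasurable]
  refine ⟨Eventually.of_forall fun y => ?_, ?_⟩
  · have := (h.int1 hk ha y).mul_const (Real.exp (-((k + 1) * phi k c y)))
    refine this.congr (Eventually.of_forall fun x => ?_)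
    simp only
    rw [← Real.exp_add]
    congr 1
  · refine (h.int3 ha').congr (Eventually.of_forall fun y => ?_)
    simp only [Real.norm_eq_abs, abs_of_pos (Real.exp_pos _)]
    have h1 : (fun x : E => Real.exp (k * inner ℝ x y - k * c x - (k + 1) * phi k c y))
        = fun x : E => Real.exp (k * inner ℝ x y - k * c x) * Real.exp (-((k + 1) * phi k c y)) := by
      ext x
      rw [← Real.exp_add]
      congr 1
    rw [h1, integral_mul_const, ← exp_phi hk (h.int1 hk ha y), ← Real.exp_add]
    congr 1
    ring

/-- `∫_x` of the joint density -/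
theorem Good.marg_y (hk : 0 < k) (ha : 0 < a) (h : Good k a b a' c) (y : E) :
    ∫ x : E, Real.exp (k * inner ℝ x y - k * c x - (k + 1) * phi k c y) = Real.exp (-phi k c y) := by
  have h1 : (fun x : E => Real.exp (k * inner ℝ x y - k * c x - (k + 1) * phi k c y))
      = fun x : E => Real.exp (k * inner ℝ x y - k * c x) * Real.exp (-((k + 1) * phi k c y)) := by
    ext x
    rw [← Real.exp_add]
    congr 1
  rw [h1, integral_mul_const, ← exp_phi hk (h.int1 hk ha y), ← Real.exp_add]
  congr 1
  ring

/-- `∫_y` of the joint density -/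
theorem Good.marg_x (hk : 0 < k) (ha' : 0 < a') (h : Good k a b a' c) (x : E) :
    ∫ y : E, Real.exp (k * inner ℝ x y - k * c x - (k + 1) * phi k c y) = Real.exp (-(k * c x - Q k (phi k c) x)) := by
  have h1 : (fun y : E => Real.exp (k * inner ℝ x y - k * c x - (k + 1) * phi k c y))
      = fun y : E => Real.exp (k * inner ℝ x y - (k + 1) * phi k c y) * Real.exp (-(k * c x)) := by
    ext y
    rw [← Real.exp_add]
    congr 1
    ring
  rw [h1, integral_mul_const, ← exp_Q (h.int2 hk ha' x), ← Real.exp_add]
  congr 1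
  ring

theorem Good.int_W (hk : 0 < k) (ha : 0 < a) (ha' : 0 < a') (h : Good k a b a' c) :
    Integrable (fun x : E => Real.exp (-(k * c x - Q k (phi k c) x))) := by
  have h1 := (h.int_joint hk ha ha').integral_prod_left
  refine h1.congr (Eventually.of_forall fun x => ?_)
  exact h.marg_x hk ha' x

theorem Good.Z_eq (hk : 0 < k) (ha : 0 < a) (ha' : 0 < a') (h : Good k a b a' c) :
    ∫ x : E, Real.exp (-(k * c x - Q k (phi k c) x)) = Z k c := by
  have h1 := integral_integral_swap (f := fun (x y : E) => Real.exp (k * inner ℝ x y - k * c x - (k + 1) * phi k c y))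
    (h.int_joint hk ha ha')
  simp only [h.marg_x hk ha'] at h1
  rw [h1]
  unfold Z
  congr 1
  ext y
  exact h.marg_y hk ha y

theorem Good.integral_W (hk : 0 < k) (ha : 0 < a) (ha' : 0 < a') (h : Good k a b a' c) :
    ∫ x : E, Real.exp (-W k c x) = 1 := by
  have hZ := h.Z_pos ha'
  have h1 : (fun x : E => Real.exp (-W k c x)) = fun x => Real.exp (-(k * c x - Q k (phi k c) x)) * (Z k c)⁻¹ := by
    ext x
    unfold W
    rw [neg_add, Real.exp_add, Real.exp_neg (Real.log _), Real.exp_log hZ]
  rw [h1, integral_mul_const, h.Z_eq hk ha ha']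
  field_simp

theorem Good.integrable_exp_neg_W (hk : 0 < k) (ha : 0 < a) (ha' : 0 < a') (h : Good k a b a' c) :
    Integrable fun x : E => Real.exp (-W k c x) := by
  by_contra hcon
  have := h.integral_W hk ha ha'
  rw [integral_undef hcon] at this
  norm_num at this

/-- the key descent inequality for the mass -/
theorem Good.mass_le (hk : 0 < k) (ha : 0 < a) (ha' : 0 < a') (h : Good k a b a' c) (hT : Good k a b a' (T V k c))
    (hVi : Integrable fun x : E => Real.exp (-V x)) (hV1 : ∫ x : E, Real.exp (-V x) = 1) :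
    (1 + 1 / k) * Real.log (Z k c) ≤ Real.log (Z k (T V k c)) := by
  have hZ := h.Z_pos ha'
  have hZ' := hT.Z_pos ha'
  -- the function `t`
  have hkT : ∀ x, k * T V k c x = V x + Q k (phi k c) x := fun x => by
    unfold T
    field_simp
  have hMV : Measurable V := by
    have h1 : V = fun x => k * T V k c x - Q k (phi k c) x := by
      ext x
      rw [hkT]
      ring
    rw [h1]
    exact (hT.meas.const_mul k).sub (measurable_Q (measurable_phi h.meas))
  have hFm : Measurable fun p : E × E => Real.exp (k * inner ℝ p.1 p.2 - k * T V k c p.1 - (k + 1) * phi k c p.2) := by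
    have : Measurable fun p : E × E => (inner ℝ p.1 p.2 : ℝ) := (continuous_fst.inner continuous_snd).measurable
    exact Real.measurable_exp.comp (((this.const_mul k).sub ((hT.meas.comp measurable_fst).const_mul k)).sub
      (((measurable_phi h.meas).comp measurable_snd).const_mul (k + 1)))
  have hinner : ∀ x : E, ∫ y : E, Real.exp (k * inner ℝ x y - k * T V k c x - (k + 1) * phi k c y) = Real.exp (-V x) := by
    intro x
    have h1 : (fun y : E => Real.exp (k * inner ℝ x y - k * T V k c x - (k + 1) * phi k c y))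
        = fun y : E => Real.exp (k * inner ℝ x y - (k + 1) * phi k c y) * Real.exp (-(k * T V k c x)) := by
      ext y
      rw [← Real.exp_add]
      congr 1
      ring
    rw [h1, integral_mul_const, ← exp_Q (h.int2 hk ha' x), ← Real.exp_add, hkT]
    congr 1
    ring
  have hFi : Integrable (fun p : E × E => Real.exp (k * inner ℝ p.1 p.2 - k * T V k c p.1 - (k + 1) * phi k c p.2))
      ((volume : Measure E).prod volume) := by
    rw [integrable_prod_iff hFm.aestronglyMeasurable]
    refine ⟨Eventually.of_forall fun x => ?_, ?_⟩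
    · have := (h.int2 hk ha' x).mul_const (Real.exp (-(k * T V k c x)))
      refine this.congr (Eventually.of_forall fun y => ?_)
      simp only
      rw [← Real.exp_add]
      congr 1
      ring
    · refine hVi.congr (Eventually.of_forall fun x => ?_)
      simp only [Real.norm_eq_abs, abs_of_pos (Real.exp_pos _)]
      exact (hinner x).symm
  have hswap := integral_integral_swap
    (f := fun (x y : E) => Real.exp (k * inner ℝ x y - k * T V k c x - (k + 1) * phi k c y)) hFi
  simp only [hinner] at hswap
  rw [hV1] at hswap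
  have hy : ∀ y : E, ∫ x : E, Real.exp (k * inner ℝ x y - k * T V k c x - (k + 1) * phi k c y)
      = Real.exp (-phi k c y) * Real.exp (k * (phi k (T V k c) y - phi k c y)) := by
    intro y
    have h1 : (fun x : E => Real.exp (k * inner ℝ x y - k * T V k c x - (k + 1) * phi k c y))
        = fun x : E => Real.exp (k * inner ℝ x y - k * T V k c x) * Real.exp (-((k + 1) * phi k c y)) := by
      ext x
      rw [← Real.exp_add]
      congr 1
    rw [h1, integral_mul_const, ← exp_phi hk (hT.int1 hk ha y), ← Real.exp_add, ← Real.exp_add]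
    congr 1
    ring
  have hti : Integrable fun y : E => Real.exp (-phi k c y) * Real.exp (k * (phi k (T V k c) y - phi k c y)) := by
    refine hFi.integral_prod_right.congr (Eventually.of_forall fun y => ?_)
    exact hy y
  have ht1 : ∫ y : E, Real.exp (-phi k c y) * Real.exp (k * (phi k (T V k c) y - phi k c y)) = 1 := by
    rw [hswap]
    congr 1
    ext y
    exact (hy y).symm
  -- pointwise inequality
  have hpt : ∀ y : E, Real.exp ((1 / k) * Real.log (Z k c)) * ((1 + 1 / k) * Real.exp (-phi k c y)
      - (Z k c / k) * (Real.exp (-phi k c y) * Real.exp (k * (phi k (T V k c) y - phi k c y))))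
      ≤ Real.exp (-phi k (T V k c) y) := by
    intro y
    set t := Real.exp (k * (phi k (T V k c) y - phi k c y)) with ht
    have htp : 0 < t := Real.exp_pos _
    have h1 : Real.exp (-phi k (T V k c) y) = Real.exp ((1 / k) * Real.log (Z k c)) * (Real.exp (-phi k c y)
        * Real.exp (-(1 / k) * Real.log (t * Z k c))) := by
      rw [Real.log_mul htp.ne' hZ.ne', ht, Real.log_exp, ← Real.exp_add, ← Real.exp_add]
      congr 1
      field_simp
      ring
    rw [h1]
    refine mul_le_mul_of_nonneg_left ?_ (Real.exp_pos _).le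
    have h2 : 1 - (1 / k) * (t * Z k c - 1) ≤ Real.exp (-(1 / k) * Real.log (t * Z k c)) := by
      have h3 := Real.add_one_le_exp (-(1 / k) * Real.log (t * Z k c))
      have h4 := Real.log_le_sub_one_of_pos (mul_pos htp hZ)
      have h5 := mul_le_mul_of_nonneg_left h4 (by positivity : 0 ≤ 1 / k)
      linarith
    calc (1 + 1 / k) * Real.exp (-phi k c y) - Z k c / k * (Real.exp (-phi k c y) * t)
        = Real.exp (-phi k c y) * (1 - (1 / k) * (t * Z k c - 1)) := by ring
      _ ≤ _ := mul_le_mul_of_nonneg_left h2 (Real.exp_pos _).le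
  have hint := integral_mono ((((h.int3 ha').const_mul (1 + 1 / k)).sub (hti.const_mul (Z k c / k))).const_mul
    (Real.exp ((1 / k) * Real.log (Z k c)))) (hT.int3 ha') hpt
  have hlhs : ∫ y : E, Real.exp ((1 / k) * Real.log (Z k c)) * ((1 + 1 / k) * Real.exp (-phi k c y)
      - (Z k c / k) * (Real.exp (-phi k c y) * Real.exp (k * (phi k (T V k c) y - phi k c y))))
      = Real.exp ((1 / k) * Real.log (Z k c)) * Z k c := by
    rw [integral_const_mul, integral_sub ((h.int3 ha').const_mul _) (hti.const_mul _), integral_const_mul,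
      integral_const_mul, ht1]
    unfold Z
    ring
  have hfin : Real.exp ((1 / k) * Real.log (Z k c)) * Z k c ≤ Z k (T V k c) := by
    rw [← hlhs]
    exact hint
  have := Real.log_le_log (by positivity) hfin
  rw [Real.log_mul (Real.exp_pos _).ne' hZ.ne', Real.log_exp] at this
  linarith

/-- **descent** -/
theorem Good.descent (hk : 0 < k) (ha : 0 < a) (ha' : 0 < a') (h : Good k a b a' c) (hT : Good k a b a' (T V k c))
    (hVi : Integrable fun x : E => Real.exp (-V x)) (hV1 : ∫ x : E, Real.exp (-V x) = 1)
    (hVV : Integrable fun x : E => V x * Real.exp (-V x))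
    (hV2 : Integrable fun x : E => ‖x‖ ^ 2 * Real.exp (-V x)) :
    J V k (T V k c) ≤ J V k c - KL V k c / k := by
  have hkT : ∀ x, k * T V k c x = V x + Q k (phi k c) x := fun x => by
    unfold T
    field_simp
  have hMV : Measurable V := by
    have h1 : V = fun x => k * T V k c x - Q k (phi k c) x := by
      ext x
      rw [hkT]
      ring
    rw [h1]
    exact (hT.meas.const_mul k).sub (measurable_Q (measurable_phi h.meas))
  have key : ∀ f : E → ℝ, (∀ x, f 0 + a / 2 * ‖x‖ ^ 2 ≤ f x) → (∀ x, f x ≤ f 0 + b / 2 * ‖x‖ ^ 2) → Measurable f →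
      Integrable fun x : E => f x * Real.exp (-V x) := by
    intro f h1 h2 hf
    have h3 : Integrable fun x : E => |f 0| * Real.exp (-V x) + (|b| / 2) * (‖x‖ ^ 2 * Real.exp (-V x)) :=
      (hVi.const_mul _).add (hV2.const_mul _)
    refine h3.mono' (hf.mul (Real.measurable_exp.comp hMV.neg)).aestronglyMeasurable (Eventually.of_forall fun x => ?_)
    rw [Real.norm_eq_abs, abs_mul, abs_of_pos (Real.exp_pos _)]
    have h4 : |f x| ≤ |f 0| + |b| / 2 * ‖x‖ ^ 2 := by
      have h5 := h1 x
      have h6 := h2 x
      have h7 : 0 ≤ a / 2 * ‖x‖ ^ 2 := by positivity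
      have h8 : b / 2 * ‖x‖ ^ 2 ≤ |b| / 2 * ‖x‖ ^ 2 := by
        have := le_abs_self b
        gcongr
      have h9 := neg_abs_le (f 0)
      have h10 := le_abs_self (f 0)
      rw [abs_le]
      constructor <;> [skip; linarith]
      have h11 : 0 ≤ |b| / 2 * ‖x‖ ^ 2 := by positivity
      linarith
    calc |f x| * Real.exp (-V x) ≤ (|f 0| + |b| / 2 * ‖x‖ ^ 2) * Real.exp (-V x) :=
          mul_le_mul_of_nonneg_right h4 (Real.exp_pos _).le
      _ = _ := by ring
  have hci := key c h.lo h.hi h.meas
  have hTi := key (T V k c) hT.lo hT.hi hT.meas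
  have hQi : Integrable fun x : E => Q k (phi k c) x * Real.exp (-V x) := by
    refine ((hTi.const_mul k).sub hVV).congr (Eventually.of_forall fun x => ?_)
    simp only [Pi.sub_apply]
    rw [← mul_assoc, hkT]
    ring
  have e1 : ∫ x : E, T V k c x * Real.exp (-V x)
      = (1 / k) * ((∫ x : E, V x * Real.exp (-V x)) + ∫ x : E, Q k (phi k c) x * Real.exp (-V x)) := by
    rw [← integral_add hVV hQi, ← integral_const_mul]
    congr 1
    ext x
    unfold T
    field_simp
  have e2 : KL V k c = k * (∫ x : E, c x * Real.exp (-V x)) - (∫ x : E, Q k (phi k c) x * Real.exp (-V x))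
      + Real.log (Z k c) - ∫ x : E, V x * Real.exp (-V x) := by
    unfold KL
    have h1 : (fun x : E => (W k c x - V x) * Real.exp (-V x)) = fun x => ((k * (c x * Real.exp (-V x))
        - Q k (phi k c) x * Real.exp (-V x)) + Real.log (Z k c) * Real.exp (-V x)) - V x * Real.exp (-V x) := by
      ext x
      unfold W
      ring
    have i1 : Integrable fun x : E => k * (c x * Real.exp (-V x)) := hci.const_mul k
    have i2 : Integrable fun x : E => k * (c x * Real.exp (-V x)) - Q k (phi k c) x * Real.exp (-V x) := i1.sub hQi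
    have i3 : Integrable fun x : E => Real.log (Z k c) * Real.exp (-V x) := hVi.const_mul _
    have i4 : Integrable fun x : E => k * (c x * Real.exp (-V x)) - Q k (phi k c) x * Real.exp (-V x)
      + Real.log (Z k c) * Real.exp (-V x) := i2.add i3
    rw [h1, integral_sub i4 hVV, integral_add i2 i3, integral_sub i1 hQi,
      integral_const_mul, integral_const_mul, hV1, mul_one]
  have h3 := h.mass_le hk ha ha' hT hVi hV1
  unfold J
  rw [e1, e2]
  have e3 : (k * (∫ x : E, c x * Real.exp (-V x)) - (∫ x : E, Q k (phi k c) x * Real.exp (-V x))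
      + Real.log (Z k c) - ∫ x : E, V x * Real.exp (-V x)) / k = (∫ x : E, c x * Real.exp (-V x))
      - (1 / k) * (∫ x : E, Q k (phi k c) x * Real.exp (-V x)) + (1 / k) * Real.log (Z k c)
      - (1 / k) * ∫ x : E, V x * Real.exp (-V x) := by
    field_simp
  rw [e3]
  nlinarith [h3]

/-- lower bound of the functional -/
theorem Good.J_ge (hk : 0 < k) (ha : 0 < a) (hb : 0 < b) (ha' : 0 < a') (h : Good k a b a' c)
    (hVi : Integrable fun x : E => Real.exp (-V x)) (hV1 : ∫ x : E, Real.exp (-V x) = 1)
    (hci : Integrable fun x : E => c x * Real.exp (-V x)) :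
    (1 / k) * Real.log (∫ x : E, Real.exp (-(k * (b / 2 * ‖x‖ ^ 2)))) - Real.log (∫ y : E, Real.exp (-(a' / 2 * ‖y‖ ^ 2)))
      ≤ J V k c := by
  have hgb : Integrable fun x : E => Real.exp (-(k * (b / 2 * ‖x‖ ^ 2))) := by
    have := integrable_exp_of_quad (f := fun x : E => b / 2 * ‖x‖ ^ 2) (a := b) hb hk (by fun_prop)
      (fun x => by simp) 0 0
    refine this.congr (Eventually.of_forall fun x => ?_)
    simp
  have hga : Integrable fun y : E => Real.exp (-(a' / 2 * ‖y‖ ^ 2)) := by
    have := integrable_exp_of_quad (f := fun x : E => a' / 2 * ‖x‖ ^ 2) (a := a') ha' one_pos (by fun_prop)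
      (fun x => by simp) 0 0
    refine this.congr (Eventually.of_forall fun x => ?_)
    simp
  have h1 : c 0 ≤ ∫ x : E, c x * Real.exp (-V x) := by
    have h2 : ∫ x : E, c 0 * Real.exp (-V x) = c 0 := by rw [integral_const_mul, hV1, mul_one]
    rw [← h2]
    refine integral_mono (hVi.const_mul _) hci fun x => ?_
    refine mul_le_mul_of_nonneg_right ?_ (Real.exp_pos _).le
    have := h.lo x
    have : 0 ≤ a / 2 * ‖x‖ ^ 2 := by positivity
    linarith [h.lo x]
  have h2 : (1 / k) * Real.log (∫ x : E, Real.exp (-(k * (b / 2 * ‖x‖ ^ 2)))) - c 0 ≤ phi k c 0 := by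
    have h3 : Real.exp (-(k * c 0)) * ∫ x : E, Real.exp (-(k * (b / 2 * ‖x‖ ^ 2)))
        ≤ ∫ x : E, Real.exp (k * inner ℝ x (0 : E) - k * c x) := by
      rw [← integral_const_mul]
      refine integral_mono (hgb.const_mul _) (h.int1 hk ha 0) fun x => ?_
      simp only
      rw [← Real.exp_add, inner_zero_right, mul_zero, zero_sub]
      refine Real.exp_le_exp.2 ?_
      have := mul_le_mul_of_nonneg_left (h.hi x) hk.le
      linarith
    have h4 := Real.log_le_log (mul_pos (Real.exp_pos _) (integral_exp_pos hgb)) h3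
    rw [Real.log_mul (Real.exp_pos _).ne' (integral_exp_pos hgb).ne', Real.log_exp] at h4
    unfold phi
    have h5 := mul_le_mul_of_nonneg_left h4 (by positivity : 0 ≤ 1 / k)
    have h6 : (1 / k) * (-(k * c 0) + Real.log (∫ x : E, Real.exp (-(k * (b / 2 * ‖x‖ ^ 2)))))
        = (1 / k) * Real.log (∫ x : E, Real.exp (-(k * (b / 2 * ‖x‖ ^ 2)))) - c 0 := by
      field_simp
      ring
    linarith
  have h7 : Real.log (Z k c) ≤ -phi k c 0 + Real.log (∫ y : E, Real.exp (-(a' / 2 * ‖y‖ ^ 2))) := by
    have h8 : Z k c ≤ Real.exp (-phi k c 0) * ∫ y : E, Real.exp (-(a' / 2 * ‖y‖ ^ 2)) := by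
      unfold Z
      rw [← integral_const_mul]
      refine integral_mono (h.int3 ha') (hga.const_mul _) fun y => ?_
      simp only
      rw [← Real.exp_add]
      refine Real.exp_le_exp.2 ?_
      linarith [h.plo y]
    have h9 := Real.log_le_log (h.Z_pos ha') h8
    rwa [Real.log_mul (Real.exp_pos _).ne' (integral_exp_pos hga).ne', Real.log_exp] at h9
  unfold J
  linarith

/-- **small relative entropy along the iteration**, for any invariant class `P` -/
theorem exists_KL_le (hk : 0 < k) (ha : 0 < a) (hb : 0 < b) (ha' : 0 < a') (P : (E → ℝ) → Prop) (c₀ : E → ℝ) (h0 : P c₀)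
    (hPT : ∀ c, P c → P (T V k c)) (hPG : ∀ c, P c → Good k a b a' c)
    (hVi : Integrable fun x : E => Real.exp (-V x)) (hV1 : ∫ x : E, Real.exp (-V x) = 1)
    (hVV : Integrable fun x : E => V x * Real.exp (-V x))
    (hV2 : Integrable fun x : E => ‖x‖ ^ 2 * Real.exp (-V x)) {ε : ℝ} (hε : 0 < ε) :
    ∃ c, P c ∧ KL V k c ≤ ε := by
  by_contra hcon
  simp only [not_exists, not_and, not_le] at hcon
  have hMV : Measurable V := by
    have hT0 := hPG _ (hPT _ h0)
    have h1 : V = fun x => k * T V k c₀ x - Q k (phi k c₀) x := by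
      ext x
      unfold T
      field_simp
      ring
    rw [h1]
    exact (hT0.meas.const_mul k).sub (measurable_Q (measurable_phi (hPG _ h0).meas))
  have hPi : ∀ i : ℕ, P ((T V k)^[i] c₀) := by
    intro i
    induction i with
    | zero => exact h0
    | succ i ih =>
      rw [Function.iterate_succ_apply']
      exact hPT _ ih
  have hJi : ∀ i : ℕ, J V k ((T V k)^[i] c₀) ≤ J V k c₀ - i * (ε / k) := by
    intro i
    induction i with
    | zero => simp
    | succ i ih =>
      rw [Function.iterate_succ_apply']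
      have h1 := (hPG _ (hPi i)).descent hk ha ha' (hPG _ (hPT _ (hPi i))) hVi hV1 hVV hV2
      have h2 := (hcon _ (hPi i)).le
      have h3 : ε / k ≤ KL V k ((T V k)^[i] c₀) / k := by gcongr
      push_cast
      linarith
  have hci : ∀ c, P c → Integrable fun x : E => c x * Real.exp (-V x) := by
    intro c hc
    have hG := hPG c hc
    have h3 : Integrable fun x : E => |c 0| * Real.exp (-V x) + (b / 2) * (‖x‖ ^ 2 * Real.exp (-V x)) :=
      (hVi.const_mul _).add (hV2.const_mul _)
    refine h3.mono' (hG.meas.mul (Real.measurable_exp.comp hMV.neg)).aestronglyMeasurable (Eventually.of_forall fun x => ?_)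
    rw [Real.norm_eq_abs, abs_mul, abs_of_pos (Real.exp_pos _)]
    have h4 : |c x| ≤ |c 0| + b / 2 * ‖x‖ ^ 2 := by
      have h5 := hG.lo x
      have h6 := hG.hi x
      have h7 : 0 ≤ a / 2 * ‖x‖ ^ 2 := by positivity
      have h9 := neg_abs_le (c 0)
      have h10 := le_abs_self (c 0)
      have h11 : 0 ≤ b / 2 * ‖x‖ ^ 2 := by positivity
      rw [abs_le]
      constructor <;> linarith
    calc |c x| * Real.exp (-V x) ≤ (|c 0| + b / 2 * ‖x‖ ^ 2) * Real.exp (-V x) :=
          mul_le_mul_of_nonneg_right h4 (Real.exp_pos _).le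
      _ = _ := by ring
  set m := (1 / k) * Real.log (∫ x : E, Real.exp (-(k * (b / 2 * ‖x‖ ^ 2)))) - Real.log (∫ y : E, Real.exp (-(a' / 2 * ‖y‖ ^ 2)))
    with hm
  obtain ⟨i, hi⟩ := exists_nat_gt ((J V k c₀ - m) / (ε / k))
  have h1 := (hPG _ (hPi i)).J_ge hk ha hb ha' hVi hV1 (hci _ (hPi i))
  rw [← hm] at h1
  have h2 := hJi i
  rw [div_lt_iff₀ (by positivity)] at hi
  linarith

end Vale.Agent.P227.M.LK
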