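import Vale.Agent.P227.M.LK.Cls
import Vale.Agent.P227.M.LK.Desc
import Vale.Agent.P227.M.Bas

/-! # P227/M, block LK: the class `Cls` satisfies the hypotheses of the descent (`LK/Desc.lean`). -/

open MeasureTheory
open scoped Topology

namespace Vale.Agent.P227.M.LK.B136

variable {n : ℕ}

theorem phiK_eq_phi (k : ℝ) (c : E n → ℝ) : phiK k c = phi k c := by
  funext y
  unfold phiK phi logLap
  simp only [real_inner_smul_right]

theorem QK_eq_Q (k : ℝ) (p : E n → ℝ) : QK k p = Q k p := by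
  funext x
  unfold QK Q logLap
  simp only [real_inner_smul_right, real_inner_comm]

theorem TK_eq_T (V : E n → ℝ) (k : ℝ) (c : E n → ℝ) : TK V k c = T V k c := by
  funext x
  unfold TK T
  rw [QK_eq_Q, phiK_eq_phi]

theorem fderiv_zero_of_even {f : E n → ℝ} (hf : Differentiable ℝ f) (he : ∀ x, f (-x) = f x) :
    fderiv ℝ f 0 = 0 := by
  have h1 : HasFDerivAt (fun x : E n => f (-x)) (-(fderiv ℝ f 0)) 0 := by
    have h2 : HasFDerivAt f (fderiv ℝ f 0) (-(0 : E n)) := by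
      rw [neg_zero]
      exact (hf 0).hasFDerivAt
    have h3 := h2.comp (0 : E n) (hasFDerivAt_id (𝕜 := ℝ) (0 : E n)).neg
    refine h3.congr_fderiv ?_
    ext v
    simp
  have h4 : (fun x : E n => f (-x)) = f := funext he
  rw [h4] at h1
  have h5 : -(fderiv ℝ f 0) = fderiv ℝ f 0 := h1.unique (hf 0).hasFDerivAt
  ext v
  have h6 : (-(fderiv ℝ f 0)) v = fderiv ℝ f 0 v := by rw [h5]
  simp only [neg_apply] at h6
  simp only [zero_apply]
  linarith

theorem Reg.quad_lo {U : E n → ℝ} {a b : ℝ} (h : Reg U a b) (he : ∀ x, U (-x) = U x) (x : E n) :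
    U 0 + a / 2 * ‖x‖ ^ 2 ≤ U x := by
  have h1 := lower_quad (smooth_two h.smooth) h.lower x
  rw [fderiv_zero_of_even ((smooth_two h.smooth).differentiable (by norm_num)) he] at h1
  simpa using h1

theorem Reg.quad_hi {U : E n → ℝ} {a b : ℝ} (h : Reg U a b) (he : ∀ x, U (-x) = U x) (x : E n) :
    U x ≤ U 0 + b / 2 * ‖x‖ ^ 2 := by
  have hs : ContDiff ℝ (⊤ : ℕ∞) (fun x => -U x) := h.smooth.neg
  have h2 : ∀ x v, -b * ‖v‖ ^ 2 ≤ qf (hess (fun x => -U x) x) v := by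
    intro x v
    rw [← l2_eq (smooth_two hs)]
    have e : l2 (fun x => -U x) x v = - l2 U x v := by
      unfold l2
      exact iteratedDeriv_fun_neg 2 (fun t : ℝ => U (x + t • v)) 0
    rw [e]
    have := Reg.l2_upper h x v
    linarith
  have h1 := lower_quad (smooth_two hs) h2 x
  rw [fderiv_zero_of_even ((smooth_two hs).differentiable (by norm_num))
    (fun x => by rw [he])] at h1
  simp at h1
  linarith

section

variable {c0 C0 m k : ℝ} {c V : E n → ℝ}

theorem Cls.good (hR : LogLapReg) (hC0 : 0 < C0) (hk : 0 < k) (h : Cls c0 C0 m k c) :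
    Good k (c0 * (k + 1) / k) (C0 * (k + 1) / k) (k / ((k + 1) * C0)) c where
  meas := h.reg.smooth.continuous.measurable
  lo := Reg.quad_lo h.reg h.even
  hi := Reg.quad_hi h.reg h.even
  plo := by
    have h1 := Reg.quad_lo (h.phi_reg hR hC0 hk) h.phi_even
    rw [phiK_eq_phi] at h1
    exact h1

/-- the output of the descent for the class -/
theorem exists_cls_KL_le (hSC : StmtSC) (hR : LogLapReg) (hV : Nice V c0 C0) (hC0 : 0 < C0)
    (hV1 : ∫ x : E n, Real.exp (-V x) = 1) : ∃ m : ℝ, 0 ≤ m ∧ ∀ k : ℝ, 0 < k → m ^ 2 ≤ k →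
      ∀ ε : ℝ, 0 < ε → ∃ c : E n → ℝ, Cls c0 C0 m k c ∧ KL V k c ≤ ε ∧
        SelfConc m (phiK k c) ∧
        ∀ x v, |l3 (phiK k c) x v| ≤ 2 * m * (Real.sqrt c0⁻¹) ^ 3 * ‖v‖ ^ 3 := by
  have hc0 := hV.c_pos
  obtain ⟨m, hm, H⟩ := exists_cls hSC hR hV hC0
  refine ⟨m, hm, fun k hk hmk ε hε => ?_⟩
  obtain ⟨h1, h2, h3⟩ := H k hk hmk
  have hi : ∀ {f : E n → ℝ}, Gr f → Integrable fun x : E n => f x * Real.exp (-V x) := fun hf =>
    hV.toReg.integrable_gr hf
  obtain ⟨c, hc, hKL⟩ := exists_KL_le (V := V) (k := k) (a := c0 * (k + 1) / k)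
    (b := C0 * (k + 1) / k) (a' := k / ((k + 1) * C0)) hk (by positivity) (by positivity)
    (by positivity) (fun c : E n → ℝ => Cls c0 C0 m k c) _ h1
    (fun c hc => by rw [← TK_eq_T]; exact h2 c hc) (fun c hc => hc.good hR hC0 hk)
    hV.toReg.integrable_exp hV1 (hi hV.toReg.gr) (hi (Gr.norm.pow 2)) hε
  exact ⟨c, hc, hKL, (h3 c hc).2.2.1, (h3 c hc).2.2.2⟩

end

end Vale.Agent.P227.M.LK.B136
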