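import Mathlib
import Vale.Agent.P227.PL

/-! Two convexity tools: Prekopa for `y ↦ -log ∫ exp (-F x y)` and Hoelder for
`y ↦ log ∫ exp (G a y)`. -/

open MeasureTheory Set Real
open scoped ENNReal

namespace Vale.Agent.P227.M.LKHB

theorem cv_ofReal_rpow {x s : ℝ} (hx : 0 < x) :
    ENNReal.ofReal x ^ s = ENNReal.ofReal (x ^ s) := by
  rw [ENNReal.ofReal_rpow_of_pos hx]

theorem cv_log_le {a b c s t : ℝ} (ha : 0 < a) (hb : 0 < b) (hc : 0 < c)
    (h : a ^ s * b ^ t ≤ c) : s * Real.log a + t * Real.log b ≤ Real.log c := by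
  have h1 := Real.log_le_log (mul_pos (Real.rpow_pos_of_pos ha s) (Real.rpow_pos_of_pos hb t)) h
  rwa [Real.log_mul (Real.rpow_pos_of_pos ha s).ne' (Real.rpow_pos_of_pos hb t).ne',
    Real.log_rpow ha, Real.log_rpow hb] at h1

theorem cv_le_log {a b c s t : ℝ} (ha : 0 < a) (hb : 0 < b) (hc : 0 < c)
    (h : c ≤ a ^ s * b ^ t) : Real.log c ≤ s * Real.log a + t * Real.log b := by
  have h1 := Real.log_le_log hc h
  rwa [Real.log_mul (Real.rpow_pos_of_pos ha s).ne' (Real.rpow_pos_of_pos hb t).ne',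
    Real.log_rpow ha, Real.log_rpow hb] at h1

/-- Prekopa: the marginal of a log-concave function is log-concave. -/
theorem prekopa_convex {n : ℕ} {E : Type*} [AddCommGroup E] [Module ℝ E]
    (F : (Fin n → ℝ) → E → ℝ)
    (hF : ConvexOn ℝ univ (fun p : (Fin n → ℝ) × E => F p.1 p.2))
    (hi : ∀ y, Integrable (fun x => Real.exp (-F x y))) :
    ConvexOn ℝ univ (fun y => -Real.log (∫ x, Real.exp (-F x y))) := by
  have hpos : ∀ y, 0 < ∫ x, Real.exp (-F x y) := fun y => integral_exp_pos (hi y)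
  have hmeas : ∀ y, Measurable (fun x => F x y) := by
    intro y
    have hc : ConvexOn ℝ univ (fun x => F x y) := by
      refine ⟨convex_univ, fun x _ x' _ s t hs ht hst => ?_⟩
      have h := hF.2 (mem_univ (x, y)) (mem_univ (x', y)) hs ht hst
      have h2 : s • y + t • y = y := by rw [← add_smul, hst, one_smul]
      simpa [h2] using h
    exact (hc.continuousOn isOpen_univ |>.mono (subset_refl _) |> continuousOn_univ.1).measurable
  refine ⟨convex_univ, fun y _ y' _ s t hs ht hst => ?_⟩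
  rcases hs.eq_or_lt with rfl | hs
  · have ht1 : t = 1 := by linarith
    subst ht1
    simp
  rcases ht.eq_or_lt with rfl | ht
  · have hs1 : s = 1 := by linarith
    subst hs1
    simp
  have hkey := pl_pi hs ht hst n (fun x => ENNReal.ofReal (Real.exp (-F x y)))
    (fun x => ENNReal.ofReal (Real.exp (-F x y')))
    (fun x => ENNReal.ofReal (Real.exp (-F x (s • y + t • y'))))
    (Real.measurable_exp.comp (hmeas y).neg).ennreal_ofReal
    (Real.measurable_exp.comp (hmeas y').neg).ennreal_ofReal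
    (Real.measurable_exp.comp (hmeas _).neg).ennreal_ofReal (by
      intro x x'
      rw [cv_ofReal_rpow (Real.exp_pos _), cv_ofReal_rpow (Real.exp_pos _),
        ← ENNReal.ofReal_mul (Real.rpow_nonneg (Real.exp_pos _).le _)]
      apply ENNReal.ofReal_le_ofReal
      rw [← Real.exp_mul, ← Real.exp_mul, ← Real.exp_add]
      apply Real.exp_le_exp.2
      have h := hF.2 (mem_univ (x, y)) (mem_univ (x', y')) hs.le ht.le hst
      simp only [Prod.smul_fst, Prod.smul_snd, Prod.fst_add, Prod.snd_add, smul_eq_mul] at h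
      linarith)
  rw [← ofReal_integral_eq_lintegral_ofReal (hi y) (ae_of_all _ fun _ => (Real.exp_pos _).le),
    ← ofReal_integral_eq_lintegral_ofReal (hi y') (ae_of_all _ fun _ => (Real.exp_pos _).le),
    ← ofReal_integral_eq_lintegral_ofReal (hi _) (ae_of_all _ fun _ => (Real.exp_pos _).le),
    cv_ofReal_rpow (hpos y), cv_ofReal_rpow (hpos y'),
    ← ENNReal.ofReal_mul (Real.rpow_nonneg (hpos y).le _),
    ENNReal.ofReal_le_ofReal_iff (hpos _).le] at hkey
  have h1 := cv_log_le (hpos y) (hpos y') (hpos _) hkey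
  simp only [smul_eq_mul]
  linarith

/-- Hoelder: `y ↦ log ∫ exp (G a y)` is convex if every `G a` is convex. -/
theorem holder_convex {α E : Type*} [MeasurableSpace α] [AddCommGroup E] [Module ℝ E]
    (ν : Measure α) [NeZero ν] (G : α → E → ℝ) (hG : ∀ a, ConvexOn ℝ univ (G a))
    (hi : ∀ y, Integrable (fun a => Real.exp (G a y)) ν) :
    ConvexOn ℝ univ (fun y => Real.log (∫ a, Real.exp (G a y) ∂ν)) := by
  have hpos : ∀ y, 0 < ∫ a, Real.exp (G a y) ∂ν := fun y => integral_exp_pos (hi y)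
  refine ⟨convex_univ, fun y _ y' _ s t hs ht hst => ?_⟩
  rcases hs.eq_or_lt with rfl | hs
  · have ht1 : t = 1 := by linarith
    subst ht1
    simp
  rcases ht.eq_or_lt with rfl | ht
  · have hs1 : s = 1 := by linarith
    subst hs1
    simp
  have h1 : ENNReal.ofReal (∫ a, Real.exp (G a (s • y + t • y')) ∂ν) ≤
      ENNReal.ofReal ((∫ a, Real.exp (G a y) ∂ν) ^ s * (∫ a, Real.exp (G a y') ∂ν) ^ t) := by
    rw [ENNReal.ofReal_mul (Real.rpow_nonneg (hpos y).le _), ← cv_ofReal_rpow (hpos y),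
      ← cv_ofReal_rpow (hpos y'),
      ofReal_integral_eq_lintegral_ofReal (hi y) (ae_of_all _ fun _ => (Real.exp_pos _).le),
      ofReal_integral_eq_lintegral_ofReal (hi y') (ae_of_all _ fun _ => (Real.exp_pos _).le),
      ofReal_integral_eq_lintegral_ofReal (hi _) (ae_of_all _ fun _ => (Real.exp_pos _).le)]
    refine le_trans (lintegral_mono fun a => ?_) (ENNReal.lintegral_mul_norm_pow_le
      (hi y).1.aemeasurable.ennreal_ofReal (hi y').1.aemeasurable.ennreal_ofReal hs.le ht.le hst)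
    rw [cv_ofReal_rpow (Real.exp_pos _), cv_ofReal_rpow (Real.exp_pos _),
      ← ENNReal.ofReal_mul (Real.rpow_nonneg (Real.exp_pos _).le _)]
    apply ENNReal.ofReal_le_ofReal
    rw [← Real.exp_mul, ← Real.exp_mul, ← Real.exp_add]
    apply Real.exp_le_exp.2
    have h := (hG a).2 (mem_univ y) (mem_univ y') hs.le ht.le hst
    simp only [smul_eq_mul] at h
    linarith
  have h2 := (ENNReal.ofReal_le_ofReal_iff (mul_nonneg (Real.rpow_nonneg (hpos y).le _)
    (Real.rpow_nonneg (hpos y').le _))).1 h1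
  have h3 := cv_le_log (hpos y) (hpos y') (hpos _) h2
  simpa only [smul_eq_mul] using h3

end Vale.Agent.P227.M.LKHB
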