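import Vale.Agent.P227.M.Defs

/-! # P227/M/LK: the level-`k` objects (helper750 10513, helper874 10615). -/

open MeasureTheory

namespace Vale.Agent.P227.M.LK

variable {n : ℕ}

/-- `φ_c(y) = (1/k) log ∫ exp (k⟨x,y⟩ - k c(x)) dx` -/
noncomputable def phiK (k : ℝ) (c : E n → ℝ) (y : E n) : ℝ :=
  1 / k * logLap (fun x => k * c x) (k • y)

/-- `Q_c(x) = log ∫ exp (k⟨x,y⟩ - (k+1) φ_c(y)) dy` -/
noncomputable def QK (k : ℝ) (c : E n → ℝ) (x : E n) : ℝ :=
  logLap (fun y => (k + 1) * phiK k c y) (k • x)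

/-- `T(c) = (V + Q_c)/k`, normalised to vanish at `0` -/
noncomputable def TK (k : ℝ) (V c : E n → ℝ) (x : E n) : ℝ :=
  (V x + QK k c x) / k - (V 0 + QK k c 0) / k

/-- the invariant class of level `k` -/
structure ClassK (k c0 C0 m : ℝ) (c : E n → ℝ) : Prop where
  nice : Nice c (c0 * (k + 1) / k) (C0 * (k + 1) / k)
  sc : SelfConc m c
  zero : c 0 = 0

end Vale.Agent.P227.M.LK
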