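import Mathlib

/-!
P227, block LK: log-Laplace transforms of functions with quadratic growth
(integrability, Gaussian bounds, measurability).  `E` is any finite-dimensional
real inner product space.
-/

open MeasureTheory Real
open scoped RealInnerProductSpace

namespace Vale.Agent.P227.M.Desc

variable {E : Type*} [NormedAddCommGroup E] [InnerProductSpace ℝ E] [FiniteDimensional ℝ E]
  [MeasurableSpace E] [BorelSpace E]

/-- The Gaussian integral `∫ exp(-(α/2)|x|²)`. -/
noncomputable def gau (E : Type*) [NormedAddCommGroup E] [InnerProductSpace ℝ E]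
    [FiniteDimensional ℝ E] [MeasurableSpace E] [BorelSpace E] (α : ℝ) : ℝ :=
  ∫ x : E, Real.exp (-(α / 2) * ‖x‖ ^ 2)

/-- The log-Laplace transform. -/
noncomputable def Lam (W : E → ℝ) (y : E) : ℝ := Real.log (∫ x, Real.exp (⟪x, y⟫ - W x))

lemma integrable_gauss {α : ℝ} (hα : 0 < α) :
    Integrable (fun x : E => Real.exp (-(α / 2) * ‖x‖ ^ 2)) := by
  have h := (GaussianFourier.integrable_cexp_neg_mul_sq_norm_add (V := E) (b := ((α / 2 : ℝ) : ℂ))
    (by simpa using hα) 0 0).norm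
  refine h.congr (Filter.Eventually.of_forall fun x => ?_)
  simp only [Complex.norm_exp]
  congr 1
  simp [← Complex.ofReal_pow, Complex.ofReal_re]

lemma gau_pos {α : ℝ} (hα : 0 < α) : 0 < gau E α := by
  unfold gau
  rw [integral_pos_iff_support_of_nonneg (fun x => (Real.exp_pos _).le) (integrable_gauss hα)]
  have : Function.support (fun x : E => Real.exp (-(α / 2) * ‖x‖ ^ 2)) = Set.univ := by
    ext x; simp [(Real.exp_pos _).ne']
  rw [this]
  exact (isOpen_univ.measure_pos volume Set.univ_nonempty)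

omit [FiniteDimensional ℝ E] [MeasurableSpace E] [BorelSpace E] in
lemma square (α : ℝ) (hα : 0 < α) (x y : E) :
    ⟪x, y⟫ - α / 2 * ‖x‖ ^ 2 = ‖y‖ ^ 2 / (2 * α) + -(α / 2) * ‖x - α⁻¹ • y‖ ^ 2 := by
  rw [@norm_sub_sq_real, norm_smul, inner_smul_right, Real.norm_of_nonneg (inv_nonneg.2 hα.le)]
  field_simp
  ring

lemma integrable_gauss_lin {α : ℝ} (hα : 0 < α) (y : E) :
    Integrable (fun x : E => Real.exp (⟪x, y⟫ - α / 2 * ‖x‖ ^ 2)) := by
  have h := ((integrable_gauss (E := E) hα).comp_sub_right (α⁻¹ • y)).const_mul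
    (Real.exp (‖y‖ ^ 2 / (2 * α)))
  refine h.congr (Filter.Eventually.of_forall fun x => ?_)
  simp only [square α hα x y, Real.exp_add]

lemma integral_gauss_lin {α : ℝ} (hα : 0 < α) (y : E) :
    ∫ x : E, Real.exp (⟪x, y⟫ - α / 2 * ‖x‖ ^ 2) = Real.exp (‖y‖ ^ 2 / (2 * α)) * gau E α := by
  simp only [square α hα _ y, Real.exp_add]
  rw [integral_const_mul]
  congr 1
  exact integral_sub_right_eq_self (fun x : E => Real.exp (-(α / 2) * ‖x‖ ^ 2)) (α⁻¹ • y)

/-- Quadratic growth. -/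
structure Gr (α β A B : ℝ) (W : E → ℝ) : Prop where
  pos : 0 < α
  pos' : 0 < β
  meas : Measurable W
  lo : ∀ x, α / 2 * ‖x‖ ^ 2 + A ≤ W x
  hi : ∀ x, W x ≤ β / 2 * ‖x‖ ^ 2 + B

variable {α β A B : ℝ} {W : E → ℝ}

lemma Gr.integrable (h : Gr α β A B W) (y : E) :
    Integrable (fun x : E => Real.exp (⟪x, y⟫ - W x)) := by
  refine ((integrable_gauss_lin h.pos y).const_mul (Real.exp (-A))).mono' ?_ ?_
  · exact ((Real.measurable_exp.comp (((measurable_id.inner_const).sub h.meas))).aestronglyMeasurable)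
  · refine Filter.Eventually.of_forall fun x => ?_
    rw [Real.norm_of_nonneg (Real.exp_pos _).le, ← Real.exp_add]
    exact Real.exp_le_exp.2 (by linarith [h.lo x])

lemma Gr.integral_le (h : Gr α β A B W) (y : E) :
    ∫ x, Real.exp (⟪x, y⟫ - W x) ≤ Real.exp (‖y‖ ^ 2 / (2 * α) - A) * gau E α := by
  have h1 : ∫ x, Real.exp (⟪x, y⟫ - W x) ≤
      ∫ x : E, Real.exp (-A) * Real.exp (⟪x, y⟫ - α / 2 * ‖x‖ ^ 2) := by
    refine integral_mono (h.integrable y) ((integrable_gauss_lin h.pos y).const_mul _) fun x => ?_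
    show Real.exp (⟪x, y⟫ - W x) ≤ Real.exp (-A) * Real.exp (⟪x, y⟫ - α / 2 * ‖x‖ ^ 2)
    rw [← Real.exp_add]
    exact Real.exp_le_exp.2 (by linarith [h.lo x])
  rw [integral_const_mul, integral_gauss_lin h.pos, ← mul_assoc, ← Real.exp_add] at h1
  rwa [show ‖y‖ ^ 2 / (2 * α) - A = -A + ‖y‖ ^ 2 / (2 * α) by ring]

lemma Gr.le_integral (h : Gr α β A B W) (y : E) :
    Real.exp (‖y‖ ^ 2 / (2 * β) - B) * gau E β ≤ ∫ x, Real.exp (⟪x, y⟫ - W x) := by
  have h1 : ∫ x : E, Real.exp (-B) * Real.exp (⟪x, y⟫ - β / 2 * ‖x‖ ^ 2) ≤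
      ∫ x, Real.exp (⟪x, y⟫ - W x) := by
    refine integral_mono ((integrable_gauss_lin h.pos' y).const_mul _) (h.integrable y) fun x => ?_
    show Real.exp (-B) * Real.exp (⟪x, y⟫ - β / 2 * ‖x‖ ^ 2) ≤ Real.exp (⟪x, y⟫ - W x)
    rw [← Real.exp_add]
    exact Real.exp_le_exp.2 (by linarith [h.hi x])
  rw [integral_const_mul, integral_gauss_lin h.pos', ← mul_assoc, ← Real.exp_add] at h1
  rwa [show ‖y‖ ^ 2 / (2 * β) - B = -B + ‖y‖ ^ 2 / (2 * β) by ring]

lemma Gr.integral_pos (h : Gr α β A B W) (y : E) : 0 < ∫ x, Real.exp (⟪x, y⟫ - W x) :=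
  lt_of_lt_of_le (mul_pos (Real.exp_pos _) (gau_pos h.pos')) (h.le_integral y)

lemma Gr.exp_Lam (h : Gr α β A B W) (y : E) :
    Real.exp (Lam W y) = ∫ x, Real.exp (⟪x, y⟫ - W x) := Real.exp_log (h.integral_pos y)

lemma Gr.Lam_le (h : Gr α β A B W) (y : E) :
    Lam W y ≤ ‖y‖ ^ 2 / (2 * α) - A + Real.log (gau E α) := by
  have := Real.log_le_log (h.integral_pos y) (h.integral_le y)
  rwa [Real.log_mul (Real.exp_pos _).ne' (gau_pos h.pos).ne', Real.log_exp] at this

lemma Gr.le_Lam (h : Gr α β A B W) (y : E) :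
    ‖y‖ ^ 2 / (2 * β) - B + Real.log (gau E β) ≤ Lam W y := by
  have := Real.log_le_log (mul_pos (Real.exp_pos _) (gau_pos h.pos')) (h.le_integral y)
  rwa [Real.log_mul (Real.exp_pos _).ne' (gau_pos h.pos').ne', Real.log_exp] at this

lemma measurable_Lam (hW : Measurable W) : Measurable (Lam W) := by
  have h1 : StronglyMeasurable (fun p : E × E => Real.exp (⟪p.2, p.1⟫ - W p.2)) := by
    refine Measurable.stronglyMeasurable ?_
    exact Real.measurable_exp.comp ((measurable_snd.inner measurable_fst).sub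
      (hW.comp measurable_snd))
  have h2 := h1.integral_prod_right' (ν := (volume : Measure E))
  exact Real.measurable_log.comp h2.measurable

/-- The log-Laplace transform of a function of quadratic growth has quadratic growth. -/
lemma Gr.Lam (h : Gr α β A B W) :
    Gr β⁻¹ α⁻¹ (Real.log (gau E β) - B) (Real.log (gau E α) - A) (Lam W) where
  pos := inv_pos.2 h.pos'
  pos' := inv_pos.2 h.pos
  meas := measurable_Lam h.meas
  lo y := by
    have := h.le_Lam y
    have e : β⁻¹ / 2 * ‖y‖ ^ 2 = ‖y‖ ^ 2 / (2 * β) := by field_simp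
    linarith
  hi y := by
    have := h.Lam_le y
    have e : α⁻¹ / 2 * ‖y‖ ^ 2 = ‖y‖ ^ 2 / (2 * α) := by field_simp
    linarith

lemma Gr.scale (h : Gr α β A B W) {k : ℝ} (hk : 0 < k) :
    Gr (α * k) (β * k) (A / k) (B / k) (fun y => W (k • y) / k) where
  pos := mul_pos h.pos hk
  pos' := mul_pos h.pos' hk
  meas := (h.meas.comp (measurable_const_smul k)).div_const k
  lo y := by
    have := h.lo (k • y)
    rw [norm_smul, Real.norm_of_nonneg hk.le] at this
    rw [le_div_iff₀ hk]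
    have e : (α * k / 2 * ‖y‖ ^ 2 + A / k) * k = α / 2 * (k * ‖y‖) ^ 2 + A := by
      field_simp
    linarith
  hi y := by
    have := h.hi (k • y)
    rw [norm_smul, Real.norm_of_nonneg hk.le] at this
    rw [div_le_iff₀ hk]
    have e : (β * k / 2 * ‖y‖ ^ 2 + B / k) * k = β / 2 * (k * ‖y‖) ^ 2 + B := by
      field_simp
    linarith

lemma Gr.comp_smul (h : Gr α β A B W) {k : ℝ} (hk : 0 < k) :
    Gr (α * k ^ 2) (β * k ^ 2) A B (fun y => W (k • y)) where
  pos := mul_pos h.pos (pow_pos hk 2)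
  pos' := mul_pos h.pos' (pow_pos hk 2)
  meas := h.meas.comp (measurable_const_smul k)
  lo y := by
    have := h.lo (k • y)
    rw [norm_smul, Real.norm_of_nonneg hk.le] at this
    have e : (α * k ^ 2) / 2 * ‖y‖ ^ 2 + A = α / 2 * (k * ‖y‖) ^ 2 + A := by ring
    linarith
  hi y := by
    have := h.hi (k • y)
    rw [norm_smul, Real.norm_of_nonneg hk.le] at this
    have e : (β * k ^ 2) / 2 * ‖y‖ ^ 2 + B = β / 2 * (k * ‖y‖) ^ 2 + B := by ring
    linarith

lemma Gr.const_mul (h : Gr α β A B W) {s : ℝ} (hs : 0 < s) :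
    Gr (s * α) (s * β) (s * A) (s * B) (fun y => s * W y) where
  pos := mul_pos hs h.pos
  pos' := mul_pos hs h.pos'
  meas := h.meas.const_mul s
  lo y := by
    have := mul_le_mul_of_nonneg_left (h.lo y) hs.le
    linarith
  hi y := by
    have := mul_le_mul_of_nonneg_left (h.hi y) hs.le
    linarith

lemma Gr.add (h : Gr α β A B W) {α' β' A' B' : ℝ} {W' : E → ℝ} (h' : Gr α' β' A' B' W') :
    Gr (α + α') (β + β') (A + A') (B + B') (fun y => W y + W' y) where
  pos := add_pos h.pos h'.pos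
  pos' := add_pos h.pos' h'.pos'
  meas := h.meas.add h'.meas
  lo y := by linarith [h.lo y, h'.lo y]
  hi y := by linarith [h.hi y, h'.hi y]

lemma Gr.integrable_exp_neg (h : Gr α β A B W) : Integrable (fun x : E => Real.exp (-(W x))) := by
  have := h.integrable 0
  simpa using this

lemma Gr.integral_exp_neg_pos (h : Gr α β A B W) : 0 < ∫ x : E, Real.exp (-(W x)) := by
  have := h.integral_pos 0
  simpa using this

lemma Gr.integral_exp_neg_le (h : Gr α β A B W) :
    ∫ x : E, Real.exp (-(W x)) ≤ Real.exp (-A) * gau E α := by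
  have := h.integral_le 0
  simpa using this

/-- `‖x‖² exp(-W)` is integrable. -/
lemma Gr.integrable_sq (h : Gr α β A B W) :
    Integrable (fun x : E => ‖x‖ ^ 2 * Real.exp (-(W x))) := by
  have hα := h.pos
  have h4 : 0 < α / 2 := by positivity
  refine ((integrable_gauss (E := E) h4).const_mul (Real.exp (-A) * (4 / α))).mono' ?_ ?_
  · exact ((measurable_norm.pow_const 2).mul (Real.measurable_exp.comp h.meas.neg)).aestronglyMeasurable
  · refine Filter.Eventually.of_forall fun x => ?_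
    rw [Real.norm_of_nonneg (by positivity)]
    have h1 : α / 4 * ‖x‖ ^ 2 ≤ Real.exp (α / 4 * ‖x‖ ^ 2) := by
      linarith [Real.add_one_le_exp (α / 4 * ‖x‖ ^ 2)]
    have h2 : ‖x‖ ^ 2 ≤ 4 / α * Real.exp (α / 4 * ‖x‖ ^ 2) := by
      rw [div_mul_eq_mul_div, le_div_iff₀ hα]
      linarith
    have h3 : Real.exp (-(W x)) ≤ Real.exp (-A) * Real.exp (-(α / 2) * ‖x‖ ^ 2) := by
      rw [← Real.exp_add]
      exact Real.exp_le_exp.2 (by linarith [h.lo x])
    calc ‖x‖ ^ 2 * Real.exp (-(W x))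
        ≤ (4 / α * Real.exp (α / 4 * ‖x‖ ^ 2)) * (Real.exp (-A) * Real.exp (-(α / 2) * ‖x‖ ^ 2)) :=
          mul_le_mul h2 h3 (Real.exp_pos _).le (by positivity)
      _ = Real.exp (-A) * (4 / α) * (Real.exp (α / 4 * ‖x‖ ^ 2) * Real.exp (-(α / 2) * ‖x‖ ^ 2)) := by
          ring
      _ = Real.exp (-A) * (4 / α) * Real.exp (-(α / 2 / 2) * ‖x‖ ^ 2) := by
          rw [← Real.exp_add]
          congr 2
          ring

/-- A function of quadratic growth is integrable against `exp(-W)`. -/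
lemma Gr.integrable_mul (h : Gr α β A B W) {f : E → ℝ} (hf : Measurable f) {K : ℝ}
    (hK : ∀ x, |f x| ≤ K * (1 + ‖x‖ ^ 2)) :
    Integrable (fun x : E => f x * Real.exp (-(W x))) := by
  refine ((h.integrable_exp_neg.add h.integrable_sq).const_mul K).mono' ?_ ?_
  · exact (hf.mul (Real.measurable_exp.comp h.meas.neg)).aestronglyMeasurable
  · refine Filter.Eventually.of_forall fun x => ?_
    rw [norm_mul, Real.norm_eq_abs, Real.norm_of_nonneg (Real.exp_pos _).le]
    calc |f x| * Real.exp (-(W x)) ≤ K * (1 + ‖x‖ ^ 2) * Real.exp (-(W x)) :=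
          mul_le_mul_of_nonneg_right (hK x) (Real.exp_pos _).le
      _ = K * (Real.exp (-(W x)) + ‖x‖ ^ 2 * Real.exp (-(W x))) := by ring

lemma Gr.abs_bound (h : Gr α β A B W) (x : E) :
    |W x| ≤ (α + β + |A| + |B|) * (1 + ‖x‖ ^ 2) := by
  have h1 := h.lo x
  have h2 := h.hi x
  have h3 := sq_nonneg ‖x‖
  have hα := h.pos
  have hβ := h.pos'
  have a1 := neg_abs_le A
  have a2 := le_abs_self B
  have a3 := abs_nonneg A
  have a4 := abs_nonneg B
  have p1 : 0 ≤ α * ‖x‖ ^ 2 := by positivity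
  have p2 : 0 ≤ β * ‖x‖ ^ 2 := by positivity
  have p3 : 0 ≤ |A| * ‖x‖ ^ 2 := by positivity
  have p4 : 0 ≤ |B| * ‖x‖ ^ 2 := by positivity
  rw [abs_le]
  constructor <;> nlinarith

lemma Gr.integrable_self (h : Gr α β A B W) {α' β' A' B' : ℝ} {W' : E → ℝ}
    (h' : Gr α' β' A' B' W') :
    Integrable (fun x : E => W' x * Real.exp (-(W x))) :=
  h.integrable_mul h'.meas h'.abs_bound

/-- Duality (Fubini). -/
lemma fubini_integrable {u w : E → ℝ} {α β A B α' β' A' B' : ℝ} (hu : Gr α β A B u)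
    (hw : Gr α' β' A' B' w) {k : ℝ}
    (hi : Integrable (fun y => Real.exp (Lam u (k • y) - w y))) :
    Integrable (fun p : E × E => Real.exp (⟪p.1, k • p.2⟫ - u p.1 - w p.2))
      ((volume : Measure E).prod volume) := by
  have hm : Measurable (fun p : E × E => Real.exp (⟪p.1, k • p.2⟫ - u p.1 - w p.2)) := by
    refine Real.measurable_exp.comp (((measurable_fst.inner (measurable_snd.const_smul k)).sub
      (hu.meas.comp measurable_fst)).sub (hw.meas.comp measurable_snd))
  rw [integrable_prod_iff' hm.aestronglyMeasurable]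
  constructor
  · refine Filter.Eventually.of_forall fun y => ?_
    refine ((hu.integrable (k • y)).const_mul (Real.exp (-(w y)))).congr
      (Filter.Eventually.of_forall fun x => ?_)
    show Real.exp (-(w y)) * Real.exp (⟪x, k • y⟫ - u x) = Real.exp (⟪x, k • y⟫ - u x - w y)
    rw [← Real.exp_add]
    congr 1
    ring
  · refine hi.congr (Filter.Eventually.of_forall fun y => ?_)
    show Real.exp (Lam u (k • y) - w y) = ∫ x, ‖Real.exp (⟪x, k • y⟫ - u x - w y)‖
    have e : ∀ x : E, ‖Real.exp (⟪x, k • y⟫ - u x - w y)‖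
        = Real.exp (-(w y)) * Real.exp (⟪x, k • y⟫ - u x) := by
      intro x
      rw [Real.norm_of_nonneg (Real.exp_pos _).le, ← Real.exp_add]
      congr 1
      ring
    simp only [e]
    rw [integral_const_mul, ← hu.exp_Lam, ← Real.exp_add]
    congr 1
    ring

lemma fubini_left {u w : E → ℝ} {α β A B : ℝ} (hu : Gr α β A B u) {k : ℝ} (y : E) :
    ∫ x, Real.exp (⟪x, k • y⟫ - u x - w y) = Real.exp (Lam u (k • y) - w y) := by
  have e : ∀ x : E, Real.exp (⟪x, k • y⟫ - u x - w y)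
      = Real.exp (-(w y)) * Real.exp (⟪x, k • y⟫ - u x) := by
    intro x
    rw [← Real.exp_add]
    congr 1
    ring
  simp only [e]
  rw [integral_const_mul, ← hu.exp_Lam, ← Real.exp_add]
  congr 1
  ring

lemma fubini_right {u w : E → ℝ} {α' β' A' B' : ℝ} (hw : Gr α' β' A' B' w) {k : ℝ} (x : E) :
    ∫ y, Real.exp (⟪x, k • y⟫ - u x - w y) = Real.exp (Lam w (k • x) - u x) := by
  have e : ∀ y : E, Real.exp (⟪x, k • y⟫ - u x - w y)
      = Real.exp (-(u x)) * Real.exp (⟪y, k • x⟫ - w y) := by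
    intro y
    rw [← Real.exp_add, real_inner_smul_right, real_inner_smul_right, real_inner_comm]
    congr 1
    ring
  simp only [e]
  rw [integral_const_mul, ← hw.exp_Lam, ← Real.exp_add]
  congr 1
  ring

lemma duality {u w : E → ℝ} {α β A B α' β' A' B' : ℝ} (hu : Gr α β A B u)
    (hw : Gr α' β' A' B' w) {k : ℝ}
    (hi : Integrable (fun y => Real.exp (Lam u (k • y) - w y))) :
    Integrable (fun x => Real.exp (Lam w (k • x) - u x)) ∧
    ∫ x, Real.exp (Lam w (k • x) - u x) = ∫ y, Real.exp (Lam u (k • y) - w y) := by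
  have h := fubini_integrable hu hw hi
  constructor
  · refine h.integral_prod_left.congr (Filter.Eventually.of_forall fun x => ?_)
    exact fubini_right hw x
  · calc ∫ x, Real.exp (Lam w (k • x) - u x)
        = ∫ x, ∫ y, Real.exp (⟪x, k • y⟫ - u x - w y) := by
          simp only [fubini_right hw]
      _ = ∫ y, ∫ x, Real.exp (⟪x, k • y⟫ - u x - w y) := integral_integral_swap h
      _ = ∫ y, Real.exp (Lam u (k • y) - w y) := by
          simp only [fubini_left hu]

end Vale.Agent.P227.M.Desc
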