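import Vale.Agent.P227.M.LK.DescA

/-!
P227, block LK: the descent argument at level `k`.
-/

open MeasureTheory Real
open scoped RealInnerProductSpace

namespace Vale.Agent.P227.M.Desc

variable {E : Type*} [NormedAddCommGroup E] [InnerProductSpace ℝ E] [FiniteDimensional ℝ E]
  [MeasurableSpace E] [BorelSpace E]

/-- `φ_c(y) = (1/k) log ∫ exp(k⟨x,y⟩ - k c(x)) dx`. -/
noncomputable def phi (k : ℝ) (c : E → ℝ) (y : E) : ℝ := Lam (fun x => k * c x) (k • y) / k

/-- `Q_c(x) = log ∫ exp(k⟨x,y⟩ - (k+1) φ_c(y)) dy`. -/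
noncomputable def Qk (k : ℝ) (c : E → ℝ) (x : E) : ℝ := Lam (fun y => (k + 1) * phi k c y) (k • x)

/-- The level-`k` map. -/
noncomputable def T (k : ℝ) (V c : E → ℝ) (x : E) : ℝ := (V x + Qk k c x) / k

/-- `Z_c = ∫ exp(-φ_c)`. -/
noncomputable def Z (k : ℝ) (c : E → ℝ) : ℝ := ∫ y, Real.exp (-(phi k c y))

/-- `J(c) = ∫ c dμ - log ∫ exp(-φ_c)`. -/
noncomputable def J (k : ℝ) (V c : E → ℝ) : ℝ :=
  (∫ x, c x * Real.exp (-(V x))) - Real.log (Z k c)

/-- `KL(μ | μ_c)`. -/
noncomputable def KL (k : ℝ) (V c : E → ℝ) : ℝ :=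
  (∫ x, (k * c x - Qk k c x - V x) * Real.exp (-(V x))) + Real.log (Z k c)

/-- Normalised quadratic growth. -/
structure Qg (a b : ℝ) (c : E → ℝ) : Prop where
  meas : Measurable c
  lo : ∀ x, a / 2 * ‖x‖ ^ 2 ≤ c x - c 0
  hi : ∀ x, c x - c 0 ≤ b / 2 * ‖x‖ ^ 2

variable {k a b : ℝ} {c V : E → ℝ}

lemma Qg.gr (h : Qg a b c) (ha : 0 < a) (hb : 0 < b) : Gr a b (c 0) (c 0) c where
  pos := ha
  pos' := hb
  meas := h.meas
  lo x := by linarith [h.lo x]
  hi x := by linarith [h.hi x]

section general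

variable {α β A B : ℝ}

lemma Gr.phi (hk : 0 < k) (h : Gr α β A B c) :
    Gr ((k * β)⁻¹ * k) ((k * α)⁻¹ * k) ((Real.log (gau E (k * β)) - k * B) / k)
      ((Real.log (gau E (k * α)) - k * A) / k) (phi k c) :=
  ((h.const_mul hk).Lam).scale hk

lemma Gr.phi' (hk : 0 < k) (h : Gr α β A B c) :
    ∃ α' β' A' B', Gr α' β' A' B' (Desc.phi k c) := ⟨_, _, _, _, h.phi hk⟩

lemma Gr.Qk' (hk : 0 < k) (h : Gr α β A B c) :
    ∃ α' β' A' B', Gr α' β' A' B' (Desc.Qk k c) :=
  ⟨_, _, _, _, (((h.phi hk).const_mul (by positivity : 0 < k + 1)).Lam).comp_smul hk⟩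

lemma exp_k_phi (hk : 0 < k) (h : Gr α β A B c) (y : E) :
    k * phi k c y = Lam (fun x => k * c x) (k • y) := by
  unfold phi
  field_simp

/-- `exp(-V_c)` is integrable, with integral `Z_c`. -/
lemma Z_eq (hk : 0 < k) (h : Gr α β A B c) :
    Integrable (fun x => Real.exp (Qk k c x - k * c x)) ∧
      ∫ x, Real.exp (Qk k c x - k * c x) = Z k c := by
  have hphi := h.phi hk
  have hu := h.const_mul hk
  have hw := hphi.const_mul (by positivity : 0 < k + 1)
  have e : ∀ y : E, Lam (fun x => k * c x) (k • y) - (k + 1) * phi k c y = -(phi k c y) := by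
    intro y
    rw [← exp_k_phi hk h y]
    ring
  have hi : Integrable (fun y : E => Real.exp (Lam (fun x => k * c x) (k • y)
      - (k + 1) * phi k c y)) := by
    simp only [e]
    exact hphi.integrable_exp_neg
  have := duality hu hw hi
  simp only [e] at this
  exact this

lemma Z_pos (hk : 0 < k) (h : Gr α β A B c) : 0 < Z k c := (h.phi hk).integral_exp_neg_pos

end general

section descent

variable {αV βV AV BV α β A B : ℝ}

/-- The key inequality `log Z(T c) ≥ (1 + 1/k) log Z(c)`. -/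
lemma logZ_T (hk : 0 < k) (hV : Gr αV βV AV BV V) (hV1 : ∫ x, Real.exp (-(V x)) = 1)
    (h : Gr α β A B c) :
    (1 + 1 / k) * Real.log (Z k c) ≤ Real.log (Z k (T k V c)) := by
  obtain ⟨α₁, β₁, A₁, B₁, hphi⟩ := h.phi' hk
  obtain ⟨α₂, β₂, A₂, B₂, hQ⟩ := h.Qk' hk
  have eT0 : T k V c = fun y => k⁻¹ * (V y + Qk k c y) := by
    funext x
    unfold T
    rw [div_eq_inv_mul]
  have hT := (hV.add hQ).const_mul (inv_pos.2 hk)
  rw [← eT0] at hT
  obtain ⟨α₃, β₃, A₃, B₃, hphiT⟩ := hT.phi' hk
  have hw := hphi.const_mul (by positivity : 0 < k + 1)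
  have hZ := Z_pos hk h
  have hZT := Z_pos hk hT
  -- second Fubini
  have eT : ∀ x, k * T k V c x = V x + Qk k c x := by
    intro x
    unfold T
    field_simp
  have hu := hT.const_mul hk
  have e1 : ∀ x : E, Lam (fun y => (k + 1) * phi k c y) (k • x) - k * T k V c x = -(V x) := by
    intro x
    rw [eT]
    show Qk k c x - (V x + Qk k c x) = -(V x)
    ring
  have hi : Integrable (fun x : E => Real.exp (Lam (fun y => (k + 1) * phi k c y) (k • x)
      - k * T k V c x)) := by
    simp only [e1]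
    exact hV.integrable_exp_neg
  have hd := duality hw hu hi
  simp only [e1] at hd
  rw [hV1] at hd
  have e2 : ∀ y : E, Lam (fun x => k * T k V c x) (k • y) - (k + 1) * phi k c y
      = k * phi k (T k V c) y - (k + 1) * phi k c y := by
    intro y
    rw [exp_k_phi hk hT y]
  simp only [e2] at hd
  obtain ⟨hd1, hd2⟩ := hd
  -- pointwise inequality
  have hpt : ∀ y : E, Real.exp (Real.log (Z k c) / k) *
      ((1 + 1 / k) * Real.exp (-(phi k c y))
        - Z k c / k * Real.exp (k * phi k (T k V c) y - (k + 1) * phi k c y))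
      ≤ Real.exp (-(phi k (T k V c) y)) := by
    intro y
    set r : ℝ := k * (phi k (T k V c) y - phi k c y) + Real.log (Z k c) with hr
    have h1 : Real.exp r = Z k c * Real.exp (k * (phi k (T k V c) y - phi k c y)) := by
      rw [hr, Real.exp_add, Real.exp_log hZ, mul_comm]
    have h2 : r + 1 ≤ Real.exp r := Real.add_one_le_exp r
    have h3 : -(r / k) + 1 ≤ Real.exp (-(r / k)) := Real.add_one_le_exp _
    have h4 : r / k ≤ (Real.exp r - 1) / k := by
      gcongr
      linarith
    have h5 : Real.exp (-(phi k (T k V c) y)) =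
        Real.exp (Real.log (Z k c) / k) * (Real.exp (-(phi k c y)) * Real.exp (-(r / k))) := by
      rw [← Real.exp_add, ← Real.exp_add]
      congr 1
      rw [hr]
      field_simp
      ring
    rw [h5]
    refine mul_le_mul_of_nonneg_left ?_ (Real.exp_pos _).le
    have h6 : Real.exp (k * phi k (T k V c) y - (k + 1) * phi k c y) =
        Real.exp (-(phi k c y)) * Real.exp (k * (phi k (T k V c) y - phi k c y)) := by
      rw [← Real.exp_add]
      congr 1
      ring
    rw [h6]
    have h7 : (1 + 1 / k) * Real.exp (-(phi k c y)) - Z k c / k *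
        (Real.exp (-(phi k c y)) * Real.exp (k * (phi k (T k V c) y - phi k c y)))
        = Real.exp (-(phi k c y)) * (1 - (Real.exp r - 1) / k) := by
      rw [h1]
      field_simp
      ring
    rw [h7]
    exact mul_le_mul_of_nonneg_left (by linarith) (Real.exp_pos _).le
  -- integrate
  have hint : Real.exp (Real.log (Z k c) / k) * ((1 + 1 / k) * Z k c - Z k c / k * 1)
      ≤ Z k (T k V c) := by
    have h1 : ∫ y : E, Real.exp (Real.log (Z k c) / k) *
      ((1 + 1 / k) * Real.exp (-(phi k c y))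
        - Z k c / k * Real.exp (k * phi k (T k V c) y - (k + 1) * phi k c y))
        ≤ ∫ y, Real.exp (-(phi k (T k V c) y)) := by
      refine integral_mono ?_ hphiT.integrable_exp_neg hpt
      exact ((hphi.integrable_exp_neg.const_mul _).sub (hd1.const_mul _)).const_mul _
    rw [integral_const_mul, integral_sub (hphi.integrable_exp_neg.const_mul _)
      (hd1.const_mul _), integral_const_mul, integral_const_mul, hd2] at h1
    exact h1
  have h8 : Real.exp ((1 + 1 / k) * Real.log (Z k c)) ≤ Z k (T k V c) := by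
    refine le_trans (le_of_eq ?_) hint
    have : (1 + 1 / k) * Z k c - Z k c / k * 1 = Z k c := by
      field_simp
      ring
    rw [this]
    calc Real.exp ((1 + 1 / k) * Real.log (Z k c))
        = Real.exp (Real.log (Z k c) / k) * Real.exp (Real.log (Z k c)) := by
          rw [← Real.exp_add]
          congr 1
          ring
      _ = Real.exp (Real.log (Z k c) / k) * Z k c := by rw [Real.exp_log hZ]
  have := Real.log_le_log (Real.exp_pos _) h8
  rwa [Real.log_exp] at this

/-- Descent. -/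
theorem descent (hk : 0 < k) (hV : Gr αV βV AV BV V) (hV1 : ∫ x, Real.exp (-(V x)) = 1)
    (h : Gr α β A B c) :
    J k V (T k V c) ≤ J k V c - 1 / k * KL k V c := by
  have h1 := logZ_T hk hV hV1 h
  obtain ⟨α₂, β₂, A₂, B₂, hQ⟩ := h.Qk' hk
  have i1 := hV.integrable_self h
  have i2 := hV.integrable_self hQ
  have i3 := hV.integrable_self hV
  have e1 : ∫ x, T k V c x * Real.exp (-(V x)) = 1 / k * ((∫ x, V x * Real.exp (-(V x)))
      + ∫ x, Qk k c x * Real.exp (-(V x))) := by
    rw [← integral_add i3 i2, ← integral_const_mul]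
    refine integral_congr_ae (Filter.Eventually.of_forall fun x => ?_)
    show (V x + Qk k c x) / k * Real.exp (-(V x)) = _
    simp only
    ring
  have e2 : ∫ x, (k * c x - Qk k c x - V x) * Real.exp (-(V x)) =
      k * (∫ x, c x * Real.exp (-(V x))) - (∫ x, Qk k c x * Real.exp (-(V x)))
        - ∫ x, V x * Real.exp (-(V x)) := by
    have s1 : ∫ x, (k * (c x * Real.exp (-(V x))) - Qk k c x * Real.exp (-(V x))) =
        k * (∫ x, c x * Real.exp (-(V x))) - ∫ x, Qk k c x * Real.exp (-(V x)) := by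
      rw [integral_sub (i1.const_mul k) i2, integral_const_mul]
    have s2 : ∫ x, ((k * (c x * Real.exp (-(V x))) - Qk k c x * Real.exp (-(V x)))
        - V x * Real.exp (-(V x))) =
        (∫ x, (k * (c x * Real.exp (-(V x))) - Qk k c x * Real.exp (-(V x))))
          - ∫ x, V x * Real.exp (-(V x)) := integral_sub ((i1.const_mul k).sub i2) i3
    rw [← s1, ← s2]
    refine integral_congr_ae (Filter.Eventually.of_forall fun x => ?_)
    simp only
    ring
  unfold J KL
  rw [e1, e2]
  have e3 : 1 / k * (k * (∫ x, c x * Real.exp (-(V x)))) = ∫ x, c x * Real.exp (-(V x)) := by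
    field_simp
  nlinarith [h1, e3]

/-- Lower bound of `J`. -/
theorem J_ge (hk : 0 < k) (ha : 0 < a) (hb : 0 < b) (hV : Gr αV βV AV BV V)
    (hV1 : ∫ x, Real.exp (-(V x)) = 1) (h : Qg a b c) :
    Real.log (gau E (k * b)) / k - Real.log (gau E ((k * b)⁻¹ * k)) ≤ J k V c := by
  have hg := h.gr ha hb
  have hphi := hg.phi hk
  have h1 : Z k c ≤ Real.exp (-((Real.log (gau E (k * b)) - k * c 0) / k))
      * gau E ((k * b)⁻¹ * k) := hphi.integral_exp_neg_le
  have hp : 0 < gau E ((k * b)⁻¹ * k) := gau_pos (by positivity)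
  have h2 := Real.log_le_log (Z_pos hk hg) h1
  rw [Real.log_mul (Real.exp_pos _).ne' hp.ne', Real.log_exp] at h2
  have h3 : c 0 ≤ ∫ x, c x * Real.exp (-(V x)) := by
    have : ∫ x, c 0 * Real.exp (-(V x)) ≤ ∫ x, c x * Real.exp (-(V x)) := by
      refine integral_mono (hV.integrable_exp_neg.const_mul _) (hV.integrable_self hg) fun x => ?_
      refine mul_le_mul_of_nonneg_right ?_ (Real.exp_pos _).le
      have := h.lo x
      have : 0 ≤ a / 2 * ‖x‖ ^ 2 := by positivity
      linarith [h.lo x]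
    rwa [integral_const_mul, hV1, mul_one] at this
  unfold J
  have e : -((Real.log (gau E (k * b)) - k * c 0) / k) = c 0 - Real.log (gau E (k * b)) / k := by
    field_simp
    ring
  rw [e] at h2
  linarith

/-- Approximate solutions at level `k`. -/
theorem exists_KL_le (hk : 0 < k) (ha : 0 < a) (hb : 0 < b) (hV : Gr αV βV AV BV V)
    (hV1 : ∫ x, Real.exp (-(V x)) = 1) (K : Set (E → ℝ)) (hne : K.Nonempty)
    (hT : ∀ c ∈ K, T k V c ∈ K) (hQ : ∀ c ∈ K, Qg a b c) (ε : ℝ) (hε : 0 < ε) :
    ∃ c ∈ K, KL k V c ≤ ε := by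
  by_contra hcon
  push Not at hcon
  obtain ⟨c₀, hc₀⟩ := hne
  set C := Real.log (gau E (k * b)) / k - Real.log (gau E ((k * b)⁻¹ * k)) with hC
  have key : ∀ n : ℕ, ∃ c ∈ K, J k V c ≤ J k V c₀ - n * (ε / k) := by
    intro n
    induction n with
    | zero => exact ⟨c₀, hc₀, by simp⟩
    | succ n ih =>
      obtain ⟨c, hc, hJ⟩ := ih
      refine ⟨T k V c, hT c hc, ?_⟩
      have h1 := descent hk hV hV1 ((hQ c hc).gr ha hb)
      have h2 := hcon c hc
      have h3 : ε / k ≤ 1 / k * KL k V c := by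
        rw [one_div, div_eq_inv_mul]
        exact mul_le_mul_of_nonneg_left h2.le (inv_nonneg.2 hk.le)
      push_cast
      linarith
  obtain ⟨n, hn⟩ := exists_nat_gt ((J k V c₀ - C) / (ε / k))
  obtain ⟨c, hc, hJ⟩ := key n
  have h1 := J_ge hk ha hb hV hV1 (hQ c hc)
  rw [div_lt_iff₀ (by positivity)] at hn
  linarith

end descent

end Vale.Agent.P227.M.Desc
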