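import Vale.Agent.P227.M.LK.Descent

/-!
P254/P227, block LK, centred (non even) case: the descent at level `k` modulo affine functions.
-/

open MeasureTheory Real
open scoped RealInnerProductSpace

namespace Vale.Agent.P227.M.Desc

variable {E : Type*} [NormedAddCommGroup E] [InnerProductSpace ℝ E] [FiniteDimensional ℝ E]
  [MeasurableSpace E] [BorelSpace E]

variable {k a b : ℝ} {c V : E → ℝ} {αV βV AV BV α β A B : ℝ}

/-- Adding an affine function to `c` translates `φ_c`. -/
lemma phi_affine (hk : 0 < k) (h : Gr α β A B c) (l : E) (s : ℝ) (y : E) :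
    phi k (fun x => c x - ⟪x, l⟫ - s) y = phi k c (y + l) + s := by
  have hkne := hk.ne'
  have hu := h.const_mul hk
  have hpos := hu.integral_pos (k • (y + l))
  have e : ∫ x, Real.exp (⟪x, k • y⟫ - k * (c x - ⟪x, l⟫ - s)) =
      Real.exp (k * s) * ∫ x, Real.exp (⟪x, k • (y + l)⟫ - k * c x) := by
    rw [← integral_const_mul]
    refine integral_congr_ae (Filter.Eventually.of_forall fun x => ?_)
    show Real.exp (⟪x, k • y⟫ - k * (c x - ⟪x, l⟫ - s)) =
      Real.exp (k * s) * Real.exp (⟪x, k • (y + l)⟫ - k * c x)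
    rw [← Real.exp_add, real_inner_smul_right, real_inner_smul_right, inner_add_right]
    congr 1
    ring
  unfold phi Lam
  rw [e, Real.log_mul (Real.exp_pos _).ne' hpos.ne', Real.log_exp]
  field_simp
  ring

/-- The value of `Z`. -/
lemma Z_affine (hk : 0 < k) (h : Gr α β A B c) (l : E) (s : ℝ) :
    Z k (fun x => c x - ⟪x, l⟫ - s) = Real.exp (-s) * Z k c := by
  unfold Z
  rw [← integral_add_right_eq_self (fun y => Real.exp (-(phi k c y))) l, ← integral_const_mul]
  refine integral_congr_ae (Filter.Eventually.of_forall fun y => ?_)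
  show Real.exp (-(phi k (fun x => c x - ⟪x, l⟫ - s) y)) = Real.exp (-s) * Real.exp (-(phi k c (y + l)))
  rw [phi_affine hk h, ← Real.exp_add]
  congr 1
  ring

/-- The value of `Q`. -/
lemma Qk_affine (hk : 0 < k) (h : Gr α β A B c) (l : E) (s : ℝ) (x : E) :
    Qk k (fun x => c x - ⟪x, l⟫ - s) x = Qk k c x - k * ⟪x, l⟫ - (k + 1) * s := by
  have hw := (h.phi hk).const_mul (by positivity : 0 < k + 1)
  have hpos := hw.integral_pos (k • x)
  have e : ∫ y, Real.exp (⟪y, k • x⟫ - (k + 1) * phi k (fun x => c x - ⟪x, l⟫ - s) y) =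
      Real.exp (- k * ⟪x, l⟫ - (k + 1) * s) *
        ∫ y, Real.exp (⟪y, k • x⟫ - (k + 1) * phi k c y) := by
    rw [← integral_add_right_eq_self (fun y => Real.exp (⟪y, k • x⟫ - (k + 1) * phi k c y)) l,
      ← integral_const_mul]
    refine integral_congr_ae (Filter.Eventually.of_forall fun y => ?_)
    show Real.exp (⟪y, k • x⟫ - (k + 1) * phi k (fun x => c x - ⟪x, l⟫ - s) y) =
      Real.exp (- k * ⟪x, l⟫ - (k + 1) * s) * Real.exp (⟪y + l, k • x⟫ - (k + 1) * phi k c (y + l))
    rw [phi_affine hk h, ← Real.exp_add, inner_add_left, real_inner_smul_right,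
      real_inner_smul_right, real_inner_comm x l]
    congr 1
    ring
  unfold Qk Lam
  rw [e, Real.log_mul (Real.exp_pos _).ne' hpos.ne', Real.log_exp]
  ring

/-- `T c` has quadratic growth. -/
lemma Gr.T (hk : 0 < k) (hV : Gr αV βV AV BV V) (h : Gr α β A B c) :
    ∃ α' β' A' B', Gr α' β' A' B' (Desc.T k V c) := by
  obtain ⟨α₂, β₂, A₂, B₂, hQ⟩ := h.Qk' hk
  have eT0 : Desc.T k V c = fun y => k⁻¹ * (V y + Qk k c y) := by
    funext x
    unfold Desc.T
    rw [div_eq_inv_mul]
  have hT := (hV.add hQ).const_mul (inv_pos.2 hk)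
  rw [← eT0] at hT
  exact ⟨_, _, _, _, hT⟩

/-- `J` is invariant under adding affine functions, for centred `V`. -/
lemma J_affine (hk : 0 < k) (hV : Gr αV βV AV BV V) (hV1 : ∫ x, Real.exp (-(V x)) = 1)
    (hVc : ∀ l : E, ∫ x, ⟪x, l⟫ * Real.exp (-(V x)) = 0) (h : Gr α β A B c) (l : E) (s : ℝ) :
    J k V (fun x => c x - ⟪x, l⟫ - s) = J k V c := by
  have i1 := hV.integrable_self h
  have i2 : Integrable (fun x : E => ⟪x, l⟫ * Real.exp (-(V x))) := by
    refine hV.integrable_mul (K := ‖l‖ + 1) (by fun_prop) fun x => ?_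
    have h1 := abs_real_inner_le_norm x l
    have h2 : ‖x‖ ≤ 1 + ‖x‖ ^ 2 := by nlinarith [sq_nonneg (‖x‖ - 1), norm_nonneg x]
    have h3 := norm_nonneg l
    have h4 := norm_nonneg x
    nlinarith [mul_le_mul_of_nonneg_right h2 h3]
  have i3 := hV.integrable_exp_neg
  have e1 : ∫ x, (c x - ⟪x, l⟫ - s) * Real.exp (-(V x)) =
      (∫ x, c x * Real.exp (-(V x))) - s := by
    have s1 : ∫ x, ((c x * Real.exp (-(V x)) - ⟪x, l⟫ * Real.exp (-(V x)))
        - s * Real.exp (-(V x))) =
        (∫ x, (c x * Real.exp (-(V x)) - ⟪x, l⟫ * Real.exp (-(V x))))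
          - ∫ x, s * Real.exp (-(V x)) := integral_sub (i1.sub i2) (i3.const_mul s)
    have s2 : ∫ x, (c x * Real.exp (-(V x)) - ⟪x, l⟫ * Real.exp (-(V x))) =
        (∫ x, c x * Real.exp (-(V x))) - ∫ x, ⟪x, l⟫ * Real.exp (-(V x)) := integral_sub i1 i2
    rw [s2, hVc l, integral_const_mul, hV1] at s1
    rw [show (∫ x, c x * Real.exp (-(V x))) - s = (∫ x, c x * Real.exp (-(V x))) - 0 - s * 1 by ring,
      ← s1]
    refine integral_congr_ae (Filter.Eventually.of_forall fun x => ?_)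
    simp only
    ring
  unfold J
  rw [e1, Z_affine hk h, Real.log_mul (Real.exp_pos _).ne' (Z_pos hk h).ne', Real.log_exp]
  ring

/-- `KL` is invariant under adding affine functions. -/
lemma KL_affine (hk : 0 < k) (hV : Gr αV βV AV BV V) (hV1 : ∫ x, Real.exp (-(V x)) = 1)
    (h : Gr α β A B c) (l : E) (s : ℝ) :
    KL k V (fun x => c x - ⟪x, l⟫ - s) = KL k V c := by
  obtain ⟨α₂, β₂, A₂, B₂, hQ⟩ := h.Qk' hk
  have i1 := hV.integrable_self h
  have i2 := hV.integrable_self hQ
  have i3 := hV.integrable_self hV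
  have i0 := hV.integrable_exp_neg
  unfold KL
  rw [Z_affine hk h, Real.log_mul (Real.exp_pos _).ne' (Z_pos hk h).ne', Real.log_exp]
  have i4 : Integrable (fun x => (k * c x - Qk k c x - V x) * Real.exp (-(V x))) := by
    refine (((i1.const_mul k).sub i2).sub i3).congr (Filter.Eventually.of_forall fun x => ?_)
    show k * (c x * Real.exp (-(V x))) - Qk k c x * Real.exp (-(V x)) - V x * Real.exp (-(V x)) = _
    ring
  have e : ∫ x, (k * (c x - ⟪x, l⟫ - s) - Qk k (fun x => c x - ⟪x, l⟫ - s) x - V x)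
      * Real.exp (-(V x)) = (∫ x, (k * c x - Qk k c x - V x) * Real.exp (-(V x))) + s := by
    have s1 : ∫ x, ((k * c x - Qk k c x - V x) * Real.exp (-(V x)) + s * Real.exp (-(V x))) =
        (∫ x, (k * c x - Qk k c x - V x) * Real.exp (-(V x))) + ∫ x, s * Real.exp (-(V x)) :=
      integral_add i4 (i0.const_mul s)
    rw [integral_const_mul, hV1, mul_one] at s1
    rw [← s1]
    refine integral_congr_ae (Filter.Eventually.of_forall fun x => ?_)
    show (k * (c x - ⟪x, l⟫ - s) - Qk k (fun x => c x - ⟪x, l⟫ - s) x - V x)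
      * Real.exp (-(V x)) = (k * c x - Qk k c x - V x) * Real.exp (-(V x)) + s * Real.exp (-(V x))
    rw [Qk_affine hk h]
    ring
  rw [e]
  ring

/-- Approximate solutions at level `k`, centred case: the class is invariant under the level-`k`
map only modulo affine functions. -/
theorem exists_KL_le_affine (hk : 0 < k) (ha : 0 < a) (hb : 0 < b) (hV : Gr αV βV AV BV V)
    (hV1 : ∫ x, Real.exp (-(V x)) = 1)
    (hVc : ∀ l : E, ∫ x, ⟪x, l⟫ * Real.exp (-(V x)) = 0) (K : Set (E → ℝ)) (hne : K.Nonempty)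
    (hT : ∀ c ∈ K, ∃ (l : E) (s : ℝ), (fun x => T k V c x - ⟪x, l⟫ - s) ∈ K)
    (hQ : ∀ c ∈ K, Qg a b c) (ε : ℝ) (hε : 0 < ε) :
    ∃ c ∈ K, KL k V c ≤ ε := by
  by_contra hcon
  push Not at hcon
  obtain ⟨c₀, hc₀⟩ := hne
  set C := Real.log (gau E (k * b)) / k - Real.log (gau E ((k * b)⁻¹ * k)) with hC
  have key : ∀ n : ℕ, ∃ c ∈ K, J k V c ≤ J k V c₀ - n * (ε / k) := by
    intro n
    induction n with
    | zero => exact ⟨c₀, hc₀, by simp⟩
    | succ n ih =>
      obtain ⟨c, hc, hJ⟩ := ih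
      obtain ⟨l, s, hls⟩ := hT c hc
      refine ⟨_, hls, ?_⟩
      have hg := (hQ c hc).gr ha hb
      obtain ⟨α', β', A', B', hTg⟩ := Gr.T hk hV hg
      have h1 := descent hk hV hV1 hg
      have h2 := hcon c hc
      have h3 : ε / k ≤ 1 / k * KL k V c := by
        rw [one_div, div_eq_inv_mul]
        exact mul_le_mul_of_nonneg_left h2.le (inv_nonneg.2 hk.le)
      rw [J_affine hk hV hV1 hVc hTg]
      push_cast
      linarith
  obtain ⟨n, hn⟩ := exists_nat_gt ((J k V c₀ - C) / (ε / k))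
  obtain ⟨c, hc, hJ⟩ := key n
  have h1 := J_ge hk ha hb hV hV1 (hQ c hc)
  rw [div_lt_iff₀ (by positivity)] at hn
  linarith

end Vale.Agent.P227.M.Desc
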