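import Vale.Agent.P227.M.LK.HbE

/-! The level `k` map keeps the class of even functions with Hessian bounds. -/

open MeasureTheory Set Real
open scoped ENNReal RealInnerProductSpace

namespace Vale.Agent.P227.M.LKHB

variable {n : ℕ}

/-- even functions with `a ≤ D²w ≤ b` (as convexity statements) -/
structure HB (a b : ℝ) (w : En n → ℝ) : Prop where
  even : ∀ x, w (-x) = w x
  lower : ConvexOn ℝ univ (fun x => w x - a / 2 * ‖x‖ ^ 2)
  upper : ConvexOn ℝ univ (fun x => b / 2 * ‖x‖ ^ 2 - w x)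

/-- `φ_c (y) = (1/k) log ∫ exp (k ⟪x, y⟫ - k c x) dx` -/
noncomputable def phiK (k : ℝ) (c : En n → ℝ) (y : En n) : ℝ :=
  (1 / k) * Real.log (∫ x : En n, Real.exp (k * ⟪x, y⟫ - k * c x))

/-- `Q (x) = log ∫ exp (k ⟪x, y⟫ - (k + 1) φ y) dy` -/
noncomputable def QK (k : ℝ) (phi : En n → ℝ) (x : En n) : ℝ :=
  Real.log (∫ y : En n, Real.exp (k * ⟪x, y⟫ - (k + 1) * phi y))

/-- the level `k` map -/
noncomputable def TK (V : En n → ℝ) (k : ℝ) (c : En n → ℝ) (x : En n) : ℝ :=
  (V x + QK k (phiK k c) x) / k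

theorem phiK_eq (k : ℝ) (c : En n → ℝ) (y : En n) :
    phiK k c y = (1 / k) * lapE k (fun x => k * c x) y := rfl

theorem QK_eq (k : ℝ) (phi : En n → ℝ) (x : En n) :
    QK k phi x = lapE k (fun y => (k + 1) * phi y) x := by
  unfold QK
  rw [lapE_apply]
  congr 1
  refine integral_congr_ae (ae_of_all _ fun y => ?_)
  change Real.exp (k * ⟪x, y⟫ - (k + 1) * phi y) = Real.exp (k * ⟪y, x⟫ - (k + 1) * phi y)
  rw [real_inner_comm]

theorem HB.smul {a b s : ℝ} (hs : 0 ≤ s) {w : En n → ℝ} (h : HB a b w) :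
    HB (s * a) (s * b) (fun x => s * w x) := by
  refine ⟨fun x => by rw [h.even], ?_, ?_⟩
  · refine (h.lower.smul hs).congr fun x _ => ?_
    simp only [smul_eq_mul]
    ring
  · refine (h.upper.smul hs).congr fun x _ => ?_
    simp only [smul_eq_mul]
    ring

theorem HB.add {a b a' b' : ℝ} {w w' : En n → ℝ} (h : HB a b w) (h' : HB a' b' w') :
    HB (a + a') (b + b') (fun x => w x + w' x) := by
  refine ⟨fun x => by rw [h.even, h'.even], ?_, ?_⟩
  · refine (h.lower.add h'.lower).congr fun x _ => ?_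
    simp only [Pi.add_apply]
    ring
  · refine (h.upper.add h'.upper).congr fun x _ => ?_
    simp only [Pi.add_apply]
    ring

theorem HB.add_const {a b : ℝ} {w : En n → ℝ} (h : HB a b w) (s : ℝ) :
    HB a b (fun x => w x + s) := by
  refine ⟨fun x => by rw [h.even], ?_, ?_⟩
  · refine (h.lower.add_const s).congr fun x _ => ?_
    simp only [Pi.add_apply]
    ring
  · refine (h.upper.add_const (-s)).congr fun x _ => ?_
    simp only [Pi.add_apply]
    ring

theorem HB.continuous {a b : ℝ} {w : En n → ℝ} (h : HB a b w) : Continuous w :=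
  continuousE h.lower

theorem HB.integrable {κ a b : ℝ} (ha : 0 < a) {w : En n → ℝ} (h : HB a b w) (y : En n) :
    Integrable (fun x : En n => Real.exp (κ * ⟪x, y⟫ - w x)) :=
  lapE_integrable ha h.lower h.even y

/-- the log-Laplace transform reverses the bounds -/
theorem HB.lapE {κ a b : ℝ} (ha : 0 < a) (hb : 0 < b) {w : En n → ℝ} (h : HB a b w) :
    HB (κ ^ 2 / b) (κ ^ 2 / a) (lapE κ w) :=
  ⟨lapE_even h.even, lapE_lower ha hb h.lower h.even h.upper, lapE_upper ha h.lower h.even⟩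

theorem HB.congr_bounds {a b a' b' : ℝ} {w : En n → ℝ} (h : HB a b w) (ha : a = a')
    (hb : b = b') : HB a' b' w := ha ▸ hb ▸ h

/-- `1/b ≤ D²φ_c ≤ 1/a` -/
theorem phiK_HB {k a b : ℝ} (hk : 0 < k) (ha : 0 < a) (hb : 0 < b) {c : En n → ℝ}
    (h : HB a b c) : HB (1 / b) (1 / a) (phiK k c) := by
  have h1 := ((h.smul hk.le).lapE (κ := k) (mul_pos hk ha) (mul_pos hk hb)).smul
    (one_div_nonneg.2 hk.le)
  refine h1.congr_bounds ?_ ?_
  · field_simp
  · field_simp

/-- `k² a / (k + 1) ≤ D²Q ≤ k² b / (k + 1)` -/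
theorem QK_HB {k a b : ℝ} (hk : 0 < k) (ha : 0 < a) (hb : 0 < b) {c : En n → ℝ}
    (h : HB a b c) : HB (k ^ 2 * a / (k + 1)) (k ^ 2 * b / (k + 1)) (QK k (phiK k c)) := by
  have hk1 : 0 < k + 1 := by linarith
  have h1 := ((phiK_HB hk ha hb h).smul hk1.le).lapE (κ := k)
    (mul_pos hk1 (one_div_pos.2 hb)) (mul_pos hk1 (one_div_pos.2 ha))
  have h2 : QK k (phiK k c) = LKHB.lapE k (fun y => (k + 1) * phiK k c y) := by
    funext x
    exact QK_eq k _ x
  rw [h2]
  refine h1.congr_bounds ?_ ?_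
  · field_simp
  · field_simp

/-- the level `k` map keeps the bounds -/
theorem TK_HB {k c0 C0 : ℝ} (hk : 0 < k) (hc0 : 0 < c0) (hC0 : 0 < C0) {V c : En n → ℝ}
    (hV : HB c0 C0 V) (h : HB ((k + 1) * c0 / k) ((k + 1) * C0 / k) c) :
    HB ((k + 1) * c0 / k) ((k + 1) * C0 / k) (TK V k c) := by
  have hk1 : 0 < k + 1 := by linarith
  have ha : 0 < (k + 1) * c0 / k := div_pos (mul_pos hk1 hc0) hk
  have hb : 0 < (k + 1) * C0 / k := div_pos (mul_pos hk1 hC0) hk
  have h1 := (hV.add (QK_HB hk ha hb h)).smul (one_div_nonneg.2 hk.le)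
  have h2 : TK V k c = fun x => 1 / k * (V x + QK k (phiK k c) x) := by
    funext x
    unfold TK
    ring
  rw [h2]
  refine h1.congr_bounds ?_ ?_
  · field_simp
    ring
  · field_simp
    ring

/-- the normalised class -/
def Cls (a b : ℝ) : Set (En n → ℝ) := {c | HB a b c ∧ c 0 = 0}

theorem TK_mem {k c0 C0 : ℝ} (hk : 0 < k) (hc0 : 0 < c0) (hC0 : 0 < C0) {V c : En n → ℝ}
    (hV : HB c0 C0 V) (h : c ∈ Cls (n := n) ((k + 1) * c0 / k) ((k + 1) * C0 / k)) :
    (fun x => TK V k c x - TK V k c 0) ∈ Cls (n := n) ((k + 1) * c0 / k) ((k + 1) * C0 / k) := by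
  refine ⟨?_, sub_self _⟩
  have h1 := (TK_HB hk hc0 hC0 hV h.1).add_const (-TK V k c 0)
  refine ⟨fun x => ?_, h1.lower.congr fun x _ => ?_, h1.upper.congr fun x _ => ?_⟩
  · have := h1.even x
    simpa [sub_eq_add_neg] using this
  · ring
  · ring

/-- pinching of the normalised class -/
theorem Cls.bounds {a b : ℝ} {c : En n → ℝ} (h : c ∈ Cls (n := n) a b) (x : En n) :
    a / 2 * ‖x‖ ^ 2 ≤ c x ∧ c x ≤ b / 2 * ‖x‖ ^ 2 := by
  have h1 := lowerE h.1.lower h.1.even x
  have h2 := upperE h.1.upper h.1.even x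
  rw [h.2] at h1 h2
  exact ⟨by linarith, by linarith⟩

/-- the class is closed under pointwise limits -/
theorem Cls.closed {a b : ℝ} {ι : Type*} {l : Filter ι} [l.NeBot] {f : ι → En n → ℝ}
    {c : En n → ℝ} (hf : ∀ i, f i ∈ Cls (n := n) a b)
    (hlim : ∀ x, Filter.Tendsto (fun i => f i x) l (nhds (c x))) : c ∈ Cls (n := n) a b := by
  refine ⟨⟨fun x => ?_, ?_, ?_⟩, ?_⟩
  · refine tendsto_nhds_unique (hlim (-x)) ?_
    refine (hlim x).congr fun i => ?_
    rw [(hf i).1.even]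
  · refine ⟨convex_univ, fun x _ y _ s t hs ht hst => ?_⟩
    refine le_of_tendsto_of_tendsto' ((hlim _).sub_const _)
      ((((hlim x).sub_const _).const_mul s).add (((hlim y).sub_const _).const_mul t)) fun i => ?_
    have h := (hf i).1.lower.2 (mem_univ x) (mem_univ y) hs ht hst
    simpa only [smul_eq_mul] using h
  · refine ⟨convex_univ, fun x _ y _ s t hs ht hst => ?_⟩
    refine le_of_tendsto_of_tendsto' ((hlim _).const_sub _)
      ((((hlim x).const_sub _).const_mul s).add (((hlim y).const_sub _).const_mul t)) fun i => ?_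
    have h := (hf i).1.upper.2 (mem_univ x) (mem_univ y) hs ht hst
    simpa only [smul_eq_mul] using h
  · refine tendsto_nhds_unique (hlim 0) ?_
    refine tendsto_const_nhds.congr fun i => ?_
    rw [(hf i).2]

end Vale.Agent.P227.M.LKHB
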