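import Vale.Agent.P227.M.Stmts
import Vale.Agent.P227.M.LK.Line

/-! # P227/M, block LK: invariance of the class under the level-`k` map -/

open MeasureTheory
open scoped Topology ContDiff

namespace Vale.Agent.P227.M.LK.Inv

open Vale.Agent.P227.M.LK

variable {n : ℕ}

theorem qf_eq_iter {W : E n → ℝ} (hW : ContDiff ℝ (⊤ : ℕ∞) W) (x v : E n) :
    qf (hess W x) v = iteratedFDeriv ℝ 2 W x (fun _ => v) := by
  rw [← iteratedDeriv_line_zero hW, iteratedDeriv_two_line hW]

theorem iter_add {V W : E n → ℝ} (hV : ContDiff ℝ (⊤ : ℕ∞) V) (hW : ContDiff ℝ (⊤ : ℕ∞) W)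
    (i : ℕ) (x : E n) :
    iteratedFDeriv ℝ i (fun x => V x + W x) x = iteratedFDeriv ℝ i V x + iteratedFDeriv ℝ i W x := by
  have hi : (i : WithTop ℕ∞) ≤ (⊤ : ℕ∞) := by exact_mod_cast le_top
  exact iteratedFDeriv_add_apply (hV.of_le hi).contDiffAt (hW.of_le hi).contDiffAt

theorem iter_add_const {V : E n → ℝ} (hV : ContDiff ℝ (⊤ : ℕ∞) V) (a : ℝ)
    {i : ℕ} (hi : 2 ≤ i) (x : E n) :
    iteratedFDeriv ℝ i (fun x => V x + a) x = iteratedFDeriv ℝ i V x := by
  rw [iter_add hV contDiff_const]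
  rw [iteratedFDeriv_const_of_ne (by omega)]
  simp

theorem qf_add {V W : E n → ℝ} (hV : ContDiff ℝ (⊤ : ℕ∞) V) (hW : ContDiff ℝ (⊤ : ℕ∞) W)
    (x v : E n) : qf (hess (fun x => V x + W x) x) v = qf (hess V x) v + qf (hess W x) v := by
  rw [qf_eq_iter (hV.add hW), qf_eq_iter hV, qf_eq_iter hW, iter_add hV hW]
  rfl

theorem qf_add_const {V : E n → ℝ} (hV : ContDiff ℝ (⊤ : ℕ∞) V) (a : ℝ)
    (x v : E n) : qf (hess (fun x => V x + a) x) v = qf (hess V x) v := by
  rw [qf_eq_iter (hV.add contDiff_const), qf_eq_iter hV, iter_add_const hV a le_rfl]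

theorem reg_add {V W : E n → ℝ} {c C c' C' : ℝ} (hV : Reg V c C) (hW : Reg W c' C') :
    Reg (fun x => V x + W x) (c + c') (C + C') where
  c_pos := add_pos hV.c_pos hW.c_pos
  smooth := hV.smooth.add hW.smooth
  lower x v := by
    rw [qf_add hV.smooth hW.smooth, add_mul]
    exact add_le_add (hV.lower x v) (hW.lower x v)
  upper x v := by
    rw [qf_add hV.smooth hW.smooth, add_mul]
    exact add_le_add (hV.upper x v) (hW.upper x v)
  bdd k hk := by
    obtain ⟨B, hB⟩ := hV.bdd k hk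
    obtain ⟨B', hB'⟩ := hW.bdd k hk
    refine ⟨B + B', fun x => ?_⟩
    rw [iter_add hV.smooth hW.smooth]
    exact (norm_add_le _ _).trans (add_le_add (hB x) (hB' x))

theorem reg_add_const {V : E n → ℝ} {c C : ℝ} (hV : Reg V c C) (a : ℝ) :
    Reg (fun x => V x + a) c C where
  c_pos := hV.c_pos
  smooth := hV.smooth.add contDiff_const
  lower x v := by
    rw [qf_add_const hV.smooth]
    exact hV.lower x v
  upper x v := by
    rw [qf_add_const hV.smooth]
    exact hV.upper x v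
  bdd k hk := by
    obtain ⟨B, hB⟩ := hV.bdd k hk
    exact ⟨B, fun x => by rw [iter_add_const hV.smooth a hk]; exact hB x⟩

theorem reg_mul {V : E n → ℝ} {c C : ℝ} (hV : Reg V c C) {a : ℝ} (ha : 0 < a) :
    Reg (fun x => a * V x) (a * c) (a * C) := by
  have h := Reg.scale hV ha one_ne_zero
  simpa using h

theorem sc_mul {V : E n → ℝ} {c C κ : ℝ} (hV : Reg V c C) (hs : SelfConc κ V) {a : ℝ}
    (ha : 0 < a) : SelfConc (κ / √a) (fun x => a * V x) := by
  have h := SelfConc.scale hV hs ha one_ne_zero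
  simpa using h

theorem logLap_even {W : E n → ℝ} (hW : ∀ x, W (-x) = W x) (y : E n) :
    logLap W (-y) = logLap W y := by
  unfold logLap
  congr 1
  rw [← integral_neg_eq_self (fun x => Real.exp (inner ℝ x y - W x))]
  refine integral_congr_ae (Filter.Eventually.of_forall fun x => ?_)
  show Real.exp (inner ℝ x (-y) - W x) = Real.exp (inner ℝ (-x) y - W (-x))
  rw [hW x, inner_neg_right, inner_neg_left]

theorem real_ineq {kV m k c C N a b A3 B3 : ℝ} (hkV : 0 ≤ kV) (hk : 0 < k) (hc : 0 < c)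
    (hC : 0 ≤ C) (hm : m = kV * √(C / c)) (hN : 0 ≤ N) (ha : 0 ≤ a) (hb : 0 ≤ b)
    (haC : a ≤ C * N ^ 2) (hbc : k * c * N ^ 2 ≤ b) (h1 : |A3| ≤ 2 * kV * √a ^ 3)
    (h2 : |B3| ≤ 2 * (m / √(k + 1)) * √b ^ 3) :
    |1 / k * (A3 + B3)| ≤ 2 * m * √(1 / k * (a + b)) ^ 3 := by
  have hm0 : 0 ≤ m := by rw [hm]; positivity
  have hs0 : 0 < √k := Real.sqrt_pos.2 hk
  have hs2 : √k ^ 2 = k := Real.sq_sqrt hk.le
  have hp2 : √a ^ 2 = a := Real.sq_sqrt ha
  have hq2 : √b ^ 2 = b := Real.sq_sqrt hb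
  have hp0 := Real.sqrt_nonneg a
  have hq0 := Real.sqrt_nonneg b
  have hr0 := Real.sqrt_nonneg (a + b)
  have hr2 : √(a + b) ^ 2 = a + b := Real.sq_sqrt (by positivity)
  have hrq : √b ≤ √(a + b) := Real.sqrt_le_sqrt (by linarith)
  -- `√k kV √a ≤ m √b`
  have h3 : √k * kV * √a ≤ m * √b := by
    have e1 : √a ≤ √C * N := by
      have : √(C * N ^ 2) = √C * N := by rw [Real.sqrt_mul hC, Real.sqrt_sq hN]
      rw [← this]; exact Real.sqrt_le_sqrt haC
    have e2 : √k * √c * N ≤ √b := by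
      have : √(k * c * N ^ 2) = √k * √c * N := by
        rw [Real.sqrt_mul (by positivity), Real.sqrt_mul hk.le, Real.sqrt_sq hN]
      rw [← this]; exact Real.sqrt_le_sqrt hbc
    have hc' : 0 < √c := Real.sqrt_pos.2 hc
    calc √k * kV * √a ≤ √k * kV * (√C * N) := by gcongr
      _ = m * (√k * √c * N) := by
        rw [hm, Real.sqrt_div hC]
        field_simp
      _ ≤ m * √b := by gcongr
  have h4 : √k * (m / √(k + 1)) ≤ m := by
    have h41 : √k ≤ √(k + 1) := Real.sqrt_le_sqrt (by linarith)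
    have h42 : 0 < √(k + 1) := Real.sqrt_pos.2 (by linarith)
    rw [mul_div_assoc', div_le_iff₀ h42, mul_comm]
    exact mul_le_mul_of_nonneg_left h41 hm0
  have e3 : √(1 / k * (a + b)) = √(a + b) / √k := by
    rw [one_div_mul_eq_div, Real.sqrt_div (by positivity)]
  rw [e3, abs_mul, abs_of_pos (by positivity : 0 < 1 / k), div_pow]
  have h5 : |A3 + B3| ≤ 2 * kV * √a ^ 3 + 2 * (m / √(k + 1)) * √b ^ 3 :=
    (abs_add_le _ _).trans (add_le_add h1 h2)
  have h6 : √k * (kV * √a ^ 3 + (m / √(k + 1)) * √b ^ 3) ≤ m * √(a + b) ^ 3 := by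
    calc √k * (kV * √a ^ 3 + (m / √(k + 1)) * √b ^ 3)
        = (√k * kV * √a) * √a ^ 2 + (√k * (m / √(k + 1))) * √b ^ 3 := by ring
      _ ≤ (m * √b) * √a ^ 2 + m * √b ^ 3 := by gcongr
      _ = m * √b * (√a ^ 2 + √b ^ 2) := by ring
      _ ≤ m * √(a + b) * (√a ^ 2 + √b ^ 2) := by gcongr
      _ = m * √(a + b) ^ 3 := by
        have h7 : √(a + b) ^ 3 = √(a + b) * (a + b) := by rw [pow_succ, hr2, mul_comm]
        rw [hp2, hq2, h7]
        ring
  have hs3 : √k ^ 3 = k * √k := by rw [pow_succ, hs2]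
  rw [hs3, mul_div_assoc', le_div_iff₀ (by positivity)]
  calc 1 / k * |A3 + B3| * (k * √k) = √k * |A3 + B3| := by field_simp
    _ ≤ √k * (2 * kV * √a ^ 3 + 2 * (m / √(k + 1)) * √b ^ 3) := by gcongr
    _ = 2 * (√k * (kV * √a ^ 3 + (m / √(k + 1)) * √b ^ 3)) := by ring
    _ ≤ 2 * (m * √(a + b) ^ 3) := by gcongr
    _ = _ := by ring

/-- Invariance of the class: `f` in the class of level `k` gives `φ_f` (bounds and
self-concordance) and `T(f)` in the class. -/
theorem inv_TK (hSC : StmtSC)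
    (hLL : ∀ (n : ℕ) (W : E n → ℝ) (c C : ℝ), 0 < C → Reg W c C → Reg (logLap W) C⁻¹ c⁻¹)
    {V : E n → ℝ} {c C kV k m : ℝ} (hV : Nice V c C) (hC : 0 < C) (hkV : 0 ≤ kV)
    (hsV : SelfConc kV V) (hk : 1 ≤ k) (hm : m = kV * √(C / c)) (hmk : m ^ 2 ≤ k)
    {f : E n → ℝ} (hf : Nice f (c * (k + 1) / k) (C * (k + 1) / k)) (hs : SelfConc m f) :
    Nice (phiK k f) (k / (C * (k + 1))) (k / (c * (k + 1))) ∧ SelfConc m (phiK k f) ∧
      Nice (QK k f) (k * c) (k * C) ∧ SelfConc (m / √(k + 1)) (QK k f) ∧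
      ClassK k c C m (TK k V f) := by
  have hk0 : 0 < k := by linarith
  have hk1 : 0 < k + 1 := by linarith
  have hc : 0 < c := hV.c_pos
  have hm0 : 0 ≤ m := by rw [hm]; positivity
  have hsk : 0 < √k := Real.sqrt_pos.2 hk0
  have hsk1 : 0 < √(k + 1) := Real.sqrt_pos.2 hk1
  have hm1 : m ≤ √k := Real.le_sqrt_of_sq_le hmk
  have hm2 : m ≤ √(k + 1) := hm1.trans (Real.sqrt_le_sqrt (by linarith))
  -- step 1
  have r1 : Reg (fun x => k * f x) (k * (c * (k + 1) / k)) (k * (C * (k + 1) / k)) :=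
    reg_mul hf.toReg hk0
  have s1 : SelfConc (m / √k) (fun x => k * f x) := sc_mul hf.toReg hs hk0
  have r2 := hLL n _ _ _ (by positivity) r1
  have s2 := hSC n _ _ _ _ r1 (by positivity) ((div_le_one hsk).2 hm1) s1
  have r3 := Reg.scale r2 (α := 1 / k) (β := k) (by positivity) hk0.ne'
  have s3 := SelfConc.scale r2 s2 (α := 1 / k) (β := k) (by positivity) hk0.ne'
  have e1 : 1 / k * k ^ 2 * (k * (C * (k + 1) / k))⁻¹ = k / (C * (k + 1)) := by field_simp
  have e2 : 1 / k * k ^ 2 * (k * (c * (k + 1) / k))⁻¹ = k / (c * (k + 1)) := by field_simp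
  have e3 : m / √k / √(1 / k) = m := by
    rw [Real.sqrt_div zero_le_one, Real.sqrt_one]
    field_simp
  have rphi : Reg (phiK k f) (k / (C * (k + 1))) (k / (c * (k + 1))) := by
    rw [e1, e2] at r3
    exact r3
  have sphi : SelfConc m (phiK k f) := by
    rw [e3] at s3
    exact s3
  have evphi : ∀ y, phiK k f (-y) = phiK k f y := by
    intro y
    unfold phiK
    rw [smul_neg, logLap_even (fun x => by rw [hf.even])]
  -- step 2
  have r4 : Reg (fun y => (k + 1) * phiK k f y) ((k + 1) * (k / (C * (k + 1))))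
      ((k + 1) * (k / (c * (k + 1)))) := reg_mul rphi hk1
  have s4 : SelfConc (m / √(k + 1)) (fun y => (k + 1) * phiK k f y) := sc_mul rphi sphi hk1
  have r5 := hLL n _ _ _ (by positivity) r4
  have s5 := hSC n _ _ _ _ r4 (by positivity) ((div_le_one hsk1).2 hm2) s4
  have r6 := Reg.scale r5 (α := 1) (β := k) one_pos hk0.ne'
  have s6 := SelfConc.scale r5 s5 (α := 1) (β := k) one_pos hk0.ne'
  have e4 : 1 * k ^ 2 * ((k + 1) * (k / (c * (k + 1))))⁻¹ = k * c := by field_simp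
  have e5 : 1 * k ^ 2 * ((k + 1) * (k / (C * (k + 1))))⁻¹ = k * C := by field_simp
  have eQ : QK k f = fun x => 1 * logLap (fun y => (k + 1) * phiK k f y) (k • x) := by
    funext x
    unfold QK
    rw [one_mul]
  have rQ : Reg (QK k f) (k * c) (k * C) := by
    rw [e4, e5] at r6
    rw [eQ]
    exact r6
  have sQ : SelfConc (m / √(k + 1)) (QK k f) := by
    rw [Real.sqrt_one, div_one] at s6
    rw [eQ]
    exact s6
  have evQ : ∀ x, QK k f (-x) = QK k f x := by
    intro x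
    unfold QK
    rw [smul_neg, logLap_even (fun y => by rw [evphi])]
  -- step 3
  have eT : TK k V f = fun x => 1 / k * (V x + QK k f x) + (-((V 0 + QK k f 0) / k)) := by
    funext x
    unfold TK
    ring
  have rU := reg_add hV.toReg rQ
  have rU' := reg_mul rU (a := 1 / k) (by positivity)
  have rT := reg_add_const rU' (-((V 0 + QK k f 0) / k))
  have e6 : 1 / k * (c + k * c) = c * (k + 1) / k := by field_simp; ring
  have e7 : 1 / k * (C + k * C) = C * (k + 1) / k := by field_simp; ring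
  have rT' : Reg (TK k V f) (c * (k + 1) / k) (C * (k + 1) / k) := by
    rw [eT]
    rw [e6, e7] at rT
    exact rT
  have evT : ∀ x, TK k V f (-x) = TK k V f x := by
    intro x
    unfold TK
    rw [hV.even, evQ]
  refine ⟨⟨rphi, evphi⟩, sphi, ⟨rQ, evQ⟩, sQ, ⟨⟨rT', evT⟩, ?_, ?_⟩⟩
  · rw [selfConc_iff rT'.smooth (qf_nonneg_of_reg rT')]
    rw [selfConc_iff hV.smooth (qf_nonneg_of_reg hV.toReg)] at hsV
    rw [selfConc_iff rQ.smooth (qf_nonneg_of_reg rQ)] at sQ
    intro x v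
    have h3 : iteratedFDeriv ℝ 3 (TK k V f) x (fun _ => v) =
        1 / k * (iteratedFDeriv ℝ 3 V x (fun _ => v) +
          iteratedFDeriv ℝ 3 (QK k f) x (fun _ => v)) := by
      rw [eT, iter_add_const rU'.smooth _ (by norm_num)]
      have := iteratedFDeriv_scale rU.smooth (1 / k) 1 3 x (fun _ => v)
      simp only [one_smul, one_pow, mul_one] at this
      rw [this, iter_add hV.smooth rQ.smooth]
      rfl
    have h2 : qf (hess (TK k V f) x) v = 1 / k * (qf (hess V x) v + qf (hess (QK k f) x) v) := by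
      rw [eT, qf_add_const rU'.smooth]
      have := qf_scale rU.smooth (1 / k) 1 x v
      simp only [one_smul, one_pow, mul_one] at this
      rw [this, qf_add hV.smooth rQ.smooth]
    rw [h3, h2]
    exact real_ineq hkV hk0 hc hC.le hm (norm_nonneg v) (qf_nonneg_of_reg hV.toReg x v)
      (qf_nonneg_of_reg rQ x v) (hV.upper x v) (rQ.lower x v) (hsV x v) (sQ x v)
  · unfold TK
    ring

end Vale.Agent.P227.M.LK.Inv
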