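import Vale.Agent.P227.M.LK.Rules687

/-! P227/M/LK: rules for `Reg` and `SelfConc` (multiples, dilations, sums) and the level-`k` maps
`phiK`, `QK`, `TK`; the class `Cls` is invariant under `TK` (given `StmtSC` and regularity of `logLap`). -/

open MeasureTheory
open scoped Topology

namespace Vale.Agent.P227.M.LK687

variable {n : ℕ}

theorem r32 {x : ℝ} (hx : 0 ≤ x) : x ^ ((3 : ℝ) / 2) = x * Real.sqrt x := by
  rcases hx.eq_or_lt with h | h
  · rw [← h, zero_mul, Real.zero_rpow (by norm_num)]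
  · rw [Real.sqrt_eq_rpow, show (3 : ℝ) / 2 = 1 + 1 / 2 by norm_num, Real.rpow_add h, Real.rpow_one]

theorem line_mul (W : E n → ℝ) (l : ℝ) (x v : E n) (m : ℕ) :
    iteratedDeriv m (fun t : ℝ => l * W (x + t • v)) 0 =
      l * iteratedDeriv m (fun t : ℝ => W (x + t • v)) 0 :=
  iteratedDeriv_const_mul_field l (fun t : ℝ => W (x + t • v))

theorem line_add {V W : E n → ℝ} (hV : ContDiff ℝ (⊤ : ℕ∞) V) (hW : ContDiff ℝ (⊤ : ℕ∞) W)
    (x v : E n) (m : ℕ) :
    iteratedDeriv m (fun t : ℝ => V (x + t • v) + W (x + t • v)) 0 =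
      iteratedDeriv m (fun t : ℝ => V (x + t • v)) 0 +
        iteratedDeriv m (fun t : ℝ => W (x + t • v)) 0 :=
  iteratedDeriv_fun_add
    (((contDiff_line hV x v).of_le (by exact_mod_cast le_top)).contDiffAt)
    (((contDiff_line hW x v).of_le (by exact_mod_cast le_top)).contDiffAt)

theorem line_dil (W : E n → ℝ) (k : ℝ) (x v : E n) :
    (fun t : ℝ => W (k • (x + t • v))) = fun t : ℝ => W (k • x + t • (k • v)) := by
  funext t
  rw [smul_add, smul_comm k t v]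

theorem lower' {W : E n → ℝ} {c C : ℝ} (h : Reg W c C) (x v : E n) :
    c * ‖v‖ ^ 2 ≤ iteratedDeriv 2 (fun t : ℝ => W (x + t • v)) 0 := by
  rw [iteratedDeriv_two_line h.smooth]; exact h.lower x v

theorem upper' {W : E n → ℝ} {c C : ℝ} (h : Reg W c C) (x v : E n) :
    iteratedDeriv 2 (fun t : ℝ => W (x + t • v)) 0 ≤ C * ‖v‖ ^ 2 := by
  rw [iteratedDeriv_two_line h.smooth]; exact h.upper x v

theorem nonneg' {W : E n → ℝ} {c C : ℝ} (h : Reg W c C) (x v : E n) :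
    0 ≤ iteratedDeriv 2 (fun t : ℝ => W (x + t • v)) 0 :=
  (mul_nonneg h.c_pos.le (sq_nonneg _)).trans (lower' h x v)

theorem reg_mul {W : E n → ℝ} {c C l : ℝ} (h : Reg W c C) (hl : 0 < l) :
    Reg (fun x => l * W x) (l * c) (l * C) where
  c_pos := mul_pos hl h.c_pos
  smooth := contDiff_const.mul h.smooth
  lower x v := by
    rw [← iteratedDeriv_two_line (contDiff_const.mul h.smooth) x v, line_mul, mul_assoc]
    exact mul_le_mul_of_nonneg_left (lower' h x v) hl.le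
  upper x v := by
    rw [← iteratedDeriv_two_line (contDiff_const.mul h.smooth) x v, line_mul, mul_assoc]
    exact mul_le_mul_of_nonneg_left (upper' h x v) hl.le
  bdd k hk := by
    obtain ⟨B, hB⟩ := h.bdd k hk
    refine ⟨l * B, fun x => ?_⟩
    have hk' : ContDiff ℝ k W := h.smooth.of_le (by exact_mod_cast le_top)
    have h1 : iteratedFDeriv ℝ k (fun x => l * W x) x = l • iteratedFDeriv ℝ k W x := by
      have := iteratedFDeriv_const_smul_apply' (a := l) (f := W) (i := k) (x := x) hk'.contDiffAt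
      simpa only [smul_eq_mul] using this
    rw [h1, norm_smul, Real.norm_of_nonneg hl.le]
    exact mul_le_mul_of_nonneg_left (hB x) hl.le

theorem contDiff_dil {W : E n → ℝ} (h : ContDiff ℝ (⊤ : ℕ∞) W) (k : ℝ) :
    ContDiff ℝ (⊤ : ℕ∞) (fun x => W (k • x)) :=
  h.comp (contDiff_const_smul k)

theorem reg_dil {W : E n → ℝ} {c C k : ℝ} (h : Reg W c C) (hk : 0 < k) :
    Reg (fun x => W (k • x)) (k ^ 2 * c) (k ^ 2 * C) where
  c_pos := mul_pos (by positivity) h.c_pos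
  smooth := contDiff_dil h.smooth k
  lower x v := by
    rw [← iteratedDeriv_two_line (contDiff_dil h.smooth k) x v, line_dil]
    refine le_trans (le_of_eq ?_) (lower' h (k • x) (k • v))
    rw [norm_smul, Real.norm_of_nonneg hk.le]; ring
  upper x v := by
    rw [← iteratedDeriv_two_line (contDiff_dil h.smooth k) x v, line_dil]
    refine (upper' h (k • x) (k • v)).trans (le_of_eq ?_)
    rw [norm_smul, Real.norm_of_nonneg hk.le]; ring
  bdd m hm := by
    obtain ⟨B, hB⟩ := h.bdd m hm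
    refine ⟨B * ∏ _i : Fin m, ‖k • ContinuousLinearMap.id ℝ (E n)‖, fun x => ?_⟩
    have h1 := (k • ContinuousLinearMap.id ℝ (E n)).iteratedFDeriv_comp_right (f := W)
      (h.smooth.of_le (m := ((m : ℕ) : WithTop ℕ∞)) (by exact_mod_cast le_top)) x (i := m) le_rfl
    have h2 : (fun x => W (k • x)) = W ∘ (k • ContinuousLinearMap.id ℝ (E n)) := rfl
    rw [h2, h1]
    refine (ContinuousMultilinearMap.norm_compContinuousLinearMap_le _ _).trans ?_
    exact mul_le_mul_of_nonneg_right (hB _) (Finset.prod_nonneg fun _ _ => norm_nonneg _)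

theorem reg_add {V W : E n → ℝ} {c C c' C' : ℝ} (hV : Reg V c C) (hW : Reg W c' C') :
    Reg (fun x => V x + W x) (c + c') (C + C') where
  c_pos := add_pos hV.c_pos hW.c_pos
  smooth := hV.smooth.add hW.smooth
  lower x v := by
    rw [← iteratedDeriv_two_line (hV.smooth.add hW.smooth) x v, line_add hV.smooth hW.smooth,
      add_mul]
    exact add_le_add (lower' hV x v) (lower' hW x v)
  upper x v := by
    rw [← iteratedDeriv_two_line (hV.smooth.add hW.smooth) x v, line_add hV.smooth hW.smooth,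
      add_mul]
    exact add_le_add (upper' hV x v) (upper' hW x v)
  bdd k hk := by
    obtain ⟨B, hB⟩ := hV.bdd k hk
    obtain ⟨B', hB'⟩ := hW.bdd k hk
    refine ⟨B + B', fun x => ?_⟩
    have h1 : iteratedFDeriv ℝ k (fun x => V x + W x) x =
        iteratedFDeriv ℝ k V x + iteratedFDeriv ℝ k W x :=
      fun_iteratedFDeriv_add_apply ((hV.smooth.of_le (by exact_mod_cast le_top)).contDiffAt)
        ((hW.smooth.of_le (by exact_mod_cast le_top)).contDiffAt)
    rw [h1]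
    exact (norm_add_le _ _).trans (add_le_add (hB x) (hB' x))

theorem reg_weaken {W : E n → ℝ} {c C c' C' : ℝ} (h : Reg W c C) (hc' : 0 < c') (h1 : c' ≤ c)
    (h2 : C ≤ C') : Reg W c' C' where
  c_pos := hc'
  smooth := h.smooth
  lower x v := (mul_le_mul_of_nonneg_right h1 (sq_nonneg _)).trans (h.lower x v)
  upper x v := (h.upper x v).trans (mul_le_mul_of_nonneg_right h2 (sq_nonneg _))
  bdd := h.bdd

/-! self-concordance -/

theorem sc_mul {W : E n → ℝ} {c C l κ : ℝ} (h : Reg W c C) (hs : SelfConc κ W) (hl : 0 < l) :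
    SelfConc (κ / Real.sqrt l) (fun x => l * W x) := by
  intro x v
  rw [line_mul, line_mul, abs_mul, abs_of_pos hl, Real.mul_rpow hl.le (nonneg' h x v), r32 hl.le]
  have h1 := mul_le_mul_of_nonneg_left (hs x v) hl.le
  refine h1.trans (le_of_eq ?_)
  have h2 : Real.sqrt l ≠ 0 := (Real.sqrt_pos.2 hl).ne'
  field_simp

theorem sc_dil {W : E n → ℝ} {κ : ℝ} (hs : SelfConc κ W) (k : ℝ) :
    SelfConc κ (fun x => W (k • x)) := by
  intro x v
  rw [line_dil]
  exact hs (k • x) (k • v)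

theorem sc_mono {W : E n → ℝ} {c C κ κ' : ℝ} (h : Reg W c C) (hs : SelfConc κ W) (hk : κ ≤ κ') :
    SelfConc κ' W := by
  intro x v
  refine (hs x v).trans ?_
  have := Real.rpow_nonneg (nonneg' h x v) ((3 : ℝ) / 2)
  gcongr

theorem add_r32 {A B : ℝ} (hA : 0 ≤ A) (hB : 0 ≤ B) :
    B * Real.sqrt B + 3 / 2 * (A * Real.sqrt B) ≤ (A + B) * Real.sqrt (A + B) := by
  have hs : 0 ≤ Real.sqrt (A + B) := Real.sqrt_nonneg _
  have hr : 0 ≤ Real.sqrt B := Real.sqrt_nonneg _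
  have h1 : Real.sqrt (A + B) ^ 2 = A + B := Real.sq_sqrt (add_nonneg hA hB)
  have h2 : Real.sqrt B ^ 2 = B := Real.sq_sqrt hB
  set s := Real.sqrt (A + B)
  set r := Real.sqrt B
  have h3 : A = s ^ 2 - r ^ 2 := by rw [h1, h2]; ring
  have h4 : B = r ^ 2 := h2.symm
  have h5 : (A + B) * s - (B * r + 3 / 2 * (A * r)) = (s - r) ^ 2 * (s + r / 2) := by
    rw [h3, h4]; ring
  have h6 : 0 ≤ (s - r) ^ 2 * (s + r / 2) := by positivity
  linarith

theorem sc_add {V W : E n → ℝ} {c0 C0 q0 q1 M κ μ : ℝ} (hV : Reg V c0 C0) (hW : Reg W q0 q1)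
    (hM : 0 ≤ M) (hsV : SelfConc M V) (hsW : SelfConc κ W) (hκ : κ ≤ μ) (hμ : 0 ≤ μ)
    (hm : M * Real.sqrt C0 ≤ 3 / 2 * μ * Real.sqrt q0) :
    SelfConc μ (fun x => V x + W x) := by
  intro x v
  rw [line_add hV.smooth hW.smooth, line_add hV.smooth hW.smooth]
  have hA := nonneg' hV x v
  have hB := nonneg' hW x v
  have hA1 := upper' hV x v
  have hB1 := lower' hW x v
  have e1 := hsV x v
  have e2 := hsW x v
  rw [r32 hA] at e1
  rw [r32 hB] at e2
  rw [r32 (add_nonneg hA hB)]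
  set A := iteratedDeriv 2 (fun t : ℝ => V (x + t • v)) 0
  set B := iteratedDeriv 2 (fun t : ℝ => W (x + t • v)) 0
  have h1 := add_r32 hA hB
  have hC0 : 0 ≤ C0 * ‖v‖ ^ 2 := hA.trans hA1
  -- `M √A ≤ (3/2) μ √B`
  have h2 : M * Real.sqrt A ≤ 3 / 2 * μ * Real.sqrt B := by
    have s1 : Real.sqrt A ≤ Real.sqrt C0 * ‖v‖ := by
      refine (Real.sqrt_le_sqrt hA1).trans (le_of_eq ?_)
      rw [mul_comm C0, Real.sqrt_mul (sq_nonneg _), Real.sqrt_sq (norm_nonneg _), mul_comm]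
    have s2 : Real.sqrt q0 * ‖v‖ ≤ Real.sqrt B := by
      refine (le_of_eq ?_).trans (Real.sqrt_le_sqrt hB1)
      rw [mul_comm q0, Real.sqrt_mul (sq_nonneg _), Real.sqrt_sq (norm_nonneg _), mul_comm]
    calc M * Real.sqrt A ≤ M * (Real.sqrt C0 * ‖v‖) := mul_le_mul_of_nonneg_left s1 hM
      _ = (M * Real.sqrt C0) * ‖v‖ := by ring
      _ ≤ (3 / 2 * μ * Real.sqrt q0) * ‖v‖ := mul_le_mul_of_nonneg_right hm (norm_nonneg _)
      _ = 3 / 2 * μ * (Real.sqrt q0 * ‖v‖) := by ring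
      _ ≤ 3 / 2 * μ * Real.sqrt B := mul_le_mul_of_nonneg_left s2 (by positivity)
  have h3 : 2 * M * (A * Real.sqrt A) ≤ 2 * μ * (3 / 2 * (A * Real.sqrt B)) := by
    have := mul_le_mul_of_nonneg_left h2 hA
    nlinarith
  have h4 : 2 * κ * (B * Real.sqrt B) ≤ 2 * μ * (B * Real.sqrt B) := by
    have : 0 ≤ B * Real.sqrt B := mul_nonneg hB (Real.sqrt_nonneg _)
    gcongr
  have h5 : 2 * μ * (B * Real.sqrt B + 3 / 2 * (A * Real.sqrt B)) ≤
      2 * μ * ((A + B) * Real.sqrt (A + B)) := mul_le_mul_of_nonneg_left h1 (by positivity)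
  calc |_ + _| ≤ _ := abs_add_le _ _
    _ ≤ 2 * M * (A * Real.sqrt A) + 2 * κ * (B * Real.sqrt B) := add_le_add e1 e2
    _ ≤ 2 * μ * ((A + B) * Real.sqrt (A + B)) := by linarith

/-- every regular potential is self-concordant with some constant -/
theorem sc_exists {V : E n → ℝ} {c C : ℝ} (h : Reg V c C) : ∃ M : ℝ, 0 ≤ M ∧ SelfConc M V := by
  obtain ⟨B, hB⟩ := h.bdd 3 (by norm_num)
  have hB0 : 0 ≤ B := (norm_nonneg _).trans (hB 0)
  have hc := h.c_pos
  have hsc : 0 < Real.sqrt c := Real.sqrt_pos.2 hc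
  refine ⟨B / (2 * (c * Real.sqrt c)), by positivity, fun x v => ?_⟩
  have h1 := abs_iteratedDeriv_line_le h.smooth x v 3 (hB x)
  have h2 := lower' h x v
  have hA := nonneg' h x v
  rw [r32 hA]
  set A := iteratedDeriv 2 (fun t : ℝ => V (x + t • v)) 0
  have s1 : Real.sqrt c * ‖v‖ ≤ Real.sqrt A := by
    refine (le_of_eq ?_).trans (Real.sqrt_le_sqrt h2)
    rw [mul_comm c, Real.sqrt_mul (sq_nonneg _), Real.sqrt_sq (norm_nonneg _), mul_comm]
  have s2 : (c * Real.sqrt c) * ‖v‖ ^ 3 ≤ A * Real.sqrt A := by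
    calc (c * Real.sqrt c) * ‖v‖ ^ 3 = (c * ‖v‖ ^ 2) * (Real.sqrt c * ‖v‖) := by ring
      _ ≤ A * Real.sqrt A := mul_le_mul h2 s1 (by positivity) hA
  refine h1.trans ?_
  have h3 : B * ‖v‖ ^ 3 = 2 * (B / (2 * (c * Real.sqrt c))) * ((c * Real.sqrt c) * ‖v‖ ^ 3) := by
    field_simp
  rw [h3]
  exact mul_le_mul_of_nonneg_left s2 (by positivity)

/-! the level-`k` maps -/

theorem logLap_even {W : E n → ℝ} (h : ∀ x, W (-x) = W x) (y : E n) :
    logLap W (-y) = logLap W y := by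
  unfold logLap
  congr 1
  rw [← integral_neg_eq_self]
  refine integral_congr_ae (Filter.Eventually.of_forall fun x => ?_)
  simp only [inner_neg_neg, h]

/-- `φ_c y = (1/k) log ∫ exp (k⟨x,y⟩ - k c x) dx` -/
noncomputable def phiK (k : ℝ) (c : E n → ℝ) (y : E n) : ℝ :=
  k⁻¹ * logLap (fun x => k * c x) (k • y)

/-- `Q_c x = log ∫ exp (k⟨x,y⟩ - (k+1) φ_c y) dy` -/
noncomputable def QK (k : ℝ) (c : E n → ℝ) (x : E n) : ℝ :=
  logLap (fun y => (k + 1) * phiK k c y) (k • x)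

/-- `T c = (V + Q_c) / k` -/
noncomputable def TK (k : ℝ) (V c : E n → ℝ) (x : E n) : ℝ := k⁻¹ * (V x + QK k c x)

/-- the invariant class at level `k` -/
structure Cls (k m c0 C0 : ℝ) (c : E n → ℝ) : Prop where
  reg : Reg c (c0 * (k + 1) / k) (C0 * (k + 1) / k)
  even : ∀ x, c (-x) = c x
  sc : SelfConc (m / Real.sqrt k) (fun x => k * c x)

/-- regularity of the log-Laplace transform (block LL: `reg_logLap`) -/
def StmtReg : Prop := ∀ (n : ℕ) (W : E n → ℝ) (c C : ℝ), 0 < C → Reg W c C →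
  Reg (logLap W) C⁻¹ c⁻¹

theorem phiK_reg (hR : StmtReg) {k m c0 C0 : ℝ} (hk : 0 < k) (h0 : 0 < c0) (hC : 0 < C0)
    {c : E n → ℝ} (h : Cls k m c0 C0 c) :
    Reg (phiK k c) (C0 * (k + 1) / k)⁻¹ (c0 * (k + 1) / k)⁻¹ := by
  have h1 := reg_mul (reg_dil (hR n _ _ _ (by positivity) (reg_mul h.reg hk)) hk) (inv_pos.2 hk)
  have e1 : k⁻¹ * (k ^ 2 * (k * (C0 * (k + 1) / k))⁻¹) = (C0 * (k + 1) / k)⁻¹ := by
    have : k + 1 ≠ 0 := by positivity
    field_simp
  have e2 : k⁻¹ * (k ^ 2 * (k * (c0 * (k + 1) / k))⁻¹) = (c0 * (k + 1) / k)⁻¹ := by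
    have : k + 1 ≠ 0 := by positivity
    field_simp
  rw [e1, e2] at h1
  exact h1

theorem phiK_even {k m c0 C0 : ℝ} {c : E n → ℝ} (h : Cls k m c0 C0 c) (y : E n) :
    phiK k c (-y) = phiK k c y := by
  unfold phiK
  rw [smul_neg, logLap_even (fun x => by rw [h.even])]

theorem phiK_sc (hSC : StmtSC) (hR : StmtReg) {k m c0 C0 : ℝ} (hk : 0 < k) (hC : 0 < C0)
    (hm : 0 ≤ m) (hmk : m ^ 2 ≤ k) {c : E n → ℝ} (h : Cls k m c0 C0 c) : SelfConc m (phiK k c) := by
  have hsk : 0 < Real.sqrt k := Real.sqrt_pos.2 hk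
  have h1 : m / Real.sqrt k ≤ 1 := by
    rw [div_le_one hsk]; exact Real.le_sqrt_of_sq_le hmk
  have h2 := hSC n _ _ _ (m / Real.sqrt k) (reg_mul h.reg hk) (by positivity) h1 h.sc
  have h3 := sc_mul (reg_dil (hR n _ _ _ (by positivity) (reg_mul h.reg hk)) hk) (sc_dil h2 k) (inv_pos.2 hk)
  have e : m / Real.sqrt k / Real.sqrt k⁻¹ = m := by
    rw [Real.sqrt_inv]; field_simp
  rw [e] at h3
  exact h3

theorem QK_reg (hR : StmtReg) {k m c0 C0 : ℝ} (hk : 0 < k) (h0 : 0 < c0) (hC : 0 < C0)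
    {c : E n → ℝ} (h : Cls k m c0 C0 c) : Reg (QK k c) (k * c0) (k * C0) := by
  have hk1 : 0 < k + 1 := by positivity
  have h1 := reg_dil (hR n _ _ _ (by positivity) (reg_mul (phiK_reg hR hk h0 hC h) hk1)) hk
  have e1 : k ^ 2 * ((k + 1) * (c0 * (k + 1) / k)⁻¹)⁻¹ = k * c0 := by field_simp
  have e2 : k ^ 2 * ((k + 1) * (C0 * (k + 1) / k)⁻¹)⁻¹ = k * C0 := by field_simp
  rw [e1, e2] at h1
  exact h1

theorem QK_even {k m c0 C0 : ℝ} {c : E n → ℝ} (h : Cls k m c0 C0 c) (x : E n) :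
    QK k c (-x) = QK k c x := by
  unfold QK
  rw [smul_neg, logLap_even (fun y => by rw [phiK_even h])]

theorem QK_sc (hSC : StmtSC) (hR : StmtReg) {k m c0 C0 : ℝ} (hk : 0 < k) (h0 : 0 < c0)
    (hC : 0 < C0) (hm : 0 ≤ m) (hmk : m ^ 2 ≤ k) {c : E n → ℝ} (h : Cls k m c0 C0 c) :
    SelfConc (m / Real.sqrt (k + 1)) (QK k c) := by
  have hk1 : 0 < k + 1 := by positivity
  have hsk : 0 < Real.sqrt (k + 1) := Real.sqrt_pos.2 hk1
  have h1 : m / Real.sqrt (k + 1) ≤ 1 := by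
    rw [div_le_one hsk]; exact Real.le_sqrt_of_sq_le (by linarith)
  exact sc_dil (hSC n _ _ _ _ (reg_mul (phiK_reg hR hk h0 hC h) hk1) (by positivity) h1
    (sc_mul (phiK_reg hR hk h0 hC h) (phiK_sc hSC hR hk hC hm hmk h) hk1)) k

/-- **the class is invariant** -/
theorem cls_TK (hSC : StmtSC) (hR : StmtReg) {V : E n → ℝ} {c0 C0 : ℝ} (hV : Nice V c0 C0)
    {M m k : ℝ} (hM : 0 ≤ M) (hsV : SelfConc M V) (hk : 0 < k) (hm : 0 ≤ m) (hmk : m ^ 2 ≤ k)
    (hmM : M * Real.sqrt C0 ≤ 3 / 2 * m * Real.sqrt c0) (hC : 0 < C0)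
    {c : E n → ℝ} (h : Cls k m c0 C0 c) : Cls k m c0 C0 (TK k V c) := by
  have h0 := hV.c_pos
  have hsk : 0 < Real.sqrt k := Real.sqrt_pos.2 hk
  have hQ := QK_reg hR hk h0 hC h
  have hVQ := reg_add hV.toReg hQ
  refine ⟨?_, fun x => ?_, ?_⟩
  · have h1 := reg_mul hVQ (inv_pos.2 hk)
    have e1 : k⁻¹ * (c0 + k * c0) = c0 * (k + 1) / k := by field_simp; ring
    have e2 : k⁻¹ * (C0 + k * C0) = C0 * (k + 1) / k := by field_simp; ring
    rw [e1, e2] at h1
    exact h1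
  · unfold TK
    rw [hV.even, QK_even h]
  · have e : (fun x => k * TK k V c x) = fun x => V x + QK k c x := by
      funext x
      unfold TK
      rw [← mul_assoc, mul_inv_cancel₀ hk.ne', one_mul]
    rw [e]
    refine sc_add hV.toReg hQ hM hsV (QK_sc hSC hR hk h0 hC hm hmk h) ?_ (by positivity) ?_
    · exact div_le_div_of_nonneg_left hm hsk (Real.sqrt_le_sqrt (by linarith))
    · rw [Real.sqrt_mul hk.le]
      calc M * Real.sqrt C0 ≤ 3 / 2 * m * Real.sqrt c0 := hmM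
        _ = 3 / 2 * (m / Real.sqrt k) * (Real.sqrt k * Real.sqrt c0) := by field_simp

/-! the starting point and the packaged statement -/

theorem quad_line (a : ℝ) (x v : E n) :
    (fun t : ℝ => a / 2 * ‖x + t • v‖ ^ 2) =
      fun t => a / 2 * ‖x‖ ^ 2 + (a * inner ℝ x v) * t + (a / 2 * ‖v‖ ^ 2) * t ^ 2 := by
  funext t
  rw [norm_add_sq_real, norm_smul, mul_pow, Real.norm_eq_abs, sq_abs, inner_smul_right]
  ring

theorem quad_line_two (a : ℝ) (x v : E n) :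
    iteratedDeriv 2 (fun t : ℝ => a / 2 * ‖x + t • v‖ ^ 2) 0 = a * ‖v‖ ^ 2 := by
  have h1 : ∀ A B C : ℝ, deriv (fun t : ℝ => A + B * t + C * t ^ 2) = fun t => B + 2 * C * t := by
    intro A B C
    funext t
    have h := ((hasDerivAt_const t A).add ((hasDerivAt_id t).const_mul B)).add
      (((hasDerivAt_id t).pow 2).const_mul C)
    have h' := h.deriv
    simp only [id, Nat.cast_ofNat] at h'
    refine Eq.trans ?_ (h'.trans ?_)
    · rfl
    · ring
  have h2 : deriv (fun t : ℝ => a * inner ℝ x v + 2 * (a / 2 * ‖v‖ ^ 2) * t) =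
      fun _ => a * ‖v‖ ^ 2 := by
    funext t
    have h := ((hasDerivAt_id t).const_mul (2 * (a / 2 * ‖v‖ ^ 2))).const_add (a * inner ℝ x v)
    have h' := h.deriv
    refine Eq.trans ?_ (h'.trans ?_)
    · rfl
    · ring
  rw [quad_line, iteratedDeriv_succ, iteratedDeriv_one, h1, h2]

theorem quad_line_three (a : ℝ) (x v : E n) :
    iteratedDeriv 3 (fun t : ℝ => a / 2 * ‖x + t • v‖ ^ 2) 0 = 0 := by
  have h3 : iteratedDeriv 2 (fun t : ℝ => a / 2 * ‖x + t • v‖ ^ 2) = fun _ => a * ‖v‖ ^ 2 := by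
    funext s
    have h4 := quad_line_two a (x + s • v) v
    have h5 : (fun t : ℝ => a / 2 * ‖x + s • v + t • v‖ ^ 2) =
        fun t : ℝ => (fun r : ℝ => a / 2 * ‖x + r • v‖ ^ 2) (s + t) := by
      funext t; simp only [add_smul, add_assoc]
    rw [h5] at h4
    have h6 := congrFun (iteratedDeriv_comp_const_add 2 (fun r : ℝ => a / 2 * ‖x + r • v‖ ^ 2) s) 0
    rw [h4] at h6
    simpa using h6.symm
  rw [iteratedDeriv_succ, h3, deriv_const]

theorem quad_smooth (a : ℝ) : ContDiff ℝ (⊤ : ℕ∞) (fun x : E n => a / 2 * ‖x‖ ^ 2) :=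
  contDiff_const.mul (contDiff_norm_sq ℝ)

theorem quad_reg {a b : ℝ} (ha : 0 < a) (hb : ∀ v : E n, a * ‖v‖ ^ 2 ≤ b * ‖v‖ ^ 2) :
    Reg (fun x : E n => a / 2 * ‖x‖ ^ 2) a b where
  c_pos := ha
  smooth := quad_smooth a
  lower x v := by rw [← iteratedDeriv_two_line (quad_smooth a) x v, quad_line_two]
  upper x v := by rw [← iteratedDeriv_two_line (quad_smooth a) x v, quad_line_two]; exact hb v
  bdd k hk := by
    obtain ⟨j, rfl⟩ : ∃ j, k = j + 2 := ⟨k - 2, by omega⟩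
    have h1 : fderiv ℝ (fun x : E n => a / 2 * ‖x‖ ^ 2) = fun x => (a • innerSL ℝ (E := E n)) x := by
      funext x
      have h := (hasStrictFDerivAt_norm_sq x).hasFDerivAt.const_mul (a / 2)
      rw [h.fderiv]
      ext v
      simp [innerSL_apply_apply]
      ring
    have h2 : fderiv ℝ (fun x : E n => (a • innerSL ℝ (E := E n)) x) =
        fun _ => (a • innerSL ℝ (E := E n)) := by
      funext x; exact (a • innerSL ℝ (E := E n)).fderiv
    refine ⟨‖a • innerSL ℝ (E := E n)‖, fun x => ?_⟩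
    rw [← norm_iteratedFDeriv_fderiv, ← norm_iteratedFDeriv_fderiv, h1, h2]
    rcases Nat.eq_zero_or_pos j with rfl | hj
    · rw [norm_iteratedFDeriv_zero]
    · rw [iteratedFDeriv_const_of_ne hj.ne', Pi.zero_apply, norm_zero]
      exact norm_nonneg (a • innerSL ℝ (E := E n))

/-- the quadratic start is in the class -/
theorem cls_init {k m c0 C0 : ℝ} (hk : 0 < k) (hm : 0 ≤ m) (h0 : 0 < c0)
    (hcC : ∀ v : E n, c0 * ‖v‖ ^ 2 ≤ C0 * ‖v‖ ^ 2) :
    Cls k m c0 C0 (fun x : E n => c0 * (k + 1) / k / 2 * ‖x‖ ^ 2) := by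
  have hk1 : 0 < (k + 1) / k := by positivity
  have hr : Reg (fun x : E n => c0 * (k + 1) / k / 2 * ‖x‖ ^ 2) (c0 * (k + 1) / k)
      (C0 * (k + 1) / k) := by
    refine quad_reg (by positivity) fun v => ?_
    have h := mul_le_mul_of_nonneg_left (hcC v) hk1.le
    calc c0 * (k + 1) / k * ‖v‖ ^ 2 = (k + 1) / k * (c0 * ‖v‖ ^ 2) := by ring
      _ ≤ (k + 1) / k * (C0 * ‖v‖ ^ 2) := h
      _ = _ := by ring
  refine ⟨hr, fun x => by rw [norm_neg], fun x v => ?_⟩
  have h1 := nonneg' (reg_mul hr hk) x v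
  have h3 : iteratedDeriv 3 (fun t : ℝ => k * (c0 * (k + 1) / k / 2 * ‖x + t • v‖ ^ 2)) 0 = 0 := by
    rw [iteratedDeriv_const_mul_field k (fun t : ℝ => c0 * (k + 1) / k / 2 * ‖x + t • v‖ ^ 2),
      quad_line_three, mul_zero]
  refine le_trans (le_of_eq ?_) (mul_nonneg (mul_nonneg zero_le_two
    (div_nonneg hm (Real.sqrt_nonneg k))) (Real.rpow_nonneg h1 _))
  rw [h3, abs_zero]

/-- packaged: a constant `m` such that for every `k ≥ m²` the class is nonempty and invariant, and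
`phiK` of its members has the `C²` bounds and self-concordance constant `m`. -/
theorem level_k (hSC : StmtSC) (hR : StmtReg) {V : E n → ℝ} {c0 C0 : ℝ} (hV : Nice V c0 C0)
    (hC : 0 < C0) : ∃ m : ℝ, 0 ≤ m ∧ ∀ k : ℝ, 0 < k → m ^ 2 ≤ k →
      (∃ c, Cls k m c0 C0 (c : E n → ℝ)) ∧
      (∀ c : E n → ℝ, Cls k m c0 C0 c → Cls k m c0 C0 (TK k V c)) ∧
      (∀ c : E n → ℝ, Cls k m c0 C0 c →
        Reg (phiK k c) (C0 * (k + 1) / k)⁻¹ (c0 * (k + 1) / k)⁻¹ ∧
        (∀ y, phiK k c (-y) = phiK k c y) ∧ SelfConc m (phiK k c) ∧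
        Reg (QK k c) (k * c0) (k * C0)) := by
  obtain ⟨M, hM, hsV⟩ := sc_exists hV.toReg
  have h0 := hV.c_pos
  have hs0 : 0 < Real.sqrt c0 := Real.sqrt_pos.2 h0
  refine ⟨2 / 3 * M * Real.sqrt C0 / Real.sqrt c0, by positivity, fun k hk hmk => ?_⟩
  have hm : 0 ≤ 2 / 3 * M * Real.sqrt C0 / Real.sqrt c0 := by positivity
  refine ⟨⟨_, cls_init hk hm h0 fun v => ((hV.lower 0 v).trans (hV.upper 0 v))⟩,
    fun c h => ?_, fun c h => ⟨phiK_reg hR hk h0 hC h, phiK_even h,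
      phiK_sc hSC hR hk hC hm hmk h, QK_reg hR hk h0 hC h⟩⟩
  refine cls_TK hSC hR hV hM hsV hk hm hmk ?_ hC h
  refine le_of_eq ?_
  field_simp

end Vale.Agent.P227.M.LK687
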