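import Vale.Agent.P227.M.LK.Conv

/-! The log-Laplace transform `lap κ w y = log ∫ exp (κ x·y - w x) dx` and its two Hessian bounds. -/

open MeasureTheory Set Real
open scoped ENNReal

namespace Vale.Agent.P227.M.LKHB

variable {n : ℕ}

/-- `log ∫ exp (κ x·y - w x) dx` -/
noncomputable def lap (κ : ℝ) (w : (Fin n → ℝ) → ℝ) (y : Fin n → ℝ) : ℝ :=
  Real.log (∫ x : Fin n → ℝ, Real.exp (κ * ∑ i, x i * y i - w x))

theorem lap_apply (κ : ℝ) (w : (Fin n → ℝ) → ℝ) (y : Fin n → ℝ) :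
    lap κ w y = Real.log (∫ x : Fin n → ℝ, Real.exp (κ * ∑ i, x i * y i - w x)) := rfl

/-- Gaussian integrability with a linear term. -/
theorem integrable_gauss_lin {a : ℝ} (ha : 0 < a) (c : Fin n → ℝ) (d : ℝ) :
    Integrable (fun x : Fin n → ℝ => Real.exp (∑ i, c i * x i - a * ∑ i, x i ^ 2 + d)) := by
  have h := GaussianFourier.integrable_cexp_neg_mul_sum_add (ι := Fin n) (b := (a : ℂ))
    (by simpa using ha) (fun i => (c i : ℂ))
  have h2 := (h.norm).mul_const (Real.exp d)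
  refine h2.congr (ae_of_all _ fun x => ?_)
  change ‖Complex.exp (-(a : ℂ) * ∑ i, (x i : ℂ) ^ 2 + ∑ i, (c i : ℂ) * (x i : ℂ))‖ *
    Real.exp d = _
  rw [Complex.norm_exp, ← Real.exp_add]
  congr 1
  have h3 : (-(a : ℂ) * ∑ i, (x i : ℂ) ^ 2 + ∑ i, (c i : ℂ) * (x i : ℂ)) =
      ((-a * ∑ i, x i ^ 2 + ∑ i, c i * x i : ℝ) : ℂ) := by push_cast; ring
  rw [h3, Complex.ofReal_re]
  ring

/-- An even convex function is smallest at `0`. -/
theorem even_convex_min {E : Type*} [AddCommGroup E] [Module ℝ E] {u : E → ℝ}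
    (hu : ConvexOn ℝ univ u) (he : ∀ x, u (-x) = u x) (x : E) : u 0 ≤ u x := by
  have h := hu.2 (mem_univ x) (mem_univ (-x)) (by norm_num : (0 : ℝ) ≤ 1 / 2)
    (by norm_num : (0 : ℝ) ≤ 1 / 2) (by norm_num)
  rw [smul_neg, add_neg_cancel, he] at h
  simp only [smul_eq_mul] at h
  linarith

theorem even_sum_sq (x : Fin n → ℝ) : ∑ i, (-x) i ^ 2 = ∑ i, x i ^ 2 :=
  Finset.sum_congr rfl fun i _ => by rw [Pi.neg_apply, neg_sq]

theorem lower_of_convex {w : (Fin n → ℝ) → ℝ} {a : ℝ}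
    (hw : ConvexOn ℝ univ (fun x => w x - a / 2 * ∑ i, x i ^ 2)) (he : ∀ x, w (-x) = w x)
    (x : Fin n → ℝ) : w 0 + a / 2 * ∑ i, x i ^ 2 ≤ w x := by
  have h := even_convex_min hw (fun x => by rw [he, even_sum_sq]) x
  simp at h
  linarith

theorem upper_of_convex {w : (Fin n → ℝ) → ℝ} {b : ℝ}
    (hw : ConvexOn ℝ univ (fun x => b / 2 * ∑ i, x i ^ 2 - w x)) (he : ∀ x, w (-x) = w x)
    (x : Fin n → ℝ) : w x ≤ w 0 + b / 2 * ∑ i, x i ^ 2 := by
  have h := even_convex_min hw (fun x => by rw [he, even_sum_sq]) x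
  simp at h
  linarith

theorem convex_sq_sum {c : ℝ} (hc : 0 ≤ c) :
    ConvexOn ℝ univ (fun x : Fin n → ℝ => c * ∑ i, x i ^ 2) := by
  have h1 : ConvexOn ℝ univ (fun x : Fin n → ℝ => ∑ i, x i ^ 2) := by
    refine ⟨convex_univ, fun x _ y _ s t hs ht hst => ?_⟩
    simp only [smul_eq_mul, Pi.add_apply, Pi.smul_apply]
    rw [Finset.mul_sum, Finset.mul_sum, ← Finset.sum_add_distrib]
    refine Finset.sum_le_sum fun i _ => ?_
    have : t = 1 - s := by linarith
    subst this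
    nlinarith [mul_nonneg (mul_nonneg hs ht) (sq_nonneg (x i - y i))]
  exact h1.smul hc

theorem measurable_of_convex {w : (Fin n → ℝ) → ℝ} {a : ℝ}
    (hw : ConvexOn ℝ univ (fun x => w x - a / 2 * ∑ i, x i ^ 2)) : Continuous w := by
  have h1 : Continuous (fun x => w x - a / 2 * ∑ i, x i ^ 2) :=
    continuousOn_univ.1 (hw.continuousOn isOpen_univ)
  have h2 : Continuous (fun x : Fin n → ℝ => a / 2 * ∑ i, x i ^ 2) := by fun_prop
  refine (h1.add h2).congr fun x => ?_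
  change w x - a / 2 * ∑ i, x i ^ 2 + a / 2 * ∑ i, x i ^ 2 = w x
  ring

/-- Integrability of the exponential weight. -/
theorem lap_integrable {κ a : ℝ} (ha : 0 < a) {w : (Fin n → ℝ) → ℝ}
    (hw : ConvexOn ℝ univ (fun x => w x - a / 2 * ∑ i, x i ^ 2)) (he : ∀ x, w (-x) = w x)
    (y : Fin n → ℝ) :
    Integrable (fun x : Fin n → ℝ => Real.exp (κ * ∑ i, x i * y i - w x)) := by
  have hc : Continuous w := measurable_of_convex hw
  have h := integrable_gauss_lin (n := n) (half_pos ha) (fun i => κ * y i) (-w 0)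
  refine h.mono' ?_ (ae_of_all _ fun x => ?_)
  · exact (Real.continuous_exp.comp (by fun_prop)).aestronglyMeasurable
  · rw [Real.norm_eq_abs, abs_of_pos (Real.exp_pos _)]
    apply Real.exp_le_exp.2
    have h1 := lower_of_convex hw he x
    have h2 : ∑ i, κ * y i * x i = κ * ∑ i, x i * y i := by
      rw [Finset.mul_sum]
      exact Finset.sum_congr rfl fun i _ => by ring
    rw [h2]
    linarith

/-- `w ≥ a` (Hessians) gives `lap κ w ≤ κ² / a`. -/
theorem lap_upper {κ a : ℝ} (ha : 0 < a) {w : (Fin n → ℝ) → ℝ}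
    (hw : ConvexOn ℝ univ (fun x => w x - a / 2 * ∑ i, x i ^ 2)) (he : ∀ x, w (-x) = w x) :
    ConvexOn ℝ univ (fun y : Fin n → ℝ => κ ^ 2 / a / 2 * ∑ i, y i ^ 2 - lap κ w y) := by
  set F : (Fin n → ℝ) → (Fin n → ℝ) → ℝ := fun x y =>
    (w x - a / 2 * ∑ i, x i ^ 2) + a / 2 * ∑ i, (x i - κ / a * y i) ^ 2 with hF
  have hid : ∀ x y, κ * ∑ i, x i * y i - w x = κ ^ 2 / a / 2 * ∑ i, y i ^ 2 + -F x y := by
    intro x y
    have h1 : ∑ i, (x i - κ / a * y i) ^ 2 =
        ∑ i, x i ^ 2 - 2 * (κ / a) * ∑ i, x i * y i + (κ / a) ^ 2 * ∑ i, y i ^ 2 := by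
      rw [Finset.mul_sum, Finset.mul_sum, ← Finset.sum_sub_distrib, ← Finset.sum_add_distrib]
      exact Finset.sum_congr rfl fun i _ => by ring
    simp only [hF, h1]
    field_simp
    ring
  have hint : ∀ y, Integrable (fun x => Real.exp (-F x y)) := by
    intro y
    have h1 := (lap_integrable (κ := κ) ha hw he y).const_mul
      (Real.exp (-(κ ^ 2 / a / 2 * ∑ i, y i ^ 2)))
    refine h1.congr (ae_of_all _ fun x => ?_)
    change Real.exp _ * Real.exp (κ * ∑ i, x i * y i - w x) = _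
    rw [hid, ← Real.exp_add]
    congr 1
    ring
  have hconv : ConvexOn ℝ univ (fun p : (Fin n → ℝ) × (Fin n → ℝ) => F p.1 p.2) := by
    have h1 : ConvexOn ℝ univ (fun p : (Fin n → ℝ) × (Fin n → ℝ) =>
        w p.1 - a / 2 * ∑ i, p.1 i ^ 2) := by
      have := hw.comp_linearMap (LinearMap.fst ℝ (Fin n → ℝ) (Fin n → ℝ))
      exact this
    have h2 : ConvexOn ℝ univ (fun p : (Fin n → ℝ) × (Fin n → ℝ) =>
        a / 2 * ∑ i, (p.1 i - κ / a * p.2 i) ^ 2) := by
      have h3 := (convex_sq_sum (n := n) (half_pos ha).le).comp_linearMap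
        (LinearMap.fst ℝ (Fin n → ℝ) (Fin n → ℝ) - (κ / a) • LinearMap.snd ℝ (Fin n → ℝ) (Fin n → ℝ))
      exact h3
    exact h1.add h2
  have hP := prekopa_convex F hconv hint
  refine hP.congr fun y _ => ?_
  have hpos : 0 < ∫ x, Real.exp (-F x y) := integral_exp_pos (hint y)
  rw [lap_apply]
  simp only [hid, Real.exp_add]
  rw [integral_const_mul, Real.log_mul (Real.exp_pos _).ne' hpos.ne', Real.log_exp]
  ring

/-- `w ≤ b` (Hessians) gives `lap κ w ≥ κ² / b`. -/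
theorem lap_lower {κ a b : ℝ} (ha : 0 < a) (hb : 0 < b) {w : (Fin n → ℝ) → ℝ}
    (hw : ConvexOn ℝ univ (fun x => w x - a / 2 * ∑ i, x i ^ 2)) (he : ∀ x, w (-x) = w x)
    (hwb : ConvexOn ℝ univ (fun x => b / 2 * ∑ i, x i ^ 2 - w x)) :
    ConvexOn ℝ univ (fun y : Fin n → ℝ => lap κ w y - κ ^ 2 / b / 2 * ∑ i, y i ^ 2) := by
  set G : (Fin n → ℝ) → (Fin n → ℝ) → ℝ := fun z y =>
    (b / 2 * ∑ i, (z i + κ / b * y i) ^ 2 - w (z + (κ / b) • y)) - b / 2 * ∑ i, z i ^ 2 with hG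
  have hid : ∀ z y, κ * ∑ i, (z + (κ / b) • y) i * y i - w (z + (κ / b) • y) =
      κ ^ 2 / b / 2 * ∑ i, y i ^ 2 + G z y := by
    intro z y
    have h1 : ∑ i, (z i + κ / b * y i) ^ 2 =
        ∑ i, z i ^ 2 + 2 * (κ / b) * ∑ i, z i * y i + (κ / b) ^ 2 * ∑ i, y i ^ 2 := by
      rw [Finset.mul_sum, Finset.mul_sum, ← Finset.sum_add_distrib, ← Finset.sum_add_distrib]
      exact Finset.sum_congr rfl fun i _ => by ring
    have h2 : ∑ i, (z + (κ / b) • y) i * y i =
        ∑ i, z i * y i + (κ / b) * ∑ i, y i ^ 2 := by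
      rw [Finset.mul_sum, ← Finset.sum_add_distrib]
      refine Finset.sum_congr rfl fun i _ => ?_
      simp only [Pi.add_apply, Pi.smul_apply, smul_eq_mul]
      ring
    simp only [hG, h1, h2]
    field_simp
    ring
  have hint : ∀ y, Integrable (fun z => Real.exp (G z y)) := by
    intro y
    have h1 := ((lap_integrable (κ := κ) ha hw he y).comp_add_right ((κ / b) • y)).const_mul
      (Real.exp (-(κ ^ 2 / b / 2 * ∑ i, y i ^ 2)))
    refine h1.congr (ae_of_all _ fun z => ?_)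
    change Real.exp _ * Real.exp (κ * ∑ i, (z + (κ / b) • y) i * y i - w (z + (κ / b) • y)) = _
    rw [hid, ← Real.exp_add]
    congr 1
    ring
  have hconv : ∀ z, ConvexOn ℝ univ (G z) := by
    intro z
    have h1 := hwb.translate_right z
    have h2 := (h1.comp_linearMap ((κ / b) • (LinearMap.id : (Fin n → ℝ) →ₗ[ℝ] (Fin n → ℝ))))
    have h3 := h2.add_const (-(b / 2 * ∑ i, z i ^ 2))
    refine (h3.subset (subset_univ _) convex_univ |>.congr ?_)
    intro y _
    simp only [hG, Function.comp, LinearMap.smul_apply, LinearMap.id_apply, Pi.add_apply,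
      Pi.smul_apply, smul_eq_mul]
    ring
  have hH := holder_convex (volume : Measure (Fin n → ℝ)) G hconv hint
  refine hH.congr fun y _ => ?_
  have hpos : 0 < ∫ z, Real.exp (G z y) := integral_exp_pos (hint y)
  rw [lap_apply, ← integral_add_right_eq_self
    (fun x : Fin n → ℝ => Real.exp (κ * ∑ i, x i * y i - w x)) ((κ / b) • y)]
  simp only [hid, Real.exp_add]
  rw [integral_const_mul, Real.log_mul (Real.exp_pos _).ne' hpos.ne', Real.log_exp]
  ring

theorem lap_even {κ : ℝ} {w : (Fin n → ℝ) → ℝ} (he : ∀ x, w (-x) = w x) (y : Fin n → ℝ) :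
    lap κ w (-y) = lap κ w y := by
  rw [lap_apply, lap_apply, ← integral_neg_eq_self]
  congr 1
  refine integral_congr_ae (ae_of_all _ fun x => ?_)
  change Real.exp (κ * ∑ i, (-x) i * (-y) i - w (-x)) = Real.exp (κ * ∑ i, x i * y i - w x)
  rw [he]
  congr 3
  refine Finset.sum_congr rfl fun i _ => ?_
  rw [Pi.neg_apply, Pi.neg_apply, neg_mul_neg]

end Vale.Agent.P227.M.LKHB
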