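import Vale.Agent.P227.M.LK.Law
import Vale.Agent.P227.M.Mom.Bridge

/-! # P227/M/LK : the law of level `k` in terms of `Defs` (`E n`, `logLap`, `gradient`) -/

open MeasureTheory Real
open scoped RealInnerProductSpace

set_option linter.unusedSectionVars false

namespace Vale.Agent.P227.M.LK.Law

open Vale.Agent.P227.M.LL

variable {n : ℕ}

theorem logLap_eq (W : E n → ℝ) (y : E n) : logLap W y = Lam W y := rfl

theorem exp_logLap {W : E n → ℝ} {a C : ℝ} (hW : Gr W a C) (y : E n) :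
    Real.exp (logLap W y) = Z W y := Real.exp_log (Z_pos hW y)

theorem av_inner_smul (W : E n → ℝ) (y v : E n) (k : ℝ) :
    av W y (fun x => ⟪x, k • v⟫) = k * av W y (fun x => ⟪x, v⟫) := by
  rw [← av_const_mul]
  congr 1
  funext x
  exact real_inner_smul_right _ _ _

theorem c2_smul {W : E n → ℝ} {a C : ℝ} (_ : Gr W a C) (y v : E n) (k : ℝ) :
    c2 W y (k • v) = k ^ 2 * c2 W y v := by
  unfold c2
  rw [av_inner_smul]
  rw [← av_const_mul W _ (k ^ 2)]
  have h : (fun x : E n => (⟪x, k • v⟫ - k * av W y (fun x => ⟪x, v⟫)) ^ 2) =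
      fun x => k ^ 2 * (⟪x, v⟫ - av W y (fun x => ⟪x, v⟫)) ^ 2 := by
    funext x
    rw [real_inner_smul_right]
    ring
  rw [h]

section

variable {k a C : ℝ} {W φ : E n → ℝ}

theorem line_eq (y v : E n) (t : ℝ) : k • (y + t • v) = k • y + t • (k • v) := by
  rw [smul_add, smul_comm]

theorem phi_line (hW : Gr W a C) (hφd : ∀ y, φ y = 1 / k * logLap W (k • y)) (y v : E n) (t : ℝ) :
    HasDerivAt (fun t : ℝ => φ (y + t • v))
      (1 / k * av W (k • y + t • (k • v)) (fun x => ⟪x, k • v⟫)) t := by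
  have h1 := (hasDerivAt_Lam hW (k • y) (k • v) t).const_mul (1 / k)
  have h2 : (fun t : ℝ => φ (y + t • v)) = fun t : ℝ => 1 / k * Lam W (k • y + t • (k • v)) := by
    funext t
    rw [hφd, line_eq, logLap_eq]
  rw [h2]
  exact h1

theorem grad_inner (hW : Gr W a C) (hk : 0 < k) (hφd : ∀ y, φ y = 1 / k * logLap W (k • y))
    (hφ : ContDiff ℝ 2 φ) (y v : E n) (t : ℝ) :
    k * inner ℝ (gradient φ (y + t • v)) v =
      av W (k • y + t • (k • v)) (fun x => ⟪x, k • v⟫) := by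
  have h1 := (phi_line hW hφd y v t).unique (line_deriv1 hφ y v t)
  rw [← h1]
  field_simp

/-- the gradient of `φ` is the conditional mean -/
theorem grad_eq (hW : Gr W a C) (hk : 0 < k) (hφd : ∀ y, φ y = 1 / k * logLap W (k • y))
    (hφ : ContDiff ℝ 2 φ) (y : E n) : gradient φ y = mn k W y := by
  refine ext_inner_right ℝ fun v => ?_
  have h1 := grad_inner hW hk hφd hφ y v 0
  rw [zero_smul, zero_smul, add_zero, add_zero, av_inner_smul] at h1
  have h2 : inner ℝ (mn k W y) v = av W (k • y) (fun x => ⟪x, v⟫) := inner_av hW _ _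
  rw [h2]
  exact mul_left_cancel₀ hk.ne' h1

theorem hess_eq_c2 (hW : Gr W a C) (hk : 0 < k) (hφd : ∀ y, φ y = 1 / k * logLap W (k • y))
    (hφ : ContDiff ℝ 2 φ) (y v : E n) : qf (hess φ y) v = k * c2 W (k • y) v := by
  rw [qf_hT hφ]
  have h1 := (line_deriv2 hφ y v v 0).const_mul k
  have h2 : (fun t : ℝ => k * inner ℝ (gradient φ (y + t • v)) v) =
      fun t : ℝ => av W (k • y + t • (k • v)) (fun x => ⟪x, k • v⟫) := by
    funext t
    exact grad_inner hW hk hφd hφ y v t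
  rw [h2] at h1
  have h3 := h1.unique (hasDerivAt_m1 hW (k • y) (k • v) 0)
  rw [zero_smul, zero_smul, add_zero, add_zero, c2_smul hW] at h3
  have h4 : k * inner ℝ (hT φ y v) v = k * (k * c2 W (k • y) v) := by rw [h3]; ring
  exact mul_left_cancel₀ hk.ne' h4

theorem c2_le (hW : Gr W a C) (hk : 0 < k) (hφd : ∀ y, φ y = 1 / k * logLap W (k • y))
    (hφ : ContDiff ℝ 2 φ) {b' : ℝ} (hb : ∀ x v, qf (hess φ x) v ≤ b' * ‖v‖ ^ 2) (z v : E n) :
    c2 W z v ≤ b' / k * ‖v‖ ^ 2 := by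
  have h1 := hess_eq_c2 hW hk hφd hφ (k⁻¹ • z) v
  rw [smul_inv_smul₀ hk.ne'] at h1
  have h2 := hb (k⁻¹ • z) v
  rw [h1] at h2
  rw [div_mul_eq_mul_div, le_div_iff₀ hk]
  linarith

end

theorem gr_of_lower {c : E n → ℝ} (hcc : Continuous c) {a₀ A : ℝ} (ha : 0 < a₀)
    (hl : ∀ x, a₀ * ‖x‖ ^ 2 - A ≤ c x) {k : ℝ} (hk : 0 < k) :
    Gr (fun x => k * c x) (k * a₀) (k * A) :=
  ⟨continuous_const.mul hcc, mul_pos hk ha, fun x => by
    have := mul_le_mul_of_nonneg_left (hl x) hk.le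
    linarith⟩

theorem integrable_exp_neg_of_lower {φ : E n → ℝ} (hc : Continuous φ) {a₀ A : ℝ} (ha : 0 < a₀)
    (hl : ∀ x, a₀ * ‖x‖ ^ 2 - A ≤ φ x) : Integrable (fun y => Real.exp (-φ y)) := by
  have h := integrable_exp (W := φ) (a := a₀) (C := A) ⟨hc, ha, hl⟩ 0
  simpa using h

/-- THE LAW OF LEVEL `k` (Defs language).  `c`, `φ` have quadratic lower bounds, `φ` is
`(1/k) logLap (k c) (k ·)` and `D²φ ≤ b'`. -/
theorem lawK {k : ℝ} (hk : 0 < k) {c φ : E n → ℝ} (hcc : Continuous c)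
    {a₀ A a₁ A₁ : ℝ} (ha : 0 < a₀) (hl : ∀ x, a₀ * ‖x‖ ^ 2 - A ≤ c x)
    (hφd : ∀ y, φ y = 1 / k * logLap (fun x => k * c x) (k • y))
    (hφ : ContDiff ℝ 2 φ) (ha₁ : 0 < a₁) (hl₁ : ∀ x, a₁ * ‖x‖ ^ 2 - A₁ ≤ φ x)
    {b' : ℝ} (hb : ∀ x v, qf (hess φ x) v ≤ b' * ‖v‖ ^ 2) :
    Integrable (fun y => Real.exp (-φ y)) ∧
    Integrable (fun x => Real.exp (-(k * c x - logLap (fun y => (k + 1) * φ y) (k • x)))) ∧
    ∫ y, Real.exp (-φ y) = ∫ x, Real.exp (-(k * c x - logLap (fun y => (k + 1) * φ y) (k • x))) ∧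
    ∀ F : E n → ℝ, LipschitzWith 1 F → (∀ x, |F x| ≤ 1) → ∀ s : ℝ, 0 < s → n * (b' / k) ≤ s ^ 2 →
      |(∫ y, F (gradient φ y) * Real.exp (-φ y)) -
        ∫ x, F x * Real.exp (-(k * c x - logLap (fun y => (k + 1) * φ y) (k • x)))| ≤
        s * ∫ y, Real.exp (-φ y) := by
  have hW := gr_of_lower hcc ha hl hk
  have hi := integrable_exp_neg_of_lower hφ.continuous ha₁ hl₁
  have hG := gr_of_lower hφ.continuous ha₁ hl₁ (k := k + 1) (by positivity)
  have hφd' : ∀ y, φ y = 1 / k * Lam (fun x => k * c x) (k • y) := hφd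
  have hV : ∀ x, Real.exp (-(k * c x - logLap (fun y => (k + 1) * φ y) (k • x))) =
      Real.exp (-(k * c x)) * Z (fun y => (k + 1) * φ y) (k • x) := by
    intro x
    rw [← exp_logLap hG, ← Real.exp_add]
    congr 1
    ring
  simp only [hV]
  obtain ⟨m1, m2⟩ := mass hW hk hφd' hi
  refine ⟨hi, m1, m2, fun F hF hF1 s hs hs2 => ?_⟩
  have hg : ∀ y, gradient φ y = mn k (fun x => k * c x) y := grad_eq hW hk hφd hφ
  simp only [hg]
  have := law hW hk hφd' hi (σ := b' / k) (fun y v => c2_le hW hk hφd hφ hb y v) (F := F) (B := 1)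
    (L := 1) zero_le_one (fun x x' => by
      have := hF.dist_le_mul x x'
      rwa [Real.dist_eq, dist_eq_norm, NNReal.coe_one] at this) hF1 hs
    (by rw [finrank_euclideanSpace_fin]; exact hs2)
  rwa [one_mul] at this

end Vale.Agent.P227.M.LK.Law
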