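import Mathlib

/-!
# Log-Laplace transforms of measures on a finite dimensional inner product space

Derivatives (up to order three) of `y ↦ log ∫ exp ⟪x,y⟫ dμ(x)`.
-/

open MeasureTheory Filter Topology
open scoped InnerProductSpace

namespace Vale.Agent.P227.M.LogLap

variable {E : Type*} [NormedAddCommGroup E] [InnerProductSpace ℝ E]
  [MeasurableSpace E] [BorelSpace E]

/-- All exponential moments are finite. -/
def ExpMom (μ : Measure E) : Prop := ∀ m : ℝ, Integrable (fun x => Real.exp (m * ‖x‖)) μ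

/-- Continuous functions of at most exponential growth. -/
def ExpGr (F : E → ℝ) : Prop := Continuous F ∧ ∃ C c : ℝ, ∀ x, |F x| ≤ C * Real.exp (c * ‖x‖)

theorem ExpGr.const (a : ℝ) : ExpGr (fun _ : E => a) :=
  ⟨continuous_const, |a|, 0, fun x => by simp⟩

theorem ExpGr.nonneg_bound {F : E → ℝ} (hF : ExpGr F) :
    ∃ C c : ℝ, 0 ≤ C ∧ 0 ≤ c ∧ ∀ x, |F x| ≤ C * Real.exp (c * ‖x‖) := by
  obtain ⟨-, C, c, h⟩ := hF
  refine ⟨|C|, |c|, abs_nonneg _, abs_nonneg _, fun x => (h x).trans ?_⟩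
  have h1 : Real.exp (c * ‖x‖) ≤ Real.exp (|c| * ‖x‖) :=
    Real.exp_le_exp.2 (mul_le_mul_of_nonneg_right (le_abs_self c) (norm_nonneg x))
  have h2 := Real.exp_pos (c * ‖x‖)
  calc C * Real.exp (c * ‖x‖) ≤ |C| * Real.exp (c * ‖x‖) :=
        mul_le_mul_of_nonneg_right (le_abs_self C) h2.le
    _ ≤ _ := mul_le_mul_of_nonneg_left h1 (abs_nonneg C)

theorem ExpGr.mul {F G : E → ℝ} (hF : ExpGr F) (hG : ExpGr G) : ExpGr (fun x => F x * G x) := by
  obtain ⟨C, c, hC, hc, h⟩ := hF.nonneg_bound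
  obtain ⟨D, d, hD, hd, h'⟩ := hG.nonneg_bound
  refine ⟨hF.1.mul hG.1, C * D, c + d, fun x => ?_⟩
  rw [abs_mul]
  calc |F x| * |G x| ≤ (C * Real.exp (c * ‖x‖)) * (D * Real.exp (d * ‖x‖)) :=
        mul_le_mul (h x) (h' x) (abs_nonneg _) (by positivity)
    _ = C * D * Real.exp ((c + d) * ‖x‖) := by rw [add_mul, Real.exp_add]; ring

theorem ExpGr.add {F G : E → ℝ} (hF : ExpGr F) (hG : ExpGr G) : ExpGr (fun x => F x + G x) := by
  obtain ⟨C, c, hC, hc, h⟩ := hF.nonneg_bound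
  obtain ⟨D, d, hD, hd, h'⟩ := hG.nonneg_bound
  refine ⟨hF.1.add hG.1, C + D, c + d, fun x => ?_⟩
  have h1 : Real.exp (c * ‖x‖) ≤ Real.exp ((c + d) * ‖x‖) :=
    Real.exp_le_exp.2 (mul_le_mul_of_nonneg_right (by linarith) (norm_nonneg x))
  have h2 : Real.exp (d * ‖x‖) ≤ Real.exp ((c + d) * ‖x‖) :=
    Real.exp_le_exp.2 (mul_le_mul_of_nonneg_right (by linarith) (norm_nonneg x))
  calc |F x + G x| ≤ |F x| + |G x| := abs_add_le _ _
    _ ≤ C * Real.exp (c * ‖x‖) + D * Real.exp (d * ‖x‖) := add_le_add (h x) (h' x)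
    _ ≤ C * Real.exp ((c + d) * ‖x‖) + D * Real.exp ((c + d) * ‖x‖) :=
        add_le_add (mul_le_mul_of_nonneg_left h1 hC) (mul_le_mul_of_nonneg_left h2 hD)
    _ = _ := by ring

theorem ExpGr.neg {F : E → ℝ} (hF : ExpGr F) : ExpGr (fun x => - F x) := by
  obtain ⟨h0, C, c, h⟩ := hF
  exact ⟨h0.neg, C, c, fun x => by simpa using h x⟩

theorem ExpGr.sub {F G : E → ℝ} (hF : ExpGr F) (hG : ExpGr G) : ExpGr (fun x => F x - G x) := by
  simpa [sub_eq_add_neg] using hF.add hG.neg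

theorem ExpGr.const_mul {F : E → ℝ} (a : ℝ) (hF : ExpGr F) : ExpGr (fun x => a * F x) :=
  (ExpGr.const a).mul hF

theorem ExpGr.pow {F : E → ℝ} (hF : ExpGr F) (n : ℕ) : ExpGr (fun x => F x ^ n) := by
  induction n with
  | zero => simpa using ExpGr.const (E := E) 1
  | succ n ih => simpa [pow_succ] using ih.mul hF

theorem ExpGr.norm : ExpGr (fun x : E => ‖x‖) := by
  refine ⟨continuous_norm, 1, 1, fun x => ?_⟩
  rw [abs_of_nonneg (norm_nonneg x), one_mul, one_mul]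
  have := Real.add_one_le_exp ‖x‖
  linarith

theorem ExpGr.inner (v : E) : ExpGr (fun x : E => ⟪x, v⟫_ℝ) := by
  refine ⟨continuous_id.inner continuous_const, ‖v‖, 1, fun x => ?_⟩
  have h1 := abs_real_inner_le_norm x v
  have h2 := Real.add_one_le_exp ‖x‖
  rw [one_mul]
  calc |⟪x, v⟫_ℝ| ≤ ‖x‖ * ‖v‖ := h1
    _ = ‖v‖ * ‖x‖ := mul_comm _ _
    _ ≤ _ := mul_le_mul_of_nonneg_left (by linarith) (norm_nonneg v)

theorem ExpGr.inner_sub (v m : E) : ExpGr (fun x : E => ⟪x - m, v⟫_ℝ) := by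
  have h := (ExpGr.inner v).sub (ExpGr.const (E := E) ⟪m, v⟫_ℝ)
  simpa [inner_sub_left] using h

/-- The Laplace transform of `F dμ`. -/
noncomputable def lap (μ : Measure E) (F : E → ℝ) (y : E) : ℝ :=
  ∫ x, Real.exp ⟪x, y⟫_ℝ * F x ∂μ

theorem bound_aux {F : E → ℝ} {C c : ℝ} (hC : 0 ≤ C)
    (h : ∀ x, |F x| ≤ C * Real.exp (c * ‖x‖)) (R : ℝ) (x y : E) (hy : ‖y‖ ≤ R) :
    |Real.exp ⟪x, y⟫_ℝ * F x| ≤ C * Real.exp ((R + c) * ‖x‖) := by
  rw [abs_mul, Real.abs_exp]
  have h1 : Real.exp ⟪x, y⟫_ℝ ≤ Real.exp (R * ‖x‖) := by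
    apply Real.exp_le_exp.2
    calc ⟪x, y⟫_ℝ ≤ ‖x‖ * ‖y‖ := real_inner_le_norm x y
      _ ≤ ‖x‖ * R := mul_le_mul_of_nonneg_left hy (norm_nonneg x)
      _ = R * ‖x‖ := mul_comm _ _
  calc Real.exp ⟪x, y⟫_ℝ * |F x| ≤ Real.exp (R * ‖x‖) * (C * Real.exp (c * ‖x‖)) :=
        mul_le_mul h1 (h x) (abs_nonneg _) (Real.exp_pos _).le
    _ = C * Real.exp ((R + c) * ‖x‖) := by rw [add_mul, Real.exp_add]; ring

variable {μ : Measure E}

theorem lap_integrable (hμ : ExpMom μ) {F : E → ℝ} (hF : ExpGr F) (y : E) :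
    Integrable (fun x => Real.exp ⟪x, y⟫_ℝ * F x) μ := by
  obtain ⟨C, c, hC, hc, h⟩ := hF.nonneg_bound
  refine ((hμ (‖y‖ + c)).const_mul C).mono' ?_ ?_
  · exact ((Real.continuous_exp.comp (continuous_id.inner continuous_const)).mul
      hF.1).measurable.aestronglyMeasurable
  · exact Eventually.of_forall fun x => by
      simpa using bound_aux hC h ‖y‖ x y le_rfl

theorem integrable_of_expGr (hμ : ExpMom μ) {F : E → ℝ} (hF : ExpGr F) : Integrable F μ := by
  simpa using lap_integrable hμ hF 0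

variable [FiniteDimensional ℝ E]

theorem lapD_integrable (hμ : ExpMom μ) {F : E → ℝ} (hF : ExpGr F) (y : E) :
    Integrable (fun x => (Real.exp ⟪x, y⟫_ℝ * F x) • innerSL ℝ x) μ := by
  have h1 := lap_integrable hμ ((hF.mul ExpGr.norm)) y
  refine h1.norm.mono' ?_ ?_
  · exact (((Real.continuous_exp.comp (continuous_id.inner continuous_const)).mul
      hF.1).smul (innerSL ℝ).continuous).measurable.aestronglyMeasurable
  · refine Eventually.of_forall fun x => ?_
    rw [norm_smul, innerSL_apply_norm]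
    simp only [norm_mul, norm_norm]
    rw [mul_assoc]

/-- Differentiation under the integral sign. -/
theorem lap_hasFDerivAt (hμ : ExpMom μ) {F : E → ℝ} (hF : ExpGr F) (y : E) :
    HasFDerivAt (lap μ F) (∫ x, (Real.exp ⟪x, y⟫_ℝ * F x) • innerSL ℝ x ∂μ) y := by
  obtain ⟨C, c, hC, hc, h⟩ := (hF.mul ExpGr.norm).nonneg_bound
  have hcont : Continuous fun x : E => (Real.exp ⟪x, y⟫_ℝ * F x) • innerSL ℝ x :=
    ((Real.continuous_exp.comp (continuous_id.inner continuous_const)).mul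
      hF.1).smul (innerSL ℝ).continuous
  refine hasFDerivAt_integral_of_dominated_of_fderiv_le
    (F := fun y x => Real.exp ⟪x, y⟫_ℝ * F x)
    (F' := fun y x => (Real.exp ⟪x, y⟫_ℝ * F x) • innerSL ℝ x)
    (bound := fun x => C * Real.exp ((‖y‖ + 1 + c) * ‖x‖))
    (Metric.ball_mem_nhds y one_pos) ?_ (lap_integrable hμ hF y)
    hcont.measurable.aestronglyMeasurable ?_ ((hμ _).const_mul C) ?_
  · exact Eventually.of_forall fun z => ((Real.continuous_exp.comp
      (continuous_id.inner continuous_const)).mul hF.1).measurable.aestronglyMeasurable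
  · refine Eventually.of_forall fun x z hz => ?_
    have hz' : ‖z‖ ≤ ‖y‖ + 1 := by
      have h1 : ‖z - y‖ < 1 := by simpa [dist_eq_norm] using hz
      have h2 : ‖z‖ ≤ ‖y‖ + ‖z - y‖ := by
        calc ‖z‖ = ‖y + (z - y)‖ := by abel_nf
          _ ≤ _ := norm_add_le _ _
      linarith
    have h3 := bound_aux hC h (‖y‖ + 1) x z hz'
    rw [norm_smul, innerSL_apply_norm]
    simp only [abs_mul, Real.abs_exp, abs_norm] at h3
    simpa [norm_mul, mul_assoc] using h3
  · refine Eventually.of_forall fun x z _ => ?_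
    have h1 : HasFDerivAt (fun z : E => ⟪x, z⟫_ℝ) (innerSL ℝ x) z := (innerSL ℝ x).hasFDerivAt
    have h2 := (h1.exp).mul_const (F x)
    refine h2.congr_fderiv ?_
    ext v
    simp only [ContinuousLinearMap.smul_apply, smul_eq_mul]
    ring

theorem lapD_apply (hμ : ExpMom μ) {F : E → ℝ} (hF : ExpGr F) (y v : E) :
    (∫ x, (Real.exp ⟪x, y⟫_ℝ * F x) • innerSL ℝ x ∂μ) v
      = lap μ (fun x => F x * ⟪x, v⟫_ℝ) y := by
  rw [ContinuousLinearMap.integral_apply (lapD_integrable hμ hF y)]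
  simp only [lap, ContinuousLinearMap.smul_apply, smul_eq_mul, innerSL_apply_apply, mul_assoc]

theorem lap_contDiff (hμ : ExpMom μ) (n : ℕ) {F : E → ℝ} (hF : ExpGr F) :
    ContDiff ℝ n (lap μ F) := by
  induction n generalizing F with
  | zero =>
    have : Differentiable ℝ (lap μ F) := fun y => (lap_hasFDerivAt hμ hF y).differentiableAt
    exact contDiff_zero.2 this.continuous
  | succ n ih =>
    have hd : Differentiable ℝ (lap μ F) := fun y => (lap_hasFDerivAt hμ hF y).differentiableAt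
    push_cast
    rw [contDiff_succ_iff_fderiv_apply]
    refine ⟨hd, by simp, fun v => ?_⟩
    have : (fun y => fderiv ℝ (lap μ F) y v) = lap μ (fun x => F x * ⟪x, v⟫_ℝ) := by
      funext y
      rw [(lap_hasFDerivAt hμ hF y).fderiv, lapD_apply hμ hF]
    rw [this]
    exact ih (hF.mul (ExpGr.inner v))

theorem lap_pos (hμ : ExpMom μ) (h0 : μ ≠ 0) (y : E) : 0 < lap μ (fun _ => 1) y := by
  have hi := lap_integrable hμ (ExpGr.const (E := E) 1) y
  unfold lap
  rw [integral_pos_iff_support_of_nonneg]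
  · have : (Function.support fun x : E => Real.exp ⟪x, y⟫_ℝ * 1) = Set.univ := by
      ext x
      simp [Real.exp_ne_zero]
    rw [this]
    exact Measure.measure_univ_pos.2 h0
  · intro x
    simp only [mul_one]
    exact (Real.exp_pos _).le
  · exact hi

/-- The log-Laplace transform. -/
noncomputable def Lam (μ : Measure E) (y : E) : ℝ := Real.log (lap μ (fun _ => 1) y)

/-- Expectation for the tilted probability measure. -/
noncomputable def Et (μ : Measure E) (F : E → ℝ) (y : E) : ℝ := lap μ F y / lap μ (fun _ => 1) y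

theorem Lam_contDiff (hμ : ExpMom μ) (h0 : μ ≠ 0) (n : ℕ) : ContDiff ℝ n (Lam μ) :=
  (lap_contDiff hμ n (ExpGr.const 1)).log fun y => (lap_pos hμ h0 y).ne'

theorem Et_contDiff (hμ : ExpMom μ) (h0 : μ ≠ 0) (n : ℕ) {F : E → ℝ} (hF : ExpGr F) :
    ContDiff ℝ n (Et μ F) :=
  (lap_contDiff hμ n hF).div (lap_contDiff hμ n (ExpGr.const 1)) fun y => (lap_pos hμ h0 y).ne'

end Vale.Agent.P227.M.LogLap
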