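import Vale.Agent.P227.M.LK.RegLapA

/-! # P227/M, block LK: `logLap W` is smooth and all its derivatives of order `≥ 2` are bounded, for `Reg W c C`. -/

open MeasureTheory
open scoped Topology

namespace Vale.Agent.P227.M.RL983

/-! ## Hessian along lines -/

theorem sum_ei {n : ℕ} (v : E n) : v = ∑ i, v i • (ei i : E n) := by
  ext j
  simp [ei, Pi.single_apply]

theorem hess_apply {n : ℕ} {f : E n → ℝ} (hf : ContDiff ℝ 2 f) (x : E n) (i j : Fin n) :
    hess f x i j = fderiv ℝ (fderiv ℝ f) x (ei i) (ei j) := by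
  unfold hess pd
  have h1 : ContDiff ℝ 1 (fderiv ℝ f) := hf.fderiv_right (m := 1) (by norm_num)
  have h2 : DifferentiableAt ℝ (fderiv ℝ f) x := (h1.differentiable (by norm_num)) x
  rw [fderiv_clm_apply h2 (differentiableAt_const _)]
  simp

theorem qf_hess {n : ℕ} {f : E n → ℝ} (hf : ContDiff ℝ 2 f) (x v : E n) :
    qf (hess f x) v = fderiv ℝ (fderiv ℝ f) x v v := by
  unfold qf
  have key : ∀ B : E n →L[ℝ] E n →L[ℝ] ℝ, B v v = ∑ i, ∑ j, B (ei i) (ei j) * v i * v j := by
    intro B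
    have h1 : B v = ∑ i, v i • B (ei i) := by
      conv_lhs => rw [sum_ei v]
      rw [map_sum]
      refine Finset.sum_congr rfl fun i _ => ?_
      rw [map_smul]
    have h2 : ∀ i : Fin n, B (ei i) v = ∑ j, v j * B (ei i) (ei j) := by
      intro i
      conv_lhs => rw [sum_ei v]
      rw [map_sum]
      refine Finset.sum_congr rfl fun j _ => ?_
      rw [map_smul, smul_eq_mul]
    rw [h1]
    simp only [ContinuousLinearMap.coe_sum', Finset.sum_apply, ContinuousLinearMap.coe_smul',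
      Pi.smul_apply, smul_eq_mul]
    refine Finset.sum_congr rfl fun i _ => ?_
    rw [h2 i, Finset.mul_sum]
    refine Finset.sum_congr rfl fun j _ => ?_
    ring
  rw [key]
  refine Finset.sum_congr rfl fun i _ => Finset.sum_congr rfl fun j _ => ?_
  rw [hess_apply hf]

theorem line1 {n : ℕ} {f : E n → ℝ} (hf : ContDiff ℝ 2 f) (x v : E n) (t : ℝ) :
    HasDerivAt (fun t : ℝ => f (x + t • v)) (fderiv ℝ f (x + t • v) v) t := by
  have h1 : HasFDerivAt f (fderiv ℝ f (x + t • v)) (x + t • v) :=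
    (hf.differentiable (by norm_num) _).hasFDerivAt
  have h2 : HasDerivAt (fun t : ℝ => x + t • v) v t := by
    simpa using ((hasDerivAt_id t).smul_const v).const_add x
  exact h1.comp_hasDerivAt t h2

theorem line2 {n : ℕ} {f : E n → ℝ} (hf : ContDiff ℝ 2 f) (x v : E n) (t : ℝ) :
    HasDerivAt (fun t : ℝ => fderiv ℝ f (x + t • v) v) (fderiv ℝ (fderiv ℝ f) (x + t • v) v v) t := by
  have h0 : ContDiff ℝ 1 (fderiv ℝ f) := hf.fderiv_right (m := 1) (by norm_num)
  have h1 : HasFDerivAt (fderiv ℝ f) (fderiv ℝ (fderiv ℝ f) (x + t • v)) (x + t • v) :=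
    (h0.differentiable (by norm_num) _).hasFDerivAt
  have h2 : HasDerivAt (fun t : ℝ => x + t • v) v t := by
    simpa using ((hasDerivAt_id t).smul_const v).const_add x
  have h3 := h1.comp_hasDerivAt t h2
  have h4 := h3.clm_apply (hasDerivAt_const t v)
  simpa using h4

theorem taylor_low (g g1 g2 : ℝ → ℝ) (h1 : ∀ t, HasDerivAt g (g1 t) t) (h2 : ∀ t, HasDerivAt g1 (g2 t) t)
    (q : ℝ) (hq : ∀ t, q ≤ g2 t) : g 0 + g1 0 + q / 2 ≤ g 1 := by
  have hm : Monotone (fun t => g1 t - q * t) := by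
    refine monotone_of_hasDerivAt_nonneg (f' := fun t => g2 t - q) (fun t => ?_) (fun t => ?_)
    · simpa using (h2 t).fun_sub ((hasDerivAt_id t).const_mul q)
    · simpa using hq t
  have hk : ∀ t, HasDerivAt (fun t => g t - g1 0 * t - q / 2 * t ^ 2) (g1 t - g1 0 - q * t) t := by
    intro t
    have h := ((h1 t).fun_sub ((hasDerivAt_id t).const_mul (g1 0))).fun_sub
      (((hasDerivAt_id t).pow 2).const_mul (q / 2))
    refine h.congr_deriv ?_
    simp
    ring
  have hmono : MonotoneOn (fun t => g t - g1 0 * t - q / 2 * t ^ 2) (Set.Icc 0 1) := by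
    refine monotoneOn_of_deriv_nonneg (convex_Icc 0 1) ?_ ?_ ?_
    · exact fun t _ => (hk t).continuousAt.continuousWithinAt
    · exact fun t _ => (hk t).differentiableAt.differentiableWithinAt
    · intro t ht
      rw [interior_Icc] at ht
      rw [(hk t).deriv]
      have h3 := hm ht.1.le
      simp only [mul_zero, sub_zero] at h3
      linarith
  have h5 := hmono (Set.left_mem_Icc.mpr zero_le_one) (Set.right_mem_Icc.mpr zero_le_one) zero_le_one
  simp only [mul_zero, sub_zero] at h5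
  norm_num at h5
  linarith

theorem taylor_up (g g1 g2 : ℝ → ℝ) (h1 : ∀ t, HasDerivAt g (g1 t) t) (h2 : ∀ t, HasDerivAt g1 (g2 t) t)
    (q : ℝ) (hq : ∀ t, g2 t ≤ q) : g 1 ≤ g 0 + g1 0 + q / 2 := by
  have h := taylor_low (fun t => - g t) (fun t => - g1 t) (fun t => - g2 t) (fun t => (h1 t).neg)
    (fun t => (h2 t).neg) (-q) (fun t => neg_le_neg (hq t))
  linarith

section
variable {n : ℕ} {W : E n → ℝ} {c C : ℝ}

theorem reg_c2 (h : Reg W c C) : ContDiff ℝ 2 W := by exact_mod_cast contDiff_infty.mp h.smooth 2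

theorem reg_low (h : Reg W c C) (m z : E n) :
    W m + fderiv ℝ W m z + c / 2 * ‖z‖ ^ 2 ≤ W (m + z) := by
  have hc := reg_c2 h
  have h1 := taylor_low (fun t => W (m + t • z)) _ _ (line1 hc m z) (line2 hc m z) (c * ‖z‖ ^ 2)
    (fun t => by rw [← qf_hess hc]; exact h.lower _ _)
  simp only [zero_smul, add_zero, one_smul] at h1
  linarith

theorem reg_up (h : Reg W c C) (m z : E n) :
    W (m + z) ≤ W m + fderiv ℝ W m z + C / 2 * ‖z‖ ^ 2 := by
  have hc := reg_c2 h
  have h1 := taylor_up (fun t => W (m + t • z)) _ _ (line1 hc m z) (line2 hc m z) (C * ‖z‖ ^ 2)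
    (fun t => by rw [← qf_hess hc]; exact h.upper _ _)
  simp only [zero_smul, add_zero, one_smul] at h1
  linarith

theorem reg_QL (h : Reg W c C) : QL W := by
  have hc := h.c_pos
  refine ⟨h.smooth.continuous, c / 4, ‖fderiv ℝ W 0‖ ^ 2 / c - W 0, by linarith, fun x => ?_⟩
  have h1 := reg_low h 0 x
  rw [zero_add] at h1
  have h2 : -(‖fderiv ℝ W 0‖ * ‖x‖) ≤ fderiv ℝ W 0 x := by
    have := (fderiv ℝ W 0).le_opNorm x
    have h3 := neg_abs_le (fderiv ℝ W 0 x)
    rw [Real.norm_eq_abs] at this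
    linarith
  have h3 : ‖fderiv ℝ W 0‖ * ‖x‖ ≤ ‖fderiv ℝ W 0‖ ^ 2 / c + c / 4 * ‖x‖ ^ 2 := by
    have h4 : 0 ≤ (‖fderiv ℝ W 0‖ - c / 2 * ‖x‖) ^ 2 / c := by positivity
    have h5 : (‖fderiv ℝ W 0‖ - c / 2 * ‖x‖) ^ 2 / c
        = ‖fderiv ℝ W 0‖ ^ 2 / c - ‖fderiv ℝ W 0‖ * ‖x‖ + c / 4 * ‖x‖ ^ 2 := by
      field_simp
      ring
    linarith
  linarith

/-- existence of the point with gradient `y` -/
theorem exists_center (h : Reg W c C) (y : E n) : ∃ m : E n, ∀ z : E n,
    c / 2 * ‖z‖ ^ 2 ≤ W (m + z) - W m - inner ℝ z y ∧ W (m + z) - W m - inner ℝ z y ≤ C / 2 * ‖z‖ ^ 2 := by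
  obtain ⟨a, b, ha, hb⟩ := (reg_QL h).lower
  have hcont := h.smooth.continuous
  have hlim : Filter.Tendsto (fun x : E n => W x - inner ℝ x y) (Filter.cocompact (E n)) Filter.atTop := by
    have h1 : Filter.Tendsto (fun x : E n => (a * ‖x‖ - ‖y‖) * ‖x‖ - b) (Filter.cocompact (E n))
        Filter.atTop := by
      have hn : Filter.Tendsto (fun x : E n => ‖x‖) (Filter.cocompact (E n)) Filter.atTop :=
        tendsto_norm_cocompact_atTop
      have h2 : Filter.Tendsto (fun r : ℝ => (a * r - ‖y‖) * r - b) Filter.atTop Filter.atTop := by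
        refine Filter.tendsto_atTop_add_const_right _ _ ?_
        refine Filter.Tendsto.atTop_mul_atTop₀ ?_ Filter.tendsto_id
        exact Filter.tendsto_atTop_add_const_right _ _ (Filter.tendsto_id.const_mul_atTop ha)
      exact h2.comp hn
    refine Filter.tendsto_atTop_mono (fun x => ?_) h1
    have h3 := hb x
    have h4 := real_inner_le_norm x y
    nlinarith
  obtain ⟨m, hm⟩ := (by fun_prop : Continuous fun x : E n => W x - inner ℝ x y).exists_forall_le hlim
  have hd : HasFDerivAt (fun x : E n => W x - inner ℝ x y) (fderiv ℝ W m - innerSL ℝ y) m := by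
    have h1 : HasFDerivAt W (fderiv ℝ W m) m :=
      ((reg_c2 h).differentiable (by norm_num) _).hasFDerivAt
    have h2 : HasFDerivAt (fun x : E n => inner ℝ x y) (innerSL ℝ y) m := by
      have h3 := (innerSL ℝ y).hasFDerivAt (x := m)
      refine h3.congr_of_eventuallyEq (Filter.Eventually.of_forall fun x => ?_)
      simp only [innerSL_apply_apply]
      exact real_inner_comm _ _
    exact h1.sub h2
  have h0 := IsLocalMin.hasFDerivAt_eq_zero (Filter.Eventually.of_forall hm) hd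
  have hf : ∀ z : E n, fderiv ℝ W m z = inner ℝ z y := by
    intro z
    have h1 := DFunLike.congr_fun h0 z
    simp only [ContinuousLinearMap.coe_sub', Pi.sub_apply, innerSL_apply_apply, ContinuousLinearMap.coe_zero', Pi.zero_apply] at h1
    rw [real_inner_comm]
    linarith
  refine ⟨m, fun z => ⟨?_, ?_⟩⟩
  · have := reg_low h m z
    rw [hf z] at this
    linarith
  · have := reg_up h m z
    rw [hf z] at this
    linarith

end

/-! ## `logLap` -/

theorem gr_one {n : ℕ} : Gr (fun _ : E n => (1 : ℝ)) :=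
  ⟨continuous_const, 1, 0, zero_le_one, fun x => by simp⟩

theorem logLap_eq {n : ℕ} (W : E n → ℝ) : logLap W = Real.log ∘ FA W (fun _ : E n => (1 : ℝ)) := by
  funext y
  simp [logLap, FA]

theorem integrable_one {n : ℕ} {W : E n → ℝ} (hW : QL W) (y : E n) :
    Integrable (fun x : E n => Real.exp (inner ℝ x y - W x)) := by
  simpa using integrable_FA hW (gr_one (n := n)) y

theorem lap_pos {n : ℕ} {W : E n → ℝ} (hW : QL W) (y : E n) :
    0 < ∫ x : E n, Real.exp (inner ℝ x y - W x) := integral_exp_pos (integrable_one hW y)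

theorem FA_one {n : ℕ} (W : E n → ℝ) (y : E n) :
    FA W (fun _ : E n => (1 : ℝ)) y = ∫ x : E n, Real.exp (inner ℝ x y - W x) := by
  simp [FA]

theorem logLap_smooth {n : ℕ} {W : E n → ℝ} (hW : QL W) : ContDiff ℝ (⊤ : ℕ∞) (logLap W) := by
  rw [logLap_eq]
  exact (contDiff_FA hW gr_one).log fun y => by rw [FA_one]; exact (lap_pos hW y).ne'

theorem logLap_shift {n : ℕ} {W : E n → ℝ} (hW : QL W) (m y h : E n)
    (hWt : QL (fun z => W (m + z) - W m - inner ℝ z y)) :
    logLap W (y + h) = (inner ℝ m (y + h) - W m) + logLap (fun z => W (m + z) - W m - inner ℝ z y) h := by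
  have h1 : ∫ x : E n, Real.exp (inner ℝ x (y + h) - W x)
      = Real.exp (inner ℝ m (y + h) - W m)
        * ∫ z : E n, Real.exp (inner ℝ z h - (W (m + z) - W m - inner ℝ z y)) := by
    rw [← integral_add_left_eq_self (fun x : E n => Real.exp (inner ℝ x (y + h) - W x)) m,
      ← integral_const_mul]
    refine integral_congr_ae (Filter.Eventually.of_forall fun z => ?_)
    simp only
    rw [← Real.exp_add]
    congr 1
    rw [inner_add_left, inner_add_right z]
    ring
  unfold logLap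
  rw [h1, Real.log_mul (Real.exp_pos _).ne' (lap_pos hWt h).ne', Real.log_exp]

theorem norm_iter_shift {n : ℕ} {W : E n → ℝ} (hW : QL W) (m y : E n)
    (hWt : QL (fun z => W (m + z) - W m - inner ℝ z y)) (i : ℕ) :
    ‖iteratedFDeriv ℝ (i + 2) (logLap W) y‖
      = ‖iteratedFDeriv ℝ (i + 2) (logLap (fun z => W (m + z) - W m - inner ℝ z y)) 0‖ := by
  set L := logLap (fun z => W (m + z) - W m - inner ℝ z y) with hL
  have hLs : ContDiff ℝ (⊤ : ℕ∞) L := logLap_smooth hWt
  have hg : (fun h => logLap W (y + h)) = fun h => (inner ℝ m y - W m) + (innerSL ℝ m h + L h) := by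
    funext h
    rw [logLap_shift hW m y h hWt, inner_add_right, innerSL_apply_apply]
    ring
  have h1 : fderiv ℝ (fun h => logLap W (y + h)) = fun h => innerSL ℝ m + fderiv ℝ L h := by
    rw [hg]
    funext h
    have h2 : HasFDerivAt L (fderiv ℝ L h) h := (hLs.differentiable (by simp) h).hasFDerivAt
    exact (((innerSL ℝ m).hasFDerivAt.add h2).const_add _).fderiv
  have h2 : fderiv ℝ (fderiv ℝ (fun h => logLap W (y + h))) = fderiv ℝ (fderiv ℝ L) := by
    rw [h1]
    funext h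
    rw [fderiv_const_add]
  have h3 : iteratedFDeriv ℝ (i + 2) (logLap W) y
      = iteratedFDeriv ℝ (i + 2) (fun h => logLap W (y + h)) 0 := by
    rw [iteratedFDeriv_comp_add_left, add_zero]
  rw [h3, show i + 2 = (i + 1) + 1 by ring, ← norm_iteratedFDeriv_fderiv, ← norm_iteratedFDeriv_fderiv,
    ← norm_iteratedFDeriv_fderiv, ← norm_iteratedFDeriv_fderiv, h2]

theorem integrable_pow_exp {n : ℕ} {a : ℝ} (ha : 0 < a) (j : ℕ) :
    Integrable (fun x : E n => Real.exp (-(a * ‖x‖ ^ 2)) * ‖x‖ ^ j) := by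
  refine ((integrable_exp_sq (n := n) a 1 ha).const_mul (j.factorial : ℝ)).mono' (by fun_prop) ?_
  refine Filter.Eventually.of_forall fun x => ?_
  rw [Real.norm_of_nonneg (by positivity)]
  have h1 := Real.pow_div_factorial_le_exp ‖x‖ (norm_nonneg _) j
  rw [div_le_iff₀ (by positivity)] at h1
  calc Real.exp (-(a * ‖x‖ ^ 2)) * ‖x‖ ^ j
      ≤ Real.exp (-(a * ‖x‖ ^ 2)) * (Real.exp ‖x‖ * j.factorial) := by gcongr
    _ = j.factorial * Real.exp (1 * ‖x‖ - a * ‖x‖ ^ 2) := by
        rw [show 1 * ‖x‖ - a * ‖x‖ ^ 2 = -(a * ‖x‖ ^ 2) + ‖x‖ by ring, Real.exp_add]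
        ring

theorem bound_at_zero (n k : ℕ) (a b : ℝ) (ha : 0 < a) (hb : 0 < b) : ∃ B : ℝ, ∀ W : E n → ℝ, Continuous W →
    (∀ z, a * ‖z‖ ^ 2 ≤ W z ∧ W z ≤ b * ‖z‖ ^ 2) → ‖iteratedFDeriv ℝ k (logLap W) 0‖ ≤ B := by
  set M : ℕ → ℝ := fun j => ∫ x : E n, Real.exp (-(a * ‖x‖ ^ 2)) * ‖x‖ ^ j with hM
  set m0 : ℝ := ∫ x : E n, Real.exp (-(b * ‖x‖ ^ 2)) with hm0
  have hm0pos : 0 < m0 := by
    have h := integrable_pow_exp (n := n) hb 0
    simp only [pow_zero, mul_one] at h
    exact integral_exp_pos h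
  have hM0 : ∀ j, 0 ≤ M j := fun j => integral_nonneg fun x => by positivity
  have hcomp : ∀ i : ℕ, ∃ c : ℝ, ∀ t ∈ Set.Icc m0 (M 0),
      ‖iteratedFDerivWithin ℝ i Real.log (Set.Ioi 0) t‖ ≤ c := by
    intro i
    have hlog : ContDiffOn ℝ (⊤ : ℕ∞) Real.log (Set.Ioi 0) :=
      Real.contDiffOn_log.mono fun t ht => ne_of_gt ht
    have h1 := hlog.continuousOn_iteratedFDerivWithin (m := i) (by exact_mod_cast le_top)
      (uniqueDiffOn_Ioi 0)
    exact isCompact_Icc.exists_bound_of_continuousOn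
      (h1.mono fun t ht => lt_of_lt_of_le hm0pos ht.1)
  choose c hc using hcomp
  set Cl : ℝ := ∑ i ∈ Finset.range (k + 1), |c i| with hCl
  set D : ℝ := 1 + ∑ i ∈ Finset.range (k + 1), M i with hD
  refine ⟨k.factorial * Cl * D ^ k, fun W hcont hW => ?_⟩
  have hQL : QL W := ⟨hcont, a, 0, ha, fun x => by simpa using (hW x).1⟩
  have hval : FA W (fun _ : E n => (1 : ℝ)) 0 ∈ Set.Icc m0 (M 0) := by
    rw [FA_one]
    have hi1 := integrable_one hQL 0
    simp only [inner_zero_right, zero_sub] at hi1 ⊢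
    have hia := integrable_pow_exp (n := n) ha 0
    have hib := integrable_pow_exp (n := n) hb 0
    simp only [pow_zero, mul_one] at hia hib
    refine ⟨integral_mono hib hi1 fun x => Real.exp_le_exp.mpr (by have := (hW x).2; linarith), ?_⟩
    simp only [hM, pow_zero, mul_one]
    exact integral_mono hi1 hia fun x => Real.exp_le_exp.mpr (by have := (hW x).1; linarith)
  rw [logLap_eq, ← iteratedFDerivWithin_univ]
  refine norm_iteratedFDerivWithin_comp_le (N := (⊤ : ℕ∞)) (t := Set.Ioi 0) (s := Set.univ)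
    (Real.contDiffOn_log.mono fun t ht => ne_of_gt ht)
    (contDiff_FA hQL gr_one).contDiffOn (by exact_mod_cast le_top) (uniqueDiffOn_Ioi 0)
    uniqueDiffOn_univ (fun y _ => by rw [FA_one]; exact lap_pos hQL y) (Set.mem_univ _) ?_ ?_
  · intro i hi
    refine (hc i _ hval).trans ((le_abs_self _).trans ?_)
    exact Finset.single_le_sum (f := fun i => |c i|) (fun _ _ => abs_nonneg _)
      (Finset.mem_range.mpr (by omega))
  · intro i hi1 hi
    rw [iteratedFDerivWithin_univ]
    have h1 := norm_iteratedFDeriv_FA hQL i (gr_one (n := n)) 0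
    have h2 : ∫ x : E n, Real.exp (inner ℝ x (0 : E n) - W x) * (‖x‖ ^ i * ‖(1 : ℝ)‖) ≤ M i := by
      refine integral_mono_of_nonneg (Filter.Eventually.of_forall fun x => by positivity)
        (integrable_pow_exp ha i) (Filter.Eventually.of_forall fun x => ?_)
      simp only [inner_zero_right, zero_sub, norm_one, mul_one]
      have h3 : Real.exp (-W x) ≤ Real.exp (-(a * ‖x‖ ^ 2)) :=
        Real.exp_le_exp.mpr (by have := (hW x).1; linarith)
      gcongr
    have h3 : M i ≤ D := by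
      have := Finset.single_le_sum (f := M) (s := Finset.range (k + 1)) (fun j _ => hM0 j)
        (Finset.mem_range.mpr (by omega : i < k + 1))
      linarith
    have h4 : 1 ≤ D := by
      have : 0 ≤ ∑ i ∈ Finset.range (k + 1), M i := Finset.sum_nonneg fun j _ => hM0 j
      linarith
    exact (h1.trans h2).trans (h3.trans (le_self_pow₀ h4 (by omega)))

/-- fields `smooth` and `bdd` of `Reg (logLap W) (1/C) (1/c)` -/
theorem reg_logLap_smooth {n : ℕ} {W : E n → ℝ} {c C : ℝ} (hC : 0 < C) (h : Reg W c C) :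
    ContDiff ℝ (⊤ : ℕ∞) (logLap W) ∧
      ∀ k : ℕ, 2 ≤ k → ∃ B : ℝ, ∀ y, ‖iteratedFDeriv ℝ k (logLap W) y‖ ≤ B := by
  have hc := h.c_pos
  refine ⟨logLap_smooth (reg_QL h), fun k hk => ?_⟩
  obtain ⟨i, rfl⟩ : ∃ i, k = i + 2 := ⟨k - 2, by omega⟩
  obtain ⟨B, hB⟩ := bound_at_zero n (i + 2) (c / 2) (C / 2) (by linarith) (by linarith)
  refine ⟨B, fun y => ?_⟩
  obtain ⟨m, hm⟩ := exists_center h y
  have hcont := h.smooth.continuous
  have hct : Continuous (fun z : E n => W (m + z) - W m - inner ℝ z y) := by fun_prop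
  have hWt : QL (fun z : E n => W (m + z) - W m - inner ℝ z y) :=
    ⟨hct, c / 2, 0, by linarith, fun z => by simpa using (hm z).1⟩
  rw [norm_iter_shift (reg_QL h) m y hWt i]
  exact hB _ hct hm

end Vale.Agent.P227.M.RL983
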