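import Vale.Agent.P227.M.Defs

/-! # P227/M, block LK: smoothness of weighted Laplace integrals `y ↦ ∫ e^{⟨x,y⟩ - W x} A x dx`. -/

open MeasureTheory
open scoped Topology

namespace Vale.Agent.P227.M.RL983

/-- growth class: continuous, at most exponential growth -/
structure Gr {n : ℕ} {H : Type} [NormedAddCommGroup H] [NormedSpace ℝ H] (A : E n → H) : Prop where
  cont : Continuous A
  growth : ∃ K r : ℝ, 0 ≤ K ∧ ∀ x, ‖A x‖ ≤ K * Real.exp (r * ‖x‖)

/-- quadratic lower bound of the potential -/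
structure QL {n : ℕ} (W : E n → ℝ) : Prop where
  cont : Continuous W
  lower : ∃ a b : ℝ, 0 < a ∧ ∀ x, a * ‖x‖ ^ 2 - b ≤ W x

noncomputable def FA {n : ℕ} (W : E n → ℝ) {H : Type} [NormedAddCommGroup H] [NormedSpace ℝ H]
    (A : E n → H) (y : E n) : H := ∫ x, Real.exp (inner ℝ x y - W x) • A x

theorem integrable_exp_sq {n : ℕ} (a s : ℝ) (ha : 0 < a) :
    Integrable (fun x : E n => Real.exp (s * ‖x‖ - a * ‖x‖ ^ 2)) := by
  have h1 : Integrable (fun x : E n => Real.exp (-(a/2) * ‖x‖ ^ 2)) := by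
    have h := GaussianFourier.integrable_cexp_neg_mul_sq_norm_add (V := E n) (b := ((a/2 : ℝ) : ℂ))
      (by simpa using ha) 0 0
    have h2 := h.norm
    refine h2.congr (Filter.Eventually.of_forall fun x => ?_)
    simp only [inner_zero_left, Complex.ofReal_zero, mul_zero, add_zero]
    rw [Complex.norm_exp]
    congr 1
    rw [← Complex.ofReal_neg, ← Complex.ofReal_pow, ← Complex.ofReal_mul, Complex.ofReal_re]
  refine (h1.const_mul (Real.exp (s ^ 2 / (2 * a)))).mono' (by fun_prop) ?_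
  refine Filter.Eventually.of_forall fun x => ?_
  rw [Real.norm_of_nonneg (Real.exp_pos _).le, ← Real.exp_add]
  apply Real.exp_le_exp.mpr
  have : s * ‖x‖ ≤ s ^ 2 / (2 * a) + (a/2) * ‖x‖ ^ 2 := by
    have h3 : 0 ≤ (s - a * ‖x‖) ^ 2 / (2 * a) := by positivity
    have h4 : (s - a * ‖x‖) ^ 2 / (2 * a) = s ^ 2 / (2 * a) - s * ‖x‖ + (a/2) * ‖x‖ ^ 2 := by
      field_simp
      ring
    linarith
  linarith

section
variable {n : ℕ} {W : E n → ℝ} {H : Type} [NormedAddCommGroup H] [NormedSpace ℝ H]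

theorem norm_bound {A : E n → H} {K r a b : ℝ} (hK : 0 ≤ K)
    (hA : ∀ x, ‖A x‖ ≤ K * Real.exp (r * ‖x‖)) (hW : ∀ x, a * ‖x‖ ^ 2 - b ≤ W x)
    {R : ℝ} {y : E n} (hy : ‖y‖ ≤ R) (x : E n) :
    ‖Real.exp (inner ℝ x y - W x) • A x‖ ≤ (K * Real.exp b) * Real.exp ((R + r) * ‖x‖ - a * ‖x‖ ^ 2) := by
  rw [norm_smul, Real.norm_of_nonneg (Real.exp_pos _).le]
  have h1 : inner ℝ x y ≤ R * ‖x‖ := by
    calc inner ℝ x y ≤ ‖x‖ * ‖y‖ := real_inner_le_norm x y
      _ ≤ ‖x‖ * R := by gcongr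
      _ = R * ‖x‖ := mul_comm _ _
  calc Real.exp (inner ℝ x y - W x) * ‖A x‖
      ≤ Real.exp (R * ‖x‖ - (a * ‖x‖ ^ 2 - b)) * (K * Real.exp (r * ‖x‖)) := by
        have h2 := hW x
        have h3 : Real.exp (inner ℝ x y - W x) ≤ Real.exp (R * ‖x‖ - (a * ‖x‖ ^ 2 - b)) :=
          Real.exp_le_exp.mpr (by linarith)
        exact mul_le_mul h3 (hA x) (norm_nonneg _) (Real.exp_pos _).le
    _ = (K * Real.exp b) * Real.exp ((R + r) * ‖x‖ - a * ‖x‖ ^ 2) := by
        rw [show Real.exp (R * ‖x‖ - (a * ‖x‖ ^ 2 - b)) * (K * Real.exp (r * ‖x‖))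
          = K * (Real.exp (R * ‖x‖ - (a * ‖x‖ ^ 2 - b)) * Real.exp (r * ‖x‖)) by ring,
          mul_assoc, ← Real.exp_add, ← Real.exp_add]
        congr 2
        ring

theorem integrable_FA (hW : QL W) {A : E n → H} (hA : Gr A) (y : E n) :
    Integrable (fun x => Real.exp (inner ℝ x y - W x) • A x) := by
  obtain ⟨a, b, ha, hWb⟩ := hW.lower
  obtain ⟨K, r, hK, hAb⟩ := hA.growth
  have hc1 := hW.cont
  have hc2 := hA.cont
  refine ((integrable_exp_sq a (‖y‖ + r) ha).const_mul (K * Real.exp b)).mono' ?_ ?_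
  · exact (by fun_prop : Continuous fun x => Real.exp (inner ℝ x y - W x) • A x).aestronglyMeasurable
  · exact Filter.Eventually.of_forall fun x => norm_bound hK hAb hWb le_rfl x

/-- multiplication by `x` (as a functional) -/
noncomputable def mulX (A : E n → H) (x : E n) : E n →L[ℝ] H := (innerSL ℝ x).smulRight (A x)

theorem norm_mulX (A : E n → H) (x : E n) : ‖mulX A x‖ = ‖x‖ * ‖A x‖ := by
  unfold mulX
  rw [ContinuousLinearMap.norm_smulRight_apply, innerSL_apply_norm]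

theorem Gr.mulX {A : E n → H} (hA : Gr A) : Gr (mulX A) := by
  obtain ⟨K, r, hK, hAb⟩ := hA.growth
  refine ⟨?_, K, r + 1, hK, fun x => ?_⟩
  · have hc := hA.cont
    unfold RL983.mulX
    exact (ContinuousLinearMap.smulRightL ℝ (E n) H).continuous₂.comp
      (((innerSL ℝ).continuous).prodMk hc)
  · rw [norm_mulX]
    have h1 : ‖x‖ ≤ Real.exp ‖x‖ := by
      have := Real.add_one_le_exp ‖x‖
      linarith
    calc ‖x‖ * ‖A x‖ ≤ Real.exp ‖x‖ * (K * Real.exp (r * ‖x‖)) := by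
          apply mul_le_mul h1 (hAb x) (norm_nonneg _) (Real.exp_pos _).le
      _ = K * Real.exp ((r + 1) * ‖x‖) := by
          rw [show (r + 1) * ‖x‖ = ‖x‖ + r * ‖x‖ by ring, Real.exp_add]
          ring

theorem hasFDerivAt_FA (hW : QL W) {A : E n → H} (hA : Gr A) (y : E n) :
    HasFDerivAt (FA W A) (FA W (mulX A) y) y := by
  obtain ⟨a, b, ha, hWb⟩ := hW.lower
  have hA' := hA.mulX
  obtain ⟨K, r, hK, hAb⟩ := hA'.growth
  have hc1 := hW.cont
  have hc2 := hA.cont
  have hc3 := hA'.cont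
  refine hasFDerivAt_integral_of_dominated_of_fderiv_le (𝕜 := ℝ)
    (F := fun y x => Real.exp (inner ℝ x y - W x) • A x)
    (F' := fun y x => Real.exp (inner ℝ x y - W x) • mulX A x)
    (bound := fun x => (K * Real.exp b) * Real.exp (((‖y‖ + 1) + r) * ‖x‖ - a * ‖x‖ ^ 2))
    (s := Metric.ball y 1) (Metric.ball_mem_nhds y one_pos) ?_ (integrable_FA hW hA y) ?_ ?_ ?_ ?_
  · exact Filter.Eventually.of_forall fun z =>
      (by fun_prop : Continuous fun x => Real.exp (inner ℝ x z - W x) • A x).aestronglyMeasurable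
  · exact (by fun_prop : Continuous fun x => Real.exp (inner ℝ x y - W x) • mulX A x).aestronglyMeasurable
  · refine Filter.Eventually.of_forall fun x z hz => ?_
    have hz' : ‖z‖ ≤ ‖y‖ + 1 := by
      have h1 : ‖z - y‖ < 1 := by simpa [dist_eq_norm] using hz
      have h2 : ‖z‖ ≤ ‖y‖ + ‖z - y‖ := by
        calc ‖z‖ = ‖y + (z - y)‖ := by congr 1; abel
          _ ≤ _ := norm_add_le _ _
      linarith
    exact norm_bound hK hAb hWb hz' x
  · exact (integrable_exp_sq a _ ha).const_mul _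
  · refine Filter.Eventually.of_forall fun x z _ => ?_
    have h1 : HasFDerivAt (fun z : E n => inner ℝ x z - W x) (innerSL ℝ x) z :=
      ((innerSL ℝ x).hasFDerivAt).sub_const _
    have h2 := h1.exp.smul_const (A x)
    refine h2.congr_fderiv ?_
    ext w
    simp [mulX, mul_smul]

theorem fderiv_FA (hW : QL W) {A : E n → H} (hA : Gr A) :
    fderiv ℝ (FA W A) = FA W (mulX A) := by
  funext y
  exact (hasFDerivAt_FA hW hA y).fderiv

end

theorem contDiff_FA_nat {n : ℕ} {W : E n → ℝ} (hW : QL W) (k : ℕ) :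
    ∀ {H : Type} [NormedAddCommGroup H] [NormedSpace ℝ H] {A : E n → H} (_ : Gr A),
      ContDiff ℝ k (FA W A) := by
  induction k with
  | zero =>
    intro H _ _ A hA
    rw [Nat.cast_zero, contDiff_zero]
    exact continuous_iff_continuousAt.mpr fun y => (hasFDerivAt_FA hW hA y).continuousAt
  | succ k ih =>
    intro H _ _ A hA
    rw [show ((k + 1 : ℕ) : WithTop ℕ∞) = (k : WithTop ℕ∞) + 1 by push_cast; rfl,
      contDiff_succ_iff_fderiv]
    refine ⟨fun y => (hasFDerivAt_FA hW hA y).differentiableAt, ?_, ?_⟩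
    · intro h
      exact absurd h (by simp)
    · rw [fderiv_FA hW hA]
      exact ih hA.mulX

theorem contDiff_FA {n : ℕ} {W : E n → ℝ} (hW : QL W)
    {H : Type} [NormedAddCommGroup H] [NormedSpace ℝ H] {A : E n → H} (hA : Gr A) :
    ContDiff ℝ (⊤ : ℕ∞) (FA W A) := by
  rw [contDiff_infty]
  intro k
  exact contDiff_FA_nat hW k hA

theorem norm_iteratedFDeriv_FA {n : ℕ} {W : E n → ℝ} (hW : QL W) (k : ℕ) :
    ∀ {H : Type} [NormedAddCommGroup H] [NormedSpace ℝ H] {A : E n → H} (_ : Gr A) (y : E n),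
      ‖iteratedFDeriv ℝ k (FA W A) y‖ ≤ ∫ x, Real.exp (inner ℝ x y - W x) * (‖x‖ ^ k * ‖A x‖) := by
  induction k with
  | zero =>
    intro H _ _ A hA y
    rw [norm_iteratedFDeriv_zero]
    refine (norm_integral_le_integral_norm _).trans (le_of_eq ?_)
    refine integral_congr_ae (Filter.Eventually.of_forall fun x => ?_)
    simp only [norm_smul, Real.norm_of_nonneg (Real.exp_pos _).le, pow_zero, one_mul]
  | succ k ih =>
    intro H _ _ A hA y
    rw [← norm_iteratedFDeriv_fderiv, fderiv_FA hW hA]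
    refine (ih hA.mulX y).trans (le_of_eq ?_)
    refine integral_congr_ae (Filter.Eventually.of_forall fun x => ?_)
    simp only [norm_mulX]
    ring

end Vale.Agent.P227.M.RL983
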