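import Vale.Agent.P227.M.Stmts

/-! P227/M/LK: calculus rules for `Reg`, `Nice`, `SelfConc` (lines, scaling, dilation, sums). -/

open MeasureTheory
open scoped Topology

namespace Vale.Agent.P227.M.LK687

variable {n : ℕ}

theorem vec_sum (v : E n) : v = ∑ i, v i • ei i := by
  ext j
  simp [ei, Pi.single_apply]

/-- `Df(x) v = Σ v_i ∂_i f`. -/
theorem fderiv_eq_sum (f : E n → ℝ) (x v : E n) : fderiv ℝ f x v = ∑ i, v i * pd i f x := by
  conv_lhs => rw [vec_sum v]
  rw [map_sum]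
  refine Finset.sum_congr rfl fun i _ => ?_
  rw [map_smul]; rfl

theorem contDiff_pd {f : E n → ℝ} (hf : ContDiff ℝ (⊤ : ℕ∞) f) (i : Fin n) :
    ContDiff ℝ (⊤ : ℕ∞) (pd i f) := by
  have h : ContDiff ℝ (⊤ : ℕ∞) (fderiv ℝ f) :=
    hf.fderiv_right (m := ((⊤ : ℕ∞) : WithTop ℕ∞)) (by simp)
  exact h.clm_apply contDiff_const

theorem contDiff_line {f : E n → ℝ} (hf : ContDiff ℝ (⊤ : ℕ∞) f) (x v : E n) :
    ContDiff ℝ (⊤ : ℕ∞) (fun t : ℝ => f (x + t • v)) :=
  hf.comp (contDiff_const.add (contDiff_id.smul contDiff_const))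

theorem hasDerivAt_line {f : E n → ℝ} (hf : Differentiable ℝ f) (x v : E n) (t : ℝ) :
    HasDerivAt (fun t : ℝ => f (x + t • v)) (fderiv ℝ f (x + t • v) v) t := by
  have h1 : HasDerivAt (fun t : ℝ => x + t • v) v t := by
    simpa using ((hasDerivAt_id t).smul_const v).const_add x
  exact ((hf (x + t • v)).hasFDerivAt).comp_hasDerivAt t h1

theorem iteratedDeriv_two_line {f : E n → ℝ} (hf : ContDiff ℝ (⊤ : ℕ∞) f) (x v : E n) :
    iteratedDeriv 2 (fun t : ℝ => f (x + t • v)) 0 = qf (hess f x) v := by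
  have hd : Differentiable ℝ f := hf.differentiable (by simp)
  have h1 : deriv (fun t : ℝ => f (x + t • v)) =
      fun t => ∑ j, v j * pd j f (x + t • v) := by
    funext t
    rw [(hasDerivAt_line hd x v t).deriv, fderiv_eq_sum]
  have h2 : HasDerivAt (fun t : ℝ => ∑ j, v j * pd j f (x + t • v))
      (∑ j, v j * fderiv ℝ (pd j f) (x + (0 : ℝ) • v) v) 0 := by
    refine HasDerivAt.fun_sum fun j _ => ?_
    exact (hasDerivAt_line ((contDiff_pd hf j).differentiable (by simp)) x v 0).const_mul _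
  rw [iteratedDeriv_succ, iteratedDeriv_one, h1, h2.deriv, zero_smul, add_zero]
  have h3 : ∀ j, v j * fderiv ℝ (pd j f) x v = ∑ i, hess f x i j * v i * v j := fun j => by
    rw [fderiv_eq_sum (pd j f) x v, Finset.mul_sum]
    refine Finset.sum_congr rfl fun i _ => ?_
    rw [hess]; ring
  rw [Finset.sum_congr rfl fun j _ => h3 j, Finset.sum_comm, qf]

theorem iteratedDeriv_line {f : E n → ℝ} (hf : ContDiff ℝ (⊤ : ℕ∞) f) (x v : E n) (m : ℕ) :
    iteratedDeriv m (fun t : ℝ => f (x + t • v)) 0 = iteratedFDeriv ℝ m f x (fun _ => v) := by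
  have hg : ContDiff ℝ (⊤ : ℕ∞) (fun z : E n => f (x + z)) := hf.comp (contDiff_const.add contDiff_id)
  have h1 := (ContinuousLinearMap.toSpanSingleton ℝ v).iteratedFDeriv_comp_right
    (f := fun z : E n => f (x + z)) (hg.of_le (m := ((m : ℕ) : WithTop ℕ∞)) (by exact_mod_cast le_top))
    (0 : ℝ) (i := m) le_rfl
  have h2 : (fun t : ℝ => f (x + t • v)) =
      (fun z : E n => f (x + z)) ∘ (ContinuousLinearMap.toSpanSingleton ℝ v) := by
    funext t; simp [ContinuousLinearMap.toSpanSingleton_apply]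
  rw [iteratedDeriv_eq_iteratedFDeriv, h2, h1]
  simp only [ContinuousMultilinearMap.compContinuousLinearMap_apply, map_zero]
  rw [iteratedFDeriv_comp_add_left]
  simp [ContinuousLinearMap.toSpanSingleton_apply]

theorem abs_iteratedDeriv_line_le {f : E n → ℝ} (hf : ContDiff ℝ (⊤ : ℕ∞) f) (x v : E n) (m : ℕ)
    {B : ℝ} (hB : ‖iteratedFDeriv ℝ m f x‖ ≤ B) :
    |iteratedDeriv m (fun t : ℝ => f (x + t • v)) 0| ≤ B * ‖v‖ ^ m := by
  rw [iteratedDeriv_line hf, ← Real.norm_eq_abs]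
  refine ((iteratedFDeriv ℝ m f x).le_opNorm _).trans ?_
  rw [Finset.prod_const, Finset.card_univ, Fintype.card_fin]
  gcongr

end Vale.Agent.P227.M.LK687
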